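import Vale.Agent.P167.H542.Q.Fam
import Vale.Agent.P167.XDL.Pot
import Vale.Agent.P167.XDL.Core

/-!
# P167, general `q`: the family of the Dobrushin functionals in the enlargements of a lattice polygon

`BD S θ β`: polygons `q n` around `S.D n` with base `q n 0`, junctions `k n` (`k n = 0`: wired,
`k n` the number of sides: free) and configurations `η n` outside with Dobrushin boundary conditions.
`famB` is the family; its value at a real charge is the expectation of `QX.XB` in the random cluster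
model with `√q = 2 cos θ`, and the quotient of the partition functions `QX.ZQ` with the phases `stag`.
-/

open Finset MeasureTheory Filter Topology

namespace Vale.Agent.P167.H542.Q

open Vale.Agent.P167 Vale.Agent.P167.BR Vale.Agent.P167.H542 Vale.Agent.P167.FK
open Vale.Agent.P167.E6 (IsPolygon Encloses)
open Vale.Agent.P167.H718 (Dob)
open Vale.Agent.P167.CA (cms)

/-- The base point of a polygon is a base site. -/
theorem bas_poly {n : ℕ} {q : ZMod n → ℤ × ℤ} {D : Finset (ℤ × ℤ)} (hq : IsPolygon q)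
    (hD : Encloses q D) : Bas D (q 0) := by
  exact ⟨XDL.base_mem hq hD, fun ω ℓ hℓ hD' => XDL.W_base hq hD (loop_mem_pcs hℓ hD') fun e he =>
    hD' _ (Finset.mem_image_of_mem _ he)⟩

/-- The data of the family of the Dobrushin functionals. -/
structure BD (S : CA.Dat) (θ β : ℝ) where
  L : Filter ℕ
  le : L ≤ atTop
  cg : L.IsCountablyGenerated
  N : ℕ → ℕ
  q : ∀ n, ZMod (N n) → ℤ × ℤ
  k : ℕ → ℕ
  η : ℕ → Cfg
  poly : ∀ᶠ n in L, IsPolygon (q n)
  enc : ∀ᶠ n in L, Encloses (q n) (S.D n)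
  kle : ∀ᶠ n in L, k n ≤ N n
  dob : ∀ᶠ n in L, Dob (η n) (S.D n) (q n) (k n)

namespace BD

variable {S : CA.Dat} {θ β : ℝ}

/-- The general data. -/
noncomputable def fd (X : BD S θ β) (h0 : 0 < θ) (h1 : θ ≤ Real.pi / 3)
    (hβ : Real.cos (θ / 2 + β) = Real.sin θ) : FD S (2 * Real.cos θ) θ (cB θ) where
  L := X.L
  le := X.le
  cg := X.cg
  η := X.η
  th n := thB θ β (X.q n) (S.D n) (X.k n)
  p n := X.q n 0
  good := X.dob.mono fun _ h => h.good
  phs := Eventually.of_forall fun _ => phs_thB h0 h1 hβ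
  bas := by
    filter_upwards [X.poly, X.enc] with n h2 h3
    exact bas_poly h2 h3

theorem cos_pos (h0 : 0 < θ) (h1 : θ ≤ Real.pi / 3) : 0 < 2 * Real.cos θ := by
  have hpi := Real.pi_pos
  have := Real.cos_pos_of_mem_Ioo (x := θ) ⟨by linarith, by linarith⟩
  linarith

theorem one_le (h0 : 0 < θ) (h1 : θ ≤ Real.pi / 3) : 1 ≤ 2 * Real.cos θ := by
  have h := Real.cos_le_cos_of_nonneg_of_le_pi h0.le (by linarith [Real.pi_pos]) h1
  rw [Real.cos_pi_div_three] at h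
  linarith

/-- **The family of the Dobrushin functionals.** -/
noncomputable def famB (X : BD S θ β) (h0 : 0 < θ) (h1 : θ ≤ Real.pi / 3)
    (hβ : Real.cos (θ / 2 + β) = Real.sin θ) : CAQ.Fam S :=
  fam (cos_pos h0 h1) (X.fd h0 h1 hβ) (2 / (Real.pi - θ))

/-- **(M2)** -/
theorem famB_M2 (X : BD S θ β) (h0 : 0 < θ) (h1 : θ ≤ Real.pi / 3)
    (hβ : Real.cos (θ / 2 + β) = Real.sin θ) (hRSW : RSW (2 * Real.cos θ)) :
    (X.famB h0 h1 hβ).M2 :=
  fam_M2 (cos_pos h0 h1) (one_le h0 h1) hRSW h0.le h1 _ _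

/-- The value at a real charge. -/
theorem famB_V (X : BD S θ β) (h0 : 0 < θ) (h1 : θ ≤ Real.pi / 3)
    (hβ : Real.cos (θ / 2 + β) = Real.sin θ) (n : ℕ) (f : ℂ → ℝ) :
    (X.famB h0 h1 hβ).V n f = Ex (2 * Real.cos θ) (S.D n) (X.η n)
      (QX.XB θ β (X.q n) (S.D n) (X.k n) (cms f (1 / n))) := by
  show (VQ (2 * Real.cos θ) (S.D n) (X.η n) (thB θ β (X.q n) (S.D n) (X.k n)) (X.q n 0)
    fun z => (cms f (1 / n) z : ℂ)).re = _
  rw [VQ_XB hβ, Complex.ofReal_re]

/-- The value as a quotient of partition functions. -/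
theorem famB_ZQ (X : BD S θ β) (h0 : 0 < θ) (h1 : θ ≤ Real.pi / 3)
    (hβ : Real.cos (θ / 2 + β) = Real.sin θ) (f : ℂ → ℝ) :
    ∀ᶠ n in X.L, QX.ZQ θ (X.q n) (S.D n) (QX.stag θ β (X.q n) (X.k n)) (cms f (1 / n)) =
      QX.ZQ θ (X.q n) (S.D n) (QX.stag θ β (X.q n) (X.k n)) 0 * (X.famB h0 h1 hβ).V n f := by
  have hpi := Real.pi_pos
  filter_upwards [X.poly, X.enc, X.kle, X.dob] with n h2 h3 h4 h5
  rw [famB_V]
  exact QX.ZQ_stag h2 h3 (Real.sin_pos_of_pos_of_lt_pi h0 (by linarith)).ne'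
    (Real.cos_pos_of_mem_Ioo ⟨by linarith, by linarith⟩) hβ h4 h5 _

/-- The potential of the charge `f`. -/
theorem famB_H (X : BD S θ β) (h0 : 0 < θ) (h1 : θ ≤ Real.pi / 3)
    (hβ : Real.cos (θ / 2 + β) = Real.sin θ) (n : ℕ) (f : ℂ → ℝ) (z : ℤ × ℤ) :
    (X.famB h0 h1 hβ).H n f z = Ex (2 * Real.cos θ) (S.D n) (X.η n)
      (XTR (thB θ β (X.q n) (S.D n) (X.k n)) (S.D n) (X.q n 0) (cms f (1 / n)) z) := rfl

theorem cms_zero (n : ℕ) : cms (fun _ => 0) (1 / n) = fun _ => 0 := by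
  funext z
  unfold CA.cms
  simp

/-- The potential of the charge `0`. -/
theorem famB_H0 (X : BD S θ β) (h0 : 0 < θ) (h1 : θ ≤ Real.pi / 3)
    (hβ : Real.cos (θ / 2 + β) = Real.sin θ) (n : ℕ) (z : ℤ × ℤ) :
    (X.famB h0 h1 hβ).H n (fun _ => 0) z = Ex (2 * Real.cos θ) (S.D n) (X.η n)
      (fun ω => open Classical in
        ∑ A ∈ (pcs ω (S.D n)).filter fun A => Sep (S.D n) A z (X.q n 0),
          Real.tan (thB θ β (X.q n) (S.D n) (X.k n) A)) := by
  show HQ (2 * Real.cos θ) (S.D n) (X.η n) (thB θ β (X.q n) (S.D n) (X.k n)) (X.q n 0)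
    (cms (fun _ => 0) (1 / n)) z = _
  rw [cms_zero]
  exact HQ_zero (fun A => (lt_of_lt_of_le (cB_pos h0 h1) ((phs_thB h0 h1 hβ).cs A)).ne') z

end BD

end Vale.Agent.P167.H542.Q
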