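import Vale.Agent.P167.H542.Q.Pc
import Vale.Agent.P167.FKA.Basic

/-!
# P167, general `q`, block Q-M2: the functional with arbitrary phases in the random cluster model

`VQ Q D η th p f` is the complex expectation, in the random cluster model in `D` with the
configuration `η` outside, of the product over the pieces `A` of `D` of
`cos (th A + mass) / cos (th A)`. It is entire in the charge; its derivative in the direction of a
site is minus the expectation of `XTR`.
-/

open Finset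

namespace Vale.Agent.P167.H542.Q

open Vale.Agent.P167 Vale.Agent.P167.BR Vale.Agent.P167.H542 Vale.Agent.P167.FK
open Vale.Agent.P167.FKA (Zq_pos)

/-- Complex expectation in the finite domain `D` with the configuration `η` outside. -/
noncomputable def ExC (Q : ℝ) (D : Finset (ℤ × ℤ)) (η : Cfg) (F : Cfg → ℂ) : ℂ :=
  (∑ S ∈ D.powerset, ((Q ^ LD D (cf D η S) : ℝ) : ℂ) * F (cf D η S)) / (Zq Q D η : ℂ)

variable {Q : ℝ} {D : Finset (ℤ × ℤ)} {η : Cfg} {p : ℤ × ℤ} {th : Finset Ed → ℝ}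

theorem ExC_ofReal (F : Cfg → ℝ) : ExC Q D η (fun ω => (F ω : ℂ)) = (Ex Q D η F : ℂ) := by
  unfold ExC Ex
  push_cast
  rfl

theorem norm_ExC_le (hQ : 0 < Q) (F : Cfg → ℂ) : ‖ExC Q D η F‖ ≤ Ex Q D η (fun ω => ‖F ω‖) := by
  unfold ExC Ex
  rw [norm_div, Complex.norm_real, Real.norm_of_nonneg (Zq_pos hQ D η).le]
  refine div_le_div_of_nonneg_right ?_ (Zq_pos hQ D η).le
  refine (norm_sum_le _ _).trans (le_of_eq (Finset.sum_congr rfl fun S _ => ?_))
  rw [norm_mul, Complex.norm_real, Real.norm_of_nonneg (by positivity)]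

theorem ExC_const (hQ : 0 < Q) (a : ℂ) : ExC Q D η (fun _ => a) = a := by
  unfold ExC
  have h : (Zq Q D η : ℂ) ≠ 0 := by exact_mod_cast (Zq_pos hQ D η).ne'
  rw [← Finset.sum_mul, mul_comm, mul_div_assoc]
  have e : (∑ S ∈ D.powerset, ((Q ^ LD D (cf D η S) : ℝ) : ℂ)) = (Zq Q D η : ℂ) := by
    unfold Zq
    push_cast
    rfl
  rw [e, div_self h, mul_one]

theorem hasDerivAt_ExC {F F' : ℂ → Cfg → ℂ} {s : ℂ}
    (h : ∀ ω, HasDerivAt (fun s => F s ω) (F' s ω) s) :
    HasDerivAt (fun s => ExC Q D η (F s)) (ExC Q D η (F' s)) s := by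
  unfold ExC
  refine HasDerivAt.div_const (HasDerivAt.fun_sum fun S _ => ?_) _
  exact (h _).const_mul _

/-- The weight for a real mass. -/
noncomputable def wR (θ t : ℝ) : ℝ := Real.cos (θ + t) / Real.cos θ

/-- Minus its derivative. -/
noncomputable def wR' (θ t : ℝ) : ℝ := Real.sin (θ + t) / Real.cos θ

theorem wC_ofReal (θ t : ℝ) : wC θ (t : ℂ) = (wR θ t : ℂ) := by
  unfold wC wR
  push_cast
  rfl

theorem wC'_ofReal (θ t : ℝ) : wC' θ (t : ℂ) = (wR' θ t : ℂ) := by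
  unfold wC' wR'
  push_cast
  rfl

/-- The functional for a real charge. -/
noncomputable def XR (th : Finset Ed → ℝ) (D : Finset (ℤ × ℤ)) (p : ℤ × ℤ) (f : ℤ × ℤ → ℝ)
    (ω : Cfg) : ℝ :=
  ∏ A ∈ pcs ω D, wR (th A) (mass D p f A)

open Classical in
/-- The sum over the pieces which separate `z` from `p` of minus the derivative of the weight times
the other weights. -/
noncomputable def XTR (th : Finset Ed → ℝ) (D : Finset (ℤ × ℤ)) (p : ℤ × ℤ) (f : ℤ × ℤ → ℝ)
    (z : ℤ × ℤ) (ω : Cfg) : ℝ :=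
  ∑ A ∈ (pcs ω D).filter fun A => Sep D A z p, wR' (th A) (mass D p f A) *
    ∏ B ∈ (pcs ω D).erase A, wR (th B) (mass D p f B)

theorem XQ_ofReal (f : ℤ × ℤ → ℝ) (ω : Cfg) :
    XQ th D p (fun z => (f z : ℂ)) ω = (XR th D p f ω : ℂ) := by
  unfold XQ XR
  rw [Complex.ofReal_prod]
  exact Finset.prod_congr rfl fun A _ => by rw [massC_ofReal, wC_ofReal]

theorem XQ_zero (hc : ∀ A, Real.cos (th A) ≠ 0) (ω : Cfg) : XQ th D p (fun _ => 0) ω = 1 := by
  unfold XQ
  refine Finset.prod_eq_one fun A _ => ?_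
  have : massC D p (fun _ => 0) A = 0 := by
    classical
    unfold massC
    simp
  rw [this, wC_zero (hc A)]

open Classical in
/-- The derivative of `XQ (f + s g)` in `s`, with the opposite sign. -/
noncomputable def DXQ (th : Finset Ed → ℝ) (D : Finset (ℤ × ℤ)) (p : ℤ × ℤ) (f g : ℤ × ℤ → ℂ)
    (ω : Cfg) : ℂ :=
  ∑ A ∈ pcs ω D, massC D p g A * wC' (th A) (massC D p f A) *
    ∏ B ∈ (pcs ω D).erase A, wC (th B) (massC D p f B)

theorem hasDerivAt_XQ (f g : ℤ × ℤ → ℂ) (ω : Cfg) (s : ℂ) :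
    HasDerivAt (fun s : ℂ => XQ th D p (fun z => f z + s * g z) ω)
      (-DXQ th D p (fun z => f z + s * g z) g ω) s := by
  classical
  have hA : ∀ A ∈ pcs ω D,
      HasDerivAt (fun s : ℂ => wC (th A) (massC D p (fun z => f z + s * g z) A))
      (-wC' (th A) (massC D p (fun z => f z + s * g z) A) * massC D p g A) s := by
    intro A _
    have h1 : HasDerivAt (fun s : ℂ => massC D p (fun z => f z + s * g z) A)
        (massC D p g A) s := by
      simp only [massC_add_smul]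
      simpa using ((hasDerivAt_id s).mul_const (massC D p g A)).const_add (massC D p f A)
    exact (hasDerivAt_wC _ _).comp s h1
  have h := HasDerivAt.fun_finsetProd hA
  unfold XQ
  refine h.congr_deriv ?_
  unfold DXQ
  rw [← Finset.sum_neg_distrib]
  refine Finset.sum_congr rfl fun A _ => ?_
  rw [smul_eq_mul]
  ring

theorem DXQ_eq (f g : ℤ × ℤ → ℝ) (ω : Cfg) :
    DXQ th D p (fun z => (f z : ℂ)) (fun z => (g z : ℂ)) ω =
      ((∑ z ∈ sites D, g z * XTR th D p f z ω : ℝ) : ℂ) := by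
  classical
  have h1 : DXQ th D p (fun z => (f z : ℂ)) (fun z => (g z : ℂ)) ω =
      ((∑ A ∈ pcs ω D, mass D p g A * wR' (th A) (mass D p f A) *
        ∏ B ∈ (pcs ω D).erase A, wR (th B) (mass D p f B) : ℝ) : ℂ) := by
    unfold DXQ
    push_cast
    refine Finset.sum_congr rfl fun A _ => ?_
    rw [massC_ofReal, massC_ofReal, wC'_ofReal]
    congr 1
    exact Finset.prod_congr rfl fun B _ => by rw [massC_ofReal, wC_ofReal]
  rw [h1]
  congr 1
  unfold XTR
  simp only [mul_sum, Finset.sum_filter]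
  rw [Finset.sum_comm]
  refine Finset.sum_congr rfl fun A _ => ?_
  rw [mass, Finset.sum_mul, Finset.sum_mul]
  refine Finset.sum_congr rfl fun z _ => ?_
  split_ifs
  · ring
  · simp

/-- **The functional.** -/
noncomputable def VQ (Q : ℝ) (D : Finset (ℤ × ℤ)) (η : Cfg) (th : Finset Ed → ℝ) (p : ℤ × ℤ)
    (f : ℤ × ℤ → ℂ) : ℂ :=
  ExC Q D η (XQ th D p f)

/-- The potential. -/
noncomputable def HQ (Q : ℝ) (D : Finset (ℤ × ℤ)) (η : Cfg) (th : Finset Ed → ℝ) (p : ℤ × ℤ)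
    (f : ℤ × ℤ → ℝ) (z : ℤ × ℤ) : ℝ :=
  Ex Q D η (XTR th D p f z)

theorem VQ_ofReal (f : ℤ × ℤ → ℝ) :
    VQ Q D η th p (fun z => (f z : ℂ)) = (Ex Q D η (XR th D p f) : ℂ) := by
  unfold VQ
  rw [← ExC_ofReal]
  congr 1
  funext ω
  exact XQ_ofReal f ω

theorem VQ_zero (hQ : 0 < Q) (hc : ∀ A, Real.cos (th A) ≠ 0) :
    VQ Q D η th p (fun _ => 0) = 1 := by
  unfold VQ
  have : XQ th D p (fun _ => 0) = fun _ => 1 := funext fun ω => XQ_zero hc ω
  rw [this, ExC_const hQ]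

theorem hasDerivAt_VQ (f g : ℤ × ℤ → ℂ) (s : ℂ) :
    HasDerivAt (fun s : ℂ => VQ Q D η th p (fun z => f z + s * g z))
      (ExC Q D η (fun ω => -DXQ th D p (fun z => f z + s * g z) g ω)) s := by
  have := hasDerivAt_ExC (Q := Q) (D := D) (η := η)
    (F := fun s => XQ th D p (fun z => f z + s * g z))
    (F' := fun s ω => -DXQ th D p (fun z => f z + s * g z) g ω) (s := s)
    fun ω => hasDerivAt_XQ f g ω s
  exact this

theorem differentiable_VQ (f g : ℤ × ℤ → ℂ) :
    Differentiable ℂ (fun s : ℂ => VQ Q D η th p (fun z => f z + s * g z)) := fun s =>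
  (hasDerivAt_VQ f g s).differentiableAt

/-- The derivative of `V (f + s g)` at `s = 0`. -/
theorem deriv_VQ_zero (f g : ℤ × ℤ → ℝ) :
    deriv (fun s : ℂ => VQ Q D η th p (fun z => (f z : ℂ) + s * (g z : ℂ))) 0 =
      ((-∑ z ∈ sites D, g z * HQ Q D η th p f z : ℝ) : ℂ) := by
  rw [(hasDerivAt_VQ (Q := Q) (D := D) (η := η) (th := th) (p := p) (fun z => (f z : ℂ))
    (fun z => (g z : ℂ)) 0).deriv]
  have e : (fun ω => -DXQ th D p (fun z => (f z : ℂ) + 0 * (g z : ℂ)) (fun z => (g z : ℂ)) ω) =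
      fun ω => ((-∑ z ∈ sites D, g z * XTR th D p f z ω : ℝ) : ℂ) := by
    funext ω
    simp only [zero_mul, add_zero, DXQ_eq]
    push_cast
    rfl
  rw [e, ExC_ofReal, FKA.Ex_neg, FKA.Ex_sum]
  congr 2
  exact Finset.sum_congr rfl fun z _ => FKA.Ex_mul_left _ _

/-- The potential vanishes at the base site. -/
theorem HQ_base (f : ℤ × ℤ → ℝ) : HQ Q D η th p f p = 0 := by
  classical
  have : XTR th D p f p = fun _ => 0 := by
    funext ω
    unfold XTR
    refine Finset.sum_eq_zero fun A hA => ?_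
    rw [Finset.mem_filter] at hA
    obtain ⟨u, -, hu⟩ := hA.2
    exact absurd rfl hu
  unfold HQ
  rw [this]
  unfold Ex
  simp

theorem norm_VQ_le (hQ : 0 < Q) (f : ℤ × ℤ → ℂ) :
    ‖VQ Q D η th p f‖ ≤ Ex Q D η (fun ω => ‖XQ th D p f ω‖) :=
  norm_ExC_le hQ _

end Vale.Agent.P167.H542.Q
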