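import Vale.Agent.P167.H542.Q.Mm
import Vale.Agent.P167.H542.Q.Vc
import Vale.Agent.P167.H542.Dat

/-!
# P167, general `q`, block Q-M2: uniform bounds for complex charges, in the enlargements of a lattice
polygon, uniformly in the boundary condition, the phases and the base site
-/

open Finset MeasureTheory Filter Topology

namespace Vale.Agent.P167.H542.Q

open Vale.Agent.P167 Vale.Agent.P167.BR Relation Vale.Agent.P167.H542 Vale.Agent.P167.FK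
open Vale.Agent.P167.H436 (ero mem_ero ero_sub econ_ero econ_enl cells_conn mem_enl)
open Vale.Agent.P167.H542.Dt

/-- `p` is a site which is not surrounded by the loops of `D`. -/
structure Bas (D : Finset (ℤ × ℤ)) (p : ℤ × ℤ) : Prop where
  mem : p ∈ sites D
  out : ∀ (ω : Cfg) (ℓ : Finset Ed), IsLoop ω ℓ → (∀ v ∈ vs ℓ, v ∈ D) → W ℓ p = 0

theorem bas_b (S : CA.Dat) {n : ℕ} (hn : 0 < n) : Bas (S.D n) (S.b n) :=
  ⟨sites_D S hn, fun _ _ hℓ hD => W_base S hn (loop_mem_pcs hℓ hD) fun _ he =>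
    hD _ (Finset.mem_image_of_mem _ he)⟩

theorem geo_eroQ (S : CA.Dat) {n : ℕ} {k : ℤ} {p : ℤ × ℤ} (hp : Bas (S.D n) p) (hn : 0 < n)
    (hk0 : 0 ≤ k) (hk2 : 2 * k < n) {δ : ℝ} (hδ : δ + 1 ≤ k) :
    Geo (S.D n) p {z | z ∈ sites (ero S.Q n k)} δ := by
  have h := geo_ero S hn hk0 hk2 hδ
  refine ⟨h.conn, h.nbhd, fun z hz => ?_, hp.out⟩
  exact econ_enl (fun a ha b hb => cells_conn S.poly S.enc ha hb) hn z
    (sites_mono ero_sub hz) _ hp.mem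

/-- The radius of erosion. -/
theorem Fc_evQ (S : CA.Dat) {f g : ℂ → ℝ} {κf κg κ0 κ : ℝ} (hκp : 0 < κ) (hκ : κ ≤ κ0 / 40)
    (hκ8 : κ0 ≤ 1 / 8) (hf : κ0 ≤ κf) (hg : κ0 ≤ κg)
    (hsf : ∀ᶠ n : ℕ in atTop, ∀ k : ℤ, 0 ≤ k → (k : ℝ) ≤ κf * n → ∀ z,
      CA.cms f (1 / n) z ≠ 0 → z ∈ sites (ero S.Q n k))
    (hsg : ∀ᶠ n : ℕ in atTop, ∀ k : ℤ, 0 ≤ k → (k : ℝ) ≤ κg * n → ∀ z,
      CA.cms g (1 / n) z ≠ 0 → z ∈ sites (ero S.Q n k)) :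
    ∀ᶠ n : ℕ in atTop, 0 < n ∧ 0 ≤ ⌊κ0 * n⌋ ∧ 2 * ⌊κ0 * n⌋ < n ∧ 34 * κ * n + 2 ≤ ⌊κ0 * n⌋ ∧
      2 * (κ * n) ≤ ((n : ℤ) - 1 - 2 * ⌊κ0 * n⌋ : ℤ) ∧ 1 ≤ κ * n ∧
      ∀ (t : ℝ) (s : ℂ), ∀ z ∉ sites (ero S.Q n ⌊κ0 * n⌋), Fc f g n t s z = 0 := by
  have hev : ∀ᶠ n : ℕ in atTop, 4 / κ + 16 ≤ (n : ℝ) :=
    tendsto_natCast_atTop_atTop.eventually_ge_atTop _
  filter_upwards [hsf, hsg, hev, eventually_gt_atTop 0] with n h1 h2 h3 h4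
  have hn0 : (0 : ℝ) < n := by exact_mod_cast h4
  have hn4 : 4 ≤ κ * n := by
    have h5 : 0 ≤ (16 : ℝ) := by norm_num
    have : 4 / κ ≤ n := by linarith
    rw [div_le_iff₀ hκp] at this; linarith
  have hn16 : (16 : ℝ) ≤ n := by
    have : 0 ≤ 4 / κ := by positivity
    linarith
  have hf1 := Int.floor_le (κ0 * n)
  have hf2 := Int.lt_floor_add_one (κ0 * n)
  have hk0 : 0 ≤ ⌊κ0 * n⌋ := Int.floor_nonneg.2 (mul_nonneg (by linarith) hn0.le)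
  have hκn : 40 * (κ * n) ≤ κ0 * n := by nlinarith
  have hκn8 : κ0 * n ≤ n / 8 := by nlinarith
  refine ⟨h4, hk0, ?_, ?_, ?_, ?_, ?_⟩
  · have : (2 * ⌊κ0 * n⌋ : ℝ) < n := by linarith
    exact_mod_cast this
  · nlinarith
  · push_cast
    linarith
  · linarith
  · intro t s z hz
    have e1 : CA.cms f (1 / n) z = 0 := by
      by_contra hne
      exact hz (h1 _ hk0 (hf1.trans (mul_le_mul_of_nonneg_right hf hn0.le)) z hne)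
    have e2 : CA.cms g (1 / n) z = 0 := by
      by_contra hne
      exact hz (h2 _ hk0 (hf1.trans (mul_le_mul_of_nonneg_right hg hn0.le)) z hne)
    unfold Fc
    rw [e1, e2]
    simp

/-- One domain. -/
theorem prod_datQ (S : CA.Dat) {m c : ℝ} {F : ℤ × ℤ → ℂ} {κ R1 Cm M : ℝ} {n : ℕ} {k : ℤ}
    {p : ℤ × ℤ} {th : Finset Ed → ℝ} (hp : Bas (S.D n) p) (hth : Phs m c (S.D n) th)
    (hn0 : 0 < n) (hk0 : 0 ≤ k) (hk2 : 2 * k < n) (hκp : 0 < κ)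
    (hκk : κ * n + 2 ≤ k)
    (hwd : 2 * (κ * n) ≤ ((n : ℤ) - 1 - 2 * k : ℤ)) (hoff : ∀ z ∉ sites (ero S.Q n k), F z = 0)
    (htot : ∑ z ∈ sites (S.D n), F z = 0) (hR1 : 0 < R1)
    (hRn : ∀ v ∈ S.D n, (nm v : ℝ) ≤ R1 * n) (hCm0 : 0 < Cm) (hκC : 2 * (Cm * κ ^ 2) ≤ 1 / 10)
    (hbd : ∀ z, ‖F z‖ ≤ Cm / (n : ℝ) ^ 2) (hM1 : 1 ≤ M)
    (hM : c⁻¹ * Real.exp ((2 * R1 + 3) ^ 2 * Cm) ≤ M) (ω : Cfg) {P : Finset (Finset Ed)}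
    (hP : P ⊆ pcs ω (S.D n)) :
    ∏ A ∈ P, ‖wC (th A) (massC (S.D n) p F A)‖ ≤
      2 ^ ((pcs ω (S.D n)) \ P).card *
        Ym m {z | z ∈ sites (ero S.Q n k)} (S.D n) M (κ * n) ((R1 + 2) * n) F ω := by
  have hn1 : (1 : ℝ) ≤ n := by exact_mod_cast hn0
  have hG := geo_eroQ S hp hn0 hk0 hk2 (δ := k - 1) (by linarith)
  have hC : Chc (S.D n) {z | z ∈ sites (ero S.Q n k)} (κ * n) ((R1 + 2) * n) F := by
    refine ⟨fun z hz => hoff z hz, Or.inl htot, ?_, ?_⟩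
    · obtain ⟨z, hz, z', hz', h⟩ := wide_ero S hk0 hk2
      refine ⟨z, hz, z', hz', hwd.trans ?_⟩
      exact_mod_cast h
    · intro z hz
      have := box_ero S hRn hz
      nlinarith
  refine prod_le hth hG (by positivity) (by linarith) hC htot hM1 ?_ ?_ hP
  · exact le_trans (mul_le_mul_of_nonneg_left (Real.exp_le_exp.2
      (imn_le hn0 hR1.le hCm0.le hRn hbd)) (inv_nonneg.2 hth.c0.le)) hM
  · intro ℓ h1 h2
    refine (norm_GC_le (by positivity) hbd h1 h2).trans ?_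
    have e : Cm / (n : ℝ) ^ 2 * (κ * n) ^ 2 = Cm * κ ^ 2 := by field_simp
    rw [e]
    exact hκC

/-- **Uniform bounds for the complex charges, with majorants.** For neutral test functions `f`, `g`
there are constants such that for all large `n`, `|t| ≤ T`, `‖s‖ ≤ T`, for every base site and all
phases every product of weights of pieces is bounded by the majorant `Ym`, and the moments of the
majorant are bounded uniformly in the configuration outside. -/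
theorem maj_datQ {Q m : ℝ} (c : ℝ) (hQ1 : 1 ≤ Q) (hRSW : RSW Q) (hm0 : 0 ≤ m) (hm1 : m ≤ Real.pi / 3)
    (S : CA.Dat) (f g : ℂ → ℝ) (hf : S.FF f) (hg : S.FF g) (T : ℝ) :
    ∃ (κ M R : ℝ) (K : ℕ → Set (ℤ × ℤ)), 0 < κ ∧ 1 ≤ M ∧ 0 < R ∧
    (∀ᶠ n : ℕ in atTop, ∀ p, Bas (S.D n) p → ∀ th, Phs m c (S.D n) th →
      ∀ t : ℝ, |t| ≤ T → ∀ s : ℂ, ‖s‖ ≤ T → ∀ ω, ∀ P ⊆ pcs ω (S.D n),
      ∏ A ∈ P, ‖wC (th A) (massC (S.D n) p (Fc f g n t s) A)‖ ≤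
        2 ^ ((pcs ω (S.D n)) \ P).card *
          Ym m (K n) (S.D n) M (κ * n) (R * n) (Fc f g n t s) ω) ∧
    (∀ q : ℝ, 0 ≤ q → ∃ C : ℝ, 0 < C ∧ ∀ᶠ n : ℕ in atTop, ∀ η : Cfg, Good η →
      ∀ t : ℝ, |t| ≤ T → ∀ s : ℂ, ‖s‖ ≤ T →
      Ex Q (S.D n) η (fun ω => Ym m (K n) (S.D n) M (κ * n) (R * n) (Fc f g n t s) ω ^ q) ≤ C) := by
  obtain ⟨κf, hκf, hsf⟩ := exists_supp S hf.1
  obtain ⟨κg, hκg, hsg⟩ := exists_supp S hg.1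
  obtain ⟨Mf, hMf0, hMf⟩ := exists_bd hf.1
  obtain ⟨Mg, hMg0, hMg⟩ := exists_bd hg.1
  obtain ⟨R1, hR1, hRn⟩ := exists_R S
  obtain ⟨Cm, hCm⟩ : ∃ Cm : ℝ, Cm = (|T| + 1) * (Mf + Mg + 1) := ⟨_, rfl⟩
  have hCm1 : 1 ≤ Cm := by rw [hCm]; nlinarith [abs_nonneg T]
  have hCm0 : 0 < Cm := by linarith
  obtain ⟨κ0, hκ0p, hκ0f, hκ0g, hκ08⟩ : ∃ κ0 : ℝ, 0 < κ0 ∧ κ0 ≤ κf ∧ κ0 ≤ κg ∧ κ0 ≤ 1 / 8 :=
    ⟨min (min κf κg) (1 / 8), by positivity, (min_le_left _ _).trans (min_le_left _ _),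
      (min_le_left _ _).trans (min_le_right _ _), min_le_right _ _⟩
  obtain ⟨κ, hκp, hκ1, hκ2⟩ : ∃ κ : ℝ, 0 < κ ∧ κ ≤ κ0 / 40 ∧ κ ≤ 1 / (20 * Cm) :=
    ⟨min (κ0 / 40) (1 / (20 * Cm)), by positivity, min_le_left _ _, min_le_right _ _⟩
  have hκ3 : κ ≤ 1 := by linarith
  have hκC : 2 * (Cm * κ ^ 2) ≤ 1 / 10 := by
    have h1 : Cm * κ ≤ 1 / 20 := by
      have := mul_le_mul_of_nonneg_left hκ2 hCm0.le
      refine this.trans (le_of_eq ?_)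
      field_simp
    have h2 : Cm * κ ^ 2 = Cm * κ * κ := by ring
    rw [h2]
    nlinarith
  obtain ⟨M, hM1, hM⟩ : ∃ M : ℝ, 1 ≤ M ∧ c⁻¹ * Real.exp ((2 * R1 + 3) ^ 2 * Cm) ≤ M :=
    ⟨max 1 _, le_max_left _ _, le_max_right _ _⟩
  have hall := Fc_evQ S hκp hκ1 hκ08 hκ0f hκ0g hsf hsg
  refine ⟨κ, M, R1 + 2, fun n => {z | z ∈ sites (ero S.Q n ⌊κ0 * n⌋)}, hκp, hM1, by linarith,
    ?_, ?_⟩
  · filter_upwards [hall] with n hn p hp th hth t ht s hs ω P hP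
    obtain ⟨hn0, hk0, hk2, hκk, hwd, h1n, hoff⟩ := hn
    exact prod_datQ S hp hth hn0 hk0 hk2 hκp (by nlinarith) hwd (hoff t s)
      (Fc_tot S hf hg hn0 t s) hR1 (hRn n) hCm0 hκC
      (Fc_bd hMf0 hMg0 hMf hMg hCm hn0 ht hs) hM1 hM ω hP
  · intro q hq
    obtain ⟨C, ρ0, hC, hρ0, h⟩ := Ym_mom (R := R1 + 2) hQ1 hRSW hm0 hm1 hCm0 hκp
      (by linarith) (by linarith) hq hM1
    refine ⟨C, hC, ?_⟩
    have hev2 : ∀ᶠ n : ℕ in atTop, ρ0 ≤ (n : ℝ) :=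
      tendsto_natCast_atTop_atTop.eventually_ge_atTop _
    filter_upwards [hall, hev2] with n hn hρ η hη t ht s hs
    obtain ⟨hn0, hk0, hk2, hκk, hwd, h1n, hoff⟩ := hn
    have hn1 : (1 : ℝ) ≤ n := by exact_mod_cast hn0
    have hG := geo_eroQ S (bas_b S hn0) hn0 hk0 hk2 (δ := (⌊κ0 * n⌋ : ℝ) - 1) (by linarith)
    refine h n hρ (S.D n) η hη _ ?_ ?_ (Fc f g n t s)
      (Fc_bd hMf0 hMg0 hMf hMg hCm hn0 ht hs) (sites (ero S.Q n ⌊κ0 * n⌋)) (hoff t s)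
      (fun z hz => hz) ?_
    · intro z hz
      have := box_ero S (hRn n) hz
      nlinarith
    · intro z hz v hv
      exact hG.nbhd z hz v (hv.trans (by linarith))
    · rw [← Complex.re_sum]
      have h3 : ∑ z ∈ sites (ero S.Q n ⌊κ0 * n⌋), Fc f g n t s z =
          ∑ z ∈ sites (S.D n), Fc f g n t s z :=
        Finset.sum_subset (sites_mono ero_sub) fun z _ hz => hoff t s z hz
      rw [h3, Fc_tot S hf hg hn0 t s, Complex.zero_re]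

/-- **Moments of the functional.** -/
theorem mom_datQ {Q m : ℝ} (c : ℝ) (hQ1 : 1 ≤ Q) (hRSW : RSW Q) (hm0 : 0 ≤ m) (hm1 : m ≤ Real.pi / 3)
    (S : CA.Dat) (f g : ℂ → ℝ) (hf : S.FF f) (hg : S.FF g) (T q : ℝ) (hq : 0 ≤ q) :
    ∃ C : ℝ, 0 < C ∧ ∀ᶠ n : ℕ in atTop, ∀ η : Cfg, Good η → ∀ p, Bas (S.D n) p →
      ∀ th, Phs m c (S.D n) th → ∀ t : ℝ, |t| ≤ T → ∀ s : ℂ, ‖s‖ ≤ T →
      Ex Q (S.D n) η (fun ω => ‖XQ th (S.D n) p (Fc f g n t s) ω‖ ^ q) ≤ C := by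
  obtain ⟨κ, M, R, K, hκ, hM, hR, h1, h2⟩ := maj_datQ c hQ1 hRSW hm0 hm1 S f g hf hg T
  obtain ⟨C, hC, h3⟩ := h2 q hq
  refine ⟨C, hC, ?_⟩
  filter_upwards [h1, h3] with n h4 h5 η hη p hp th hth t ht s hs
  refine le_trans ?_ (h5 η hη t ht s hs)
  refine FKA.Ex_mono (by linarith) fun S' _ => ?_
  generalize cf (S.D n) η S' = ω
  refine Real.rpow_le_rpow (norm_nonneg (XQ th (S.D n) p (Fc f g n t s) ω)) ?_ hq
  have := h4 p hp th hth t ht s hs ω (pcs ω (S.D n)) (Finset.Subset.refl _)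
  rw [Finset.sdiff_self, Finset.card_empty, pow_zero, one_mul] at this
  unfold XQ
  rwa [norm_prod]

/-- **(M2)** -/
theorem m2_datQ {Q m : ℝ} (c : ℝ) (hQ1 : 1 ≤ Q) (hRSW : RSW Q) (hm0 : 0 ≤ m) (hm1 : m ≤ Real.pi / 3)
    (S : CA.Dat) (f g : ℂ → ℝ) (hf : S.FF f) (hg : S.FF g) (T : ℝ) :
    ∃ C : ℝ, 0 < C ∧ ∀ᶠ n : ℕ in atTop, ∀ η : Cfg, Good η → ∀ p, Bas (S.D n) p →
      ∀ th, Phs m c (S.D n) th → ∀ t : ℝ, |t| ≤ T → ∀ s : ℂ, ‖s‖ ≤ T →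
      ‖VQ Q (S.D n) η th p (Fc f g n t s)‖ ≤ C := by
  obtain ⟨C, hC, h⟩ := mom_datQ c hQ1 hRSW hm0 hm1 S f g hf hg T 1 zero_le_one
  refine ⟨C, hC, ?_⟩
  filter_upwards [h] with n h5 η hη p hp th hth t ht s hs
  have h6 := h5 η hη p hp th hth t ht s hs
  simp only [Real.rpow_one] at h6
  exact (norm_VQ_le (by linarith) _).trans h6

end Vale.Agent.P167.H542.Q
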