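import Vale.Agent.P167.H662.L.LDefs
import Vale.Agent.P167.H542.Q.Vc
import Vale.Agent.P167.H167.Pc

/-!
# P167, general `q`, block Q-LAYER: the pointwise bounds (L-PT), (L-SUB)
-/

open Finset

namespace Vale.Agent.P167.H542.Q.PT

open Vale.Agent.P167 Vale.Agent.P167.BR Vale.Agent.P167.H542 Vale.Agent.P167.H542.Q
open Vale.Agent.P167.H562.SML (smf mem_smf)
open Vale.Agent.P167.H638.L (bigV)
open Vale.Agent.P167.H662.L (SfQ lwm S_pt S_sub)
open Vale.Agent.P167.H45 (vs_nonempty)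

variable {D T Z : Finset (ℤ × ℤ)} {p : ℤ × ℤ} {K : Set (ℤ × ℤ)} {δ d m c : ℝ} {ω : Cfg}
  {A : Finset Ed} {th : Finset Ed → ℝ} {f g η : ℤ × ℤ → ℝ}

/-! ### real charges -/

theorem GC_ofReal (f : ℤ × ℤ → ℝ) (ℓ : Finset Ed) : GC (fun z => (f z : ℂ)) ℓ = (G f ℓ : ℂ) := by
  unfold GC
  have : G (fun z => ((f z : ℂ)).im) ℓ = 0 := by
    unfold G
    simp
  rw [this]
  simp

theorem mass_nearR (hG : Geo D p K δ) (hδ : 0 ≤ δ) (h : IsLoop ω A) (hD : ∀ v ∈ vs A, v ∈ D)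
    (hf : ∀ z ∉ K, f z = 0) : mass D p f A = G f A := by
  have h1 := mass_near hG hδ h hD (f := fun z => (f z : ℂ)) fun z hz => by simp [hf z hz]
  rw [massC_ofReal, GC_ofReal] at h1
  exact_mod_cast h1

theorem mass_farR (hG : Geo D p K δ) (hA : ¬ Nr K A) (hf : ∀ z ∉ K, f z = 0)
    (h0 : ∑ z ∈ sites D, f z = 0) : mass D p f A = 0 := by
  have h1 := mass_far (p := p) hG hA (f := fun z => (f z : ℂ)) fun z hz => by simp [hf z hz]
  have h2 : ∑ z ∈ sites D, (f z : ℂ) = 0 := by exact_mod_cast h0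
  rw [massC_ofReal, h2] at h1
  rcases h1 with h1 | ⟨h1, -⟩ <;> exact_mod_cast h1

/-- Small loops of the plane which do not come near `K`. -/
theorem G_farR (hG : Geo D p K δ) (hw : ∃ z ∈ K, ∃ z' ∈ K, 2 * d ≤ (nm (z - z') : ℝ))
    (hf : ∀ z ∉ K, f z = 0) (h : IsLoop ω A) (hs : Small d A) (hn : ¬ Nr K A) : G f A = 0 := by
  have h1 : ∀ z ∈ K, z ∉ ins A := by
    intro z hz hzi
    have hall : ∀ z' ∈ K, z' ∈ ins A := by
      intro z' hz'
      have h2 := pot_const hn (W_pot (D := D) h) (hG.conn z hz z' hz')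
      have h3 : W A z ≠ 0 := hzi
      show W A z' ≠ 0
      rwa [← h2]
    obtain ⟨z1, hz1, z2, hz2, h5⟩ := hw
    obtain ⟨v, hv⟩ := vs_nonempty h
    have h2 := near_of_ins h hs (hall z1 hz1) hv
    have h3 := near_of_ins h hs (hall z2 hz2) hv
    have h4 : nm (z1 - z2) ≤ nm (v - z1) + nm (v - z2) := by
      have h5 := H45.nm_add_le (-(v - z1)) (v - z2)
      rw [H45.nm_neg] at h5
      have e : -(v - z1) + (v - z2) = z1 - z2 := by abel
      rwa [e] at h5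
    have h6 : (nm (z1 - z2) : ℝ) ≤ nm (v - z1) + nm (v - z2) := by exact_mod_cast h4
    linarith
  unfold G
  refine finsum_mem_eq_zero_of_forall_eq_zero fun z hz => ?_
  by_contra hne
  exact h1 z (by by_contra hcon; exact hne (hf z hcon)) hz

/-! ### weights -/

theorem wR_lip {θ : ℝ} (hc0 : 0 < c) (hc : c ≤ Real.cos θ) (a b : ℝ) :
    |wR θ a - wR θ b| ≤ c⁻¹ * |a - b| := by
  unfold wR
  have h0 : 0 < Real.cos θ := hc0.trans_le hc
  rw [← sub_div, abs_div, abs_of_pos h0, div_eq_inv_mul]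
  have h := H167.cos_lip (θ + a) (θ + b)
  rw [add_sub_add_left_eq_sub] at h
  exact mul_le_mul (inv_anti₀ hc0 hc) h (abs_nonneg _) (inv_nonneg.2 hc0.le)

theorem abs_wR_le {θ : ℝ} (hc0 : 0 < c) (hc : c ≤ Real.cos θ) (a : ℝ) : |wR θ a| ≤ c⁻¹ := by
  unfold wR
  have h0 : 0 < Real.cos θ := hc0.trans_le hc
  rw [abs_div, abs_of_pos h0, div_eq_inv_mul]
  calc (Real.cos θ)⁻¹ * |Real.cos (θ + a)| ≤ c⁻¹ * 1 :=
        mul_le_mul (inv_anti₀ hc0 hc) (Real.abs_cos_le_one _) (abs_nonneg _)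
          (inv_nonneg.2 hc0.le)
    _ = _ := mul_one _

theorem wR_zero {θ : ℝ} (h : Real.cos θ ≠ 0) : wR θ 0 = 1 := by
  unfold wR
  rw [add_zero, div_self h]

theorem cos_half (h0 : 0 ≤ m) (h1 : m ≤ Real.pi / 3) : 1 / 2 ≤ Real.cos m := by
  have := Real.cos_le_cos_of_nonneg_of_le_pi h0 (by linarith [Real.pi_pos]) h1
  rwa [Real.cos_pi_div_three] at this

/-- Lower bound of the weights of the small loops. -/
theorem wR_ge (h0 : 0 ≤ m) (h1 : m ≤ Real.pi / 3) {t : ℝ} (ht : |t| ≤ 1 / 10) :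
    1 / 2 ≤ wR m t := by
  have hpi := Real.pi_gt_d2
  have hpi2 := Real.pi_lt_d2
  have h2 := cos_half h0 h1
  have h3 := wC_lower h0 h1 (t := (t : ℂ)) (by rwa [Complex.norm_real, Real.norm_eq_abs])
  rw [wC_ofReal, Complex.norm_real, Real.norm_eq_abs] at h3
  rw [abs_le] at ht
  have h4 : 0 < Real.cos (m + t) :=
    Real.cos_pos_of_mem_Ioo ⟨by linarith, by linarith⟩
  have h5 : 0 ≤ wR m t := div_nonneg h4.le (by linarith)
  rwa [abs_of_nonneg h5] at h3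

theorem lwm_zero (h0 : 0 ≤ m) (h1 : m ≤ Real.pi / 3) : lwm m 0 = 0 := by
  show Real.log (wR m 0) = 0
  rw [wR_zero (by have := cos_half h0 h1; linarith), Real.log_one]

theorem exp_lwm (h0 : 0 ≤ m) (h1 : m ≤ Real.pi / 3) {t : ℝ} (ht : |t| ≤ 1 / 10) :
    Real.exp (lwm m t) = wR m t := by
  show Real.exp (Real.log (wR m t)) = wR m t
  exact Real.exp_log (by linarith [wR_ge h0 h1 ht])

theorem lwm_lip (h0 : 0 ≤ m) (h1 : m ≤ Real.pi / 3) {a b : ℝ} (hab : |a| + |b| ≤ 1 / 10) :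
    |lwm m (a + b) - lwm m a| ≤ 4 * |b| := by
  have hc := cos_half h0 h1
  have hu : 1 / 2 ≤ wR m (a + b) := wR_ge h0 h1 ((abs_add_le a b).trans hab)
  have hv : 1 / 2 ≤ wR m a := wR_ge h0 h1 (by linarith [abs_nonneg b])
  have hd : |wR m (a + b) - wR m a| ≤ 2 * |b| := by
    have h := wR_lip (c := 1 / 2) (by norm_num) hc (a + b) a
    rw [add_sub_cancel_left] at h
    norm_num at h ⊢
    exact h
  show |Real.log (wR m (a + b)) - Real.log (wR m a)| ≤ 4 * |b|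
  set u := wR m (a + b)
  set v := wR m a
  have hu0 : 0 < u := by linarith
  have hv0 : 0 < v := by linarith
  rw [abs_le] at hd
  rw [abs_le, ← Real.log_div hu0.ne' hv0.ne']
  have hb := abs_nonneg b
  constructor
  · have h2 := Real.log_le_sub_one_of_pos (div_pos hv0 hu0)
    have e : Real.log (v / u) = -Real.log (u / v) := by
      rw [← Real.log_inv, inv_div]
    rw [e] at h2
    have h3 : v / u - 1 ≤ 4 * |b| := by
      rw [div_sub_one hu0.ne', div_le_iff₀ hu0]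
      nlinarith
    linarith
  · have h2 := Real.log_le_sub_one_of_pos (div_pos hu0 hv0)
    have h3 : u / v - 1 ≤ 4 * |b| := by
      rw [div_sub_one hv0.ne', div_le_iff₀ hv0]
      nlinarith
    linarith

/-! ### the small pieces near `K` -/

open Classical in
/-- The small pieces near `K`. -/
noncomputable def snk (K : Set (ℤ × ℤ)) (d : ℝ) (D : Finset (ℤ × ℤ)) (ω : Cfg) :
    Finset (Finset Ed) :=
  (pcs ω D).filter fun A => Small d A ∧ Nr K A

theorem snk_spec (hG : Geo D p K δ) (hd : d + 1 ≤ δ) (hA : A ∈ snk K d D ω) :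
    A ∈ pcs ω D ∧ Small d A ∧ Nr K A ∧ IsLoop ω A ∧ (∀ v ∈ vs A, v ∈ D) ∧ IsLp D A := by
  classical
  obtain ⟨h1, h2, h3⟩ := Finset.mem_filter.1 hA
  have hl : IsLp D A := small_near hG hd h3 h2
  refine ⟨h1, h2, h3, IsLp.isLoop h1 hl, ?_, hl⟩
  intro v hv
  obtain ⟨e, he, rfl⟩ := Finset.mem_image.1 hv
  exact hl e he

theorem mem_snk_of (hG : Geo D p K δ) (hd : d + 1 ≤ δ)
    (hw : ∃ z ∈ K, ∃ z' ∈ K, 2 * d ≤ (nm (z - z') : ℝ)) (hf : ∀ z ∉ K, f z = 0)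
    (h : IsLoop ω A) (hs : Small d A) (hne : G f A ≠ 0) : A ∈ snk K d D ω := by
  classical
  have hn : Nr K A := by
    by_contra hcon
    exact hne (G_farR hG hw hf h hs hcon)
  have hl : ∀ e ∈ A, hdv e ∈ D := small_near hG hd hn hs
  have hD : ∀ v ∈ vs A, v ∈ D := by
    intro v hv
    obtain ⟨e, he, rfl⟩ := Finset.mem_image.1 hv
    exact hl e he
  exact Finset.mem_filter.2 ⟨loop_mem_pcs h hD, hs, hn⟩

/-- Sums over the small loops which visit `T` and over the small pieces near `K`. -/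
theorem sum_snk (hG : Geo D p K δ) (hd : d + 1 ≤ δ)
    (hw : ∃ z ∈ K, ∃ z' ∈ K, 2 * d ≤ (nm (z - z') : ℝ)) (hf : ∀ z ∉ K, f z = 0)
    (hT : ∀ ℓ, IsLoop ω ℓ → Small d ℓ → G f ℓ ≠ 0 → ∃ v ∈ vs ℓ, v ∈ T)
    {φ : Finset Ed → ℝ} (hφ : ∀ ℓ, G f ℓ = 0 → φ ℓ = 0) :
    ∑ ℓ ∈ smf T d ω, φ ℓ = ∑ A ∈ snk K d D ω, φ A := by
  classical
  have key : ∀ U : Finset (Finset Ed), ∑ ℓ ∈ U, φ ℓ = ∑ ℓ ∈ U.filter (fun ℓ => G f ℓ ≠ 0), φ ℓ :=
    fun U => (Finset.sum_filter_of_ne (p := fun ℓ => G f ℓ ≠ 0)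
      fun ℓ _ hne hcon => hne (hφ ℓ hcon)).symm
  rw [key, key (snk K d D ω)]
  refine Finset.sum_congr ?_ fun _ _ => rfl
  ext ℓ
  rw [Finset.mem_filter, Finset.mem_filter]
  constructor
  · rintro ⟨h1, h2⟩
    obtain ⟨h3, -, h4⟩ := mem_smf.1 h1
    exact ⟨mem_snk_of hG hd hw hf h3 h4 h2, h2⟩
  · rintro ⟨h1, h2⟩
    obtain ⟨-, h3, -, h4, -, -⟩ := snk_spec hG hd h1
    exact ⟨mem_smf.2 ⟨h4, hT _ h4 h3 h2, h3⟩, h2⟩

theorem prod_snk (h : Phs m c D th) (hG : Geo D p K δ) (hδ : 0 ≤ δ) (hd : d + 1 ≤ δ)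
    (hf : ∀ z ∉ K, f z = 0) (h0 : ∑ z ∈ sites D, f z = 0) :
    XR th D p f ω = (∏ A ∈ snk K d D ω, wR m (G f A)) *
      ∏ A ∈ mak K d D ω, wR (th A) (mass D p f A) := by
  classical
  have hcs : ∀ A, Real.cos (th A) ≠ 0 := fun A => (h.c0.trans_le (h.cs A)).ne'
  unfold XR
  rw [← Finset.prod_filter_mul_prod_filter_not (pcs ω D) (fun A => Small d A ∧ Nr K A)]
  congr 1
  · refine Finset.prod_congr rfl fun A hA => ?_
    obtain ⟨-, -, -, h4, h5, h6⟩ := snk_spec hG hd (K := K) (ω := ω) (by exact hA)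
    rw [mass_nearR hG hδ h4 h5 hf, h.lp A h6]
  · symm
    refine Finset.prod_subset ?_ ?_
    · intro A hA
      obtain ⟨h1, h2, h3⟩ := Finset.mem_filter.1 hA
      exact Finset.mem_filter.2 ⟨h1, fun h4 => h2 h4.1⟩
    · intro A hA hA'
      obtain ⟨h1, h2⟩ := Finset.mem_filter.1 hA
      have hn : ¬ Nr K A := by
        intro hn
        by_cases hs : Small d A
        · exact h2 ⟨hs, hn⟩
        · exact hA' (Finset.mem_filter.2 ⟨h1, hs, hn⟩)
      rw [mass_farR hG hn hf h0, wR_zero (hcs A)]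

/-! ### the macroscopic pieces -/

theorem prod_le_pow {ι : Type*} [DecidableEq ι] (s : Finset ι) {a : ι → ℝ} {C : ℝ}
    (ha : ∀ i ∈ s, |a i| ≤ C) : |∏ i ∈ s, a i| ≤ C ^ s.card := by
  rw [Finset.abs_prod, ← Finset.prod_const]
  exact Finset.prod_le_prod (fun i _ => abs_nonneg _) ha

theorem prod_sub_pow {ι : Type*} [DecidableEq ι] (s : Finset ι) {a b x : ι → ℝ} {C : ℝ}
    (hC : 0 ≤ C) (ha : ∀ i ∈ s, |a i| ≤ C) (hb : ∀ i ∈ s, |b i| ≤ C)
    (hx : ∀ i ∈ s, |a i - b i| ≤ C * x i) :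
    |∏ i ∈ s, a i - ∏ i ∈ s, b i| ≤ C ^ s.card * ∑ i ∈ s, x i := by
  induction s using Finset.induction_on with
  | empty => simp
  | insert y s hy ih =>
    have ih := ih (fun i hi => ha i (Finset.mem_insert_of_mem hi))
      (fun i hi => hb i (Finset.mem_insert_of_mem hi))
      fun i hi => hx i (Finset.mem_insert_of_mem hi)
    have hpa := prod_le_pow s fun i hi => ha i (Finset.mem_insert_of_mem hi)
    have hby := hb y (Finset.mem_insert_self _ _)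
    have hxy := hx y (Finset.mem_insert_self _ _)
    rw [Finset.prod_insert hy, Finset.prod_insert hy, Finset.sum_insert hy,
      Finset.card_insert_of_notMem hy]
    have h1 : a y * ∏ i ∈ s, a i - b y * ∏ i ∈ s, b i =
        (a y - b y) * ∏ i ∈ s, a i + b y * (∏ i ∈ s, a i - ∏ i ∈ s, b i) := by ring
    rw [h1]
    have hCn : 0 ≤ C ^ s.card := pow_nonneg hC _
    calc |(a y - b y) * ∏ i ∈ s, a i + b y * (∏ i ∈ s, a i - ∏ i ∈ s, b i)|
        ≤ |a y - b y| * |∏ i ∈ s, a i| + |b y| * |∏ i ∈ s, a i - ∏ i ∈ s, b i| := by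
          rw [← abs_mul, ← abs_mul]
          exact abs_add_le _ _
      _ ≤ (C * x y) * C ^ s.card + C * (C ^ s.card * ∑ i ∈ s, x i) := by
          have hCx : 0 ≤ C * x y := (abs_nonneg _).trans hxy
          exact add_le_add (mul_le_mul hxy hpa (abs_nonneg _) hCx)
            (mul_le_mul hby ih (abs_nonneg _) hC)
      _ = _ := by rw [pow_succ]; ring

/-- **(L-PT)** -/
theorem s_pt : S_pt := by
  classical
  intro m c D Z T p K δ d th g η ω h hG hd0 hd hg hη hg0 hη0 hw hsm hZ hT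
  have hδ : 0 ≤ δ := by linarith
  have hgη : ∀ z ∉ K, g z + η z = 0 := fun z hz => by rw [hg z hz, hη z hz, add_zero]
  have hgη0 : ∑ z ∈ sites D, (g z + η z) = 0 := by
    rw [Finset.sum_add_distrib, hg0, hη0, add_zero]
  have hfin : ∀ A ∈ snk K d D ω, (ins A).Finite := fun A hA =>
    H45.ins_fin s_out (snk_spec hG hd hA).2.2.2.1
  have hGadd : ∀ A ∈ snk K d D ω, G (fun z => g z + η z) A = G g A + G η A := fun A hA => by
    unfold G
    exact finsum_mem_add_distrib (hfin A hA)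
  have hG0 : ∀ ℓ : Finset Ed, G (fun _ => (0 : ℝ)) ℓ = 0 := fun ℓ => by
    unfold G; simp
  have hsA : ∀ A ∈ snk K d D ω, |G g A| + |G η A| ≤ 1 / 10 := fun A hA =>
    hsm A (snk_spec hG hd hA).2.2.2.1 (snk_spec hG hd hA).2.1
  -- the small pieces
  have e1 : ∏ A ∈ snk K d D ω, wR m (G g A) = Real.exp (SfQ m Z (fun _ => 0) g d ω) := by
    have e2 : SfQ m Z (fun _ => 0) g d ω = ∑ A ∈ snk K d D ω, lwm m (G g A) := by
      unfold SfQ
      have e3 : ∀ ℓ : Finset Ed, lwm m (G (fun _ => (0 : ℝ)) ℓ + G g ℓ) -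
          lwm m (G (fun _ => (0 : ℝ)) ℓ) = lwm m (G g ℓ) := fun ℓ => by
        rw [hG0, zero_add, lwm_zero h.m0 h.m1, sub_zero]
      simp only [e3]
      exact sum_snk hG hd hw hg hZ fun ℓ hℓ => by rw [hℓ, lwm_zero h.m0 h.m1]
    rw [e2, Real.exp_sum]
    exact Finset.prod_congr rfl fun A hA => (exp_lwm h.m0 h.m1
      (by linarith [hsA A hA, abs_nonneg (G η A)])).symm
  have e4 : ∏ A ∈ snk K d D ω, wR m (G (fun z => g z + η z) A) =
      Real.exp (SfQ m Z (fun _ => 0) g d ω) * Real.exp (SfQ m T g η d ω) := by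
    have e5 : SfQ m T g η d ω =
        ∑ A ∈ snk K d D ω, (lwm m (G g A + G η A) - lwm m (G g A)) := by
      unfold SfQ
      exact sum_snk hG hd hw hη hT fun ℓ hℓ => by rw [hℓ, add_zero, sub_self]
    rw [← e1, e5, Real.exp_sum, ← Finset.prod_mul_distrib]
    refine Finset.prod_congr rfl fun A hA => ?_
    have h1 := hsA A hA
    rw [hGadd A hA, Real.exp_sub, exp_lwm h.m0 h.m1 ((abs_add_le _ _).trans h1),
      exp_lwm h.m0 h.m1 (by linarith [abs_nonneg (G η A)])]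
    have h2 : wR m (G g A) ≠ 0 := by
      have := wR_ge h.m0 h.m1 (t := G g A) (by linarith [abs_nonneg (G η A)])
      linarith
    field_simp
  have hX1 := prod_snk (ω := ω) (d := d) h hG hδ hd hg hg0
  have hX2 := prod_snk (ω := ω) (d := d) h hG hδ hd hgη hgη0
  show |XR th D p (fun z => g z + η z) ω - XR th D p g ω| ≤ _
  rw [hX1, hX2, e1, e4]
  set a := Real.exp (SfQ m Z (fun _ => 0) g d ω)
  set b := Real.exp (SfQ m T g η d ω)
  set P := ∏ A ∈ mak K d D ω, wR (th A) (mass D p g A) with hP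
  set P' := ∏ A ∈ mak K d D ω, wR (th A) (mass D p (fun z => g z + η z) A) with hP'
  set V := bigV D p η d ω with hV
  set N := (mak K d D ω).card with hN
  have hci : 0 ≤ c⁻¹ := inv_nonneg.2 h.c0.le
  have ha : 0 < a := Real.exp_pos _
  have hV0 : 0 ≤ V := H638.L.bigV_nonneg _ _ _ _ _
  have h1 : |P| ≤ c⁻¹ ^ N := prod_le_pow _ fun A _ => abs_wR_le h.c0 (h.cs A) _
  have h2 : |P'| ≤ c⁻¹ ^ N := prod_le_pow _ fun A _ => abs_wR_le h.c0 (h.cs A) _
  have hCN : 0 ≤ c⁻¹ ^ N := pow_nonneg hci _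
  have h3 : |P' - P| ≤ c⁻¹ ^ N * V := by
    refine (prod_sub_pow (mak K d D ω) (x := fun A => |mass D p η A|) hci
      (fun A _ => abs_wR_le h.c0 (h.cs A) _) (fun A _ => abs_wR_le h.c0 (h.cs A) _)
      fun A _ => ?_).trans (mul_le_mul_of_nonneg_left ?_ hCN)
    · refine (wR_lip h.c0 (h.cs A) _ _).trans (le_of_eq ?_)
      rw [H638.L.mass_add, add_sub_cancel_left]
    · unfold bigV at hV
      rw [hV]
      refine Finset.sum_le_sum_of_subset_of_nonneg (fun A hA => ?_) fun _ _ _ => abs_nonneg _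
      obtain ⟨h4, h5, -⟩ := Finset.mem_filter.1 hA
      exact Finset.mem_filter.2 ⟨h4, h5⟩
  have h4 : |P' - P| ≤ c⁻¹ ^ N * (2 * √V) := by
    rcases le_total V 1 with h6 | h6
    · have h5 : V ≤ √V := by
        conv_lhs => rw [← Real.mul_self_sqrt hV0]
        have h6 : √V ≤ 1 := Real.sqrt_le_one.2 h6
        nlinarith [Real.sqrt_nonneg V]
      refine h3.trans (mul_le_mul_of_nonneg_left ?_ hCN)
      linarith
    · have h5 : 1 ≤ √V := Real.one_le_sqrt.2 h6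
      calc |P' - P| ≤ |P'| + |P| := abs_sub _ _
        _ ≤ c⁻¹ ^ N * 2 := by linarith
        _ ≤ _ := mul_le_mul_of_nonneg_left (by linarith) hCN
  have h5 : a * b * P' - a * P = a * ((b - 1) * P' + (P' - P)) := by ring
  rw [h5, abs_mul, abs_of_pos ha, mul_assoc]
  refine mul_le_mul_of_nonneg_left ?_ ha.le
  calc |(b - 1) * P' + (P' - P)| ≤ |b - 1| * |P'| + |P' - P| := by
        rw [← abs_mul]; exact abs_add_le _ _
    _ ≤ |b - 1| * c⁻¹ ^ N + c⁻¹ ^ N * (2 * √V) :=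
        add_le_add (mul_le_mul_of_nonneg_left h2 (abs_nonneg _)) h4
    _ = _ := by ring

/-- **(L-SUB)** -/
theorem s_sub : S_sub := by
  classical
  intro m D T p K δ d d' g η ω hm0 hm1 hG hd0 hd hdd hη hη0 hw hsm
  have hδ : 0 ≤ δ := by linarith
  have hsub : smf T d' ω ⊆ smf T d ω := fun ℓ hℓ => by
    obtain ⟨h1, h2, h3⟩ := mem_smf.1 hℓ
    exact mem_smf.2 ⟨h1, h2, H45.Small.mono hdd h3⟩
  unfold SfQ
  rw [← Finset.sum_sdiff hsub, add_sub_cancel_right]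
  refine (Finset.abs_sum_le_sum_abs _ _).trans ?_
  have hmem : ∀ ℓ ∈ smf T d ω \ smf T d' ω, G η ℓ ≠ 0 →
      ℓ ∈ (pcs ω D).filter (fun A => ¬ Small d' A) ∧ G η ℓ = mass D p η ℓ := by
    intro ℓ hℓ hne
    obtain ⟨h1, h2⟩ := Finset.mem_sdiff.1 hℓ
    obtain ⟨h3, h4, h5⟩ := mem_smf.1 h1
    have h6 := mem_snk_of hG hd hw hη h3 h5 hne
    obtain ⟨h7, -, -, -, h8, -⟩ := snk_spec hG hd h6
    exact ⟨Finset.mem_filter.2 ⟨h7, fun h9 => h2 (mem_smf.2 ⟨h3, h4, h9⟩)⟩,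
      (mass_nearR hG hδ h3 h8 hη).symm⟩
  calc ∑ ℓ ∈ smf T d ω \ smf T d' ω, |lwm m (G g ℓ + G η ℓ) - lwm m (G g ℓ)|
      ≤ ∑ ℓ ∈ smf T d ω \ smf T d' ω, 4 * |G η ℓ| := by
        refine Finset.sum_le_sum fun ℓ hℓ => ?_
        obtain ⟨h1, -⟩ := Finset.mem_sdiff.1 hℓ
        obtain ⟨h3, h4, h5⟩ := mem_smf.1 h1
        exact lwm_lip hm0 hm1 (hsm ℓ h3 h5)
    _ = ∑ ℓ ∈ (smf T d ω \ smf T d' ω).filter (fun ℓ => G η ℓ ≠ 0), 4 * |mass D p η ℓ| := by
        rw [← Finset.sum_filter_of_ne (p := fun ℓ => G η ℓ ≠ 0) fun ℓ _ hne hcon =>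
          hne (by rw [hcon, abs_zero, mul_zero])]
        refine Finset.sum_congr rfl fun ℓ hℓ => ?_
        obtain ⟨h1, h2⟩ := Finset.mem_filter.1 hℓ
        rw [(hmem ℓ h1 h2).2]
    _ ≤ ∑ A ∈ (pcs ω D).filter (fun A => ¬ Small d' A), 4 * |mass D p η A| := by
        refine Finset.sum_le_sum_of_subset_of_nonneg (fun ℓ hℓ => ?_) fun _ _ _ => by positivity
        obtain ⟨h1, h2⟩ := Finset.mem_filter.1 hℓ
        exact (hmem ℓ h1 h2).1
    _ = 4 * bigV D p η d' ω := by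
        unfold bigV
        rw [Finset.mul_sum]

end Vale.Agent.P167.H542.Q.PT
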