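import Vale.Agent.P167.H436.ND.Defs
import Vale.Agent.P167.H542.Q.Pt

/-!
# P167, general `q`, block Q-ND (PW): pointwise bounds of the pieces which visit several zones
-/

open Finset

namespace Vale.Agent.P167.H542.Q.PW

open Vale.Agent.P167 Vale.Agent.P167.BR Vale.Agent.P167.H542 Vale.Agent.P167.H542.Q
open Vale.Agent.P167.H542.Q.PT
open Vale.Agent.P167.H562.SML (smf mem_smf)
open Vale.Agent.P167.H562.MAJ (Sm)
open Vale.Agent.P167.H562.QM (MajA)
open Vale.Agent.P167.H436.ND (Rng Ft S_PW)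
open Vale.Agent.P167.H45 (vs_nonempty)

/-! ### the weight of a small loop -/

theorem wR_expand {θ : ℝ} (hc : Real.cos θ ≠ 0) (t : ℝ) :
    wR θ t = Real.cos t - Real.tan θ * Real.sin t := by
  unfold wR
  rw [Real.cos_add, Real.tan_eq_sin_div_cos]
  field_simp

theorem sin_near {t : ℝ} (ht : |t| ≤ 1 / 10) : |t - Real.sin t| ≤ t ^ 2 / 30 := by
  have h1 := Real.sin_bound (x := t) (by linarith)
  have h0 := abs_nonneg t
  have h2 : |t| ^ 4 ≤ t ^ 2 / 100 := by
    have : |t| ^ 4 = t ^ 2 * |t| ^ 2 := by rw [← sq_abs t]; ring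
    rw [this]
    have h3 : |t| ^ 2 ≤ (1 / 10) ^ 2 := pow_le_pow_left₀ h0 ht 2
    nlinarith [sq_nonneg t]
  have h3 : |t ^ 3 / 6| ≤ t ^ 2 / 60 := by
    have e : |t ^ 3 / 6| = t ^ 2 * |t| / 6 := by
      rw [abs_div, abs_pow, abs_of_pos (by norm_num : (0 : ℝ) < 6), ← sq_abs t]; ring
    rw [e]
    nlinarith [sq_nonneg t]
  have e : t - Real.sin t = -(Real.sin t - (t - t ^ 3 / 6)) + t ^ 3 / 6 := by ring
  rw [e]
  refine (abs_add_le _ _).trans ?_
  rw [abs_neg]
  nlinarith [sq_nonneg t]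

theorem cos_near {t : ℝ} (ht : |t| ≤ 1 / 10) :
    2 / 5 * t ^ 2 ≤ 1 - Real.cos t ∧ 1 - Real.cos t ≤ 3 / 5 * t ^ 2 := by
  have h1 := Real.cos_bound (x := t) (by linarith)
  have h0 := abs_nonneg t
  have h2 : |t| ^ 4 ≤ t ^ 2 / 100 := by
    have : |t| ^ 4 = t ^ 2 * |t| ^ 2 := by rw [← sq_abs t]; ring
    rw [this]
    have h3 : |t| ^ 2 ≤ (1 / 10) ^ 2 := pow_le_pow_left₀ h0 ht 2
    nlinarith [sq_nonneg t]
  rw [abs_le] at h1
  constructor <;> nlinarith [sq_nonneg t, h1.1, h1.2]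

variable {θ c M : ℝ}

theorem cos_ne (h0 : 0 ≤ θ) (h1 : θ ≤ Real.pi / 3) : Real.cos θ ≠ 0 := by
  have := cos_half h0 h1
  linarith

theorem wR_le_exp (h0 : 0 ≤ θ) (h1 : θ ≤ Real.pi / 3) {t : ℝ} (ht : |t| ≤ 1 / 10) :
    wR θ t ≤ Real.exp (-(Real.tan θ * t)) := by
  rw [wR_expand (cos_ne h0 h1)]
  have h2 : Real.tan θ ≤ 2 := (tan_le h0 h1).trans sqrt3_le
  have h3 := tan_nonneg h0 h1
  have h4 := sin_near ht
  have h5 := (cos_near ht).1
  rw [abs_le] at h4
  have h6 := Real.add_one_le_exp (-(Real.tan θ * t))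
  have h7 : Real.tan θ * (t - Real.sin t) ≤ 2 * (t ^ 2 / 30) :=
    (mul_le_mul_of_nonneg_left h4.2 h3).trans
      (mul_le_mul_of_nonneg_right h2 (by positivity))
  nlinarith [sq_nonneg t]

theorem exp_le_wR (h0 : 0 ≤ θ) (h1 : θ ≤ Real.pi / 3) {t : ℝ} (ht : |t| ≤ 1 / 10) :
    Real.exp (-(Real.tan θ * t) - 30 * t ^ 2) ≤ wR θ t := by
  rw [wR_expand (cos_ne h0 h1)]
  have h2 : Real.tan θ ≤ 2 := (tan_le h0 h1).trans sqrt3_le
  have h3 := tan_nonneg h0 h1
  have h4 := sin_near ht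
  have h5 := (cos_near ht).2
  have ht0 := abs_nonneg t
  have htt : t ^ 2 = |t| ^ 2 := (sq_abs t).symm
  rw [abs_le] at h4
  set u := -(Real.tan θ * t) - 30 * t ^ 2 with hu
  have hu1 : |u| ≤ 5 * |t| := by
    have e : |u| ≤ |Real.tan θ * t| + |30 * t ^ 2| := by
      rw [hu]
      have := abs_sub (-(Real.tan θ * t)) (30 * t ^ 2)
      rwa [abs_neg] at this
    rw [abs_mul, abs_of_nonneg h3, abs_of_nonneg (by positivity : 0 ≤ 30 * t ^ 2), htt] at e
    nlinarith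
  have hu2 : |u| ≤ 1 := by linarith
  have h8 := Real.abs_exp_sub_one_sub_id_le hu2
  rw [abs_le] at h8
  have h9 : u ^ 2 ≤ 25 * t ^ 2 := by
    rw [← sq_abs u, htt]
    nlinarith [abs_nonneg u]
  have h7 : -(2 * (t ^ 2 / 30)) ≤ Real.tan θ * (t - Real.sin t) := by
    have h10 : Real.tan θ * -(t ^ 2 / 30) ≤ Real.tan θ * (t - Real.sin t) :=
      mul_le_mul_of_nonneg_left h4.1 h3
    have h11 : Real.tan θ * (t ^ 2 / 30) ≤ 2 * (t ^ 2 / 30) :=
      mul_le_mul_of_nonneg_right h2 (by positivity)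
    linarith
  nlinarith [sq_nonneg t, h8.2]

/-! ### the pieces -/

variable {D : Finset (ℤ × ℤ)} {th : Finset Ed → ℝ} {p : ℤ × ℤ} {m : ℕ}
  {Z : Fin m → Finset (ℤ × ℤ)} {K : Fin m → Set (ℤ × ℤ)} {d : Fin m → ℝ} {f : Fin m → ℤ × ℤ → ℝ}
  {E : ℤ × ℤ → ℝ} {ω : Cfg} {A : Finset Ed}

/-- A piece which visits a zone has a square in the zone. -/
theorem exists_vs {Y : Finset (ℤ × ℤ)} (hY : Y ⊆ D) (hA : A ∈ pcs ω D) (h : Vz Y A) :
    ∃ e ∈ A, hdv e ∈ Y := by
  obtain ⟨e, he, h1⟩ := h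
  rcases mem_eds.1 h1 with h2 | h2
  · exact ⟨e, he, h2⟩
  · obtain ⟨a, rfl⟩ := (s_nx ω).2 e
    rw [tlv_nx] at h2
    exact ⟨a, (nx_mem_iff hA (hY h2)).2 he, h2⟩

theorem vz_of {Y : Finset (ℤ × ℤ)} {e : Ed} (he : e ∈ A) (h : hdv e ∈ Y) : Vz Y A :=
  ⟨e, he, mem_eds.2 (Or.inl h)⟩

/-- A piece near the core visits the zone. -/
theorem vs_of_nr (hR : Rng D p Z K d) {i : Fin m} (h : Nr (K i) A) : ∃ e ∈ A, hdv e ∈ Z i := by
  obtain ⟨e, he, h1, -⟩ := h
  refine ⟨e, he, hR.core i _ h1 _ ?_⟩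
  have h2 : (nm (hdv e - ls e) : ℝ) ≤ 1 := by exact_mod_cast nm_hdv_ls e
  have h3 := hR.pos i
  linarith

/-- A small piece which visits a zone does not visit another zone. -/
theorem not_vs (hR : Rng D p Z K d) {i j : Fin m} (hij : i ≠ j) (hs : Small (d i) A) {e e' : Ed}
    (he : e ∈ A) (h1 : hdv e ∈ Z i) (he' : e' ∈ A) : hdv e' ∉ Z j := by
  intro h2
  have h3 := hR.dis i j hij _ h1 _ h2
  have h4 := hs _ (Finset.mem_image_of_mem _ he) _ (Finset.mem_image_of_mem _ he')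
  have h5 := hR.pos i
  linarith

theorem not_nr (hR : Rng D p Z K d) {i j : Fin m} (hij : i ≠ j) (hs : Small (d i) A) {e : Ed}
    (he : e ∈ A) (h1 : hdv e ∈ Z i) : ¬ Nr (K j) A := by
  intro h2
  obtain ⟨e', he', h3⟩ := vs_of_nr hR h2
  exact not_vs hR hij hs he h1 he' h3

/-- The mass of a bump for a loop in `D`. -/
theorem mass_bump (hR : Rng D p Z K d) {i : Fin m} (hf : ∀ z, f i z ≠ 0 → z ∈ K i)
    (hA : A ∈ pcs ω D) (hl : IsLp D A) : mass D p (f i) A = G (f i) A := by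
  have hloop := IsLp.isLoop hA hl
  have hD : ∀ v ∈ vs A, v ∈ D := by
    intro v hv
    obtain ⟨e, he, rfl⟩ := Finset.mem_image.1 hv
    exact hl e he
  have hδ : 0 ≤ 33 * d i := by have := hR.pos i; linarith
  exact mass_nearR (hR.geo i) hδ hloop hD fun z hz => by
    by_contra hcon
    exact hz (hf z hcon)

/-- The other bumps do not contribute. -/
theorem G_other (hR : Rng D p Z K d) {i0 i : Fin m} (hne : i0 ≠ i)
    (hf : ∀ z, f i z ≠ 0 → z ∈ K i) (hA : A ∈ pcs ω D) (hl : IsLp D A) (hs : Small (d i0) A)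
    {e : Ed} (he : e ∈ A) (h1 : hdv e ∈ Z i0) : G (f i) A = 0 := by
  have hloop := IsLp.isLoop hA hl
  unfold G
  refine finsum_mem_eq_zero_of_forall_eq_zero fun z hz => ?_
  by_contra hcon
  have h2 := hf z hcon
  have h3 : z ∈ Z i := hR.core i z h2 z (by
    have := hR.pos i
    rw [sub_self]
    have e0 : nm (0 : ℤ × ℤ) = 0 := by simp [nm]
    rw [e0]; push_cast; linarith)
  have h4 := near_of_ins hloop hs hz (Finset.mem_image_of_mem _ he)
  have h5 := hR.dis i0 i hne _ h1 _ h3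
  have h6 := hR.pos i0
  linarith

theorem mass_Ft (f : Fin m → ℤ × ℤ → ℝ) (E : ℤ × ℤ → ℝ) (A : Finset Ed) :
    mass D p (Ft (fun _ => 1) f E) A = ∑ i, mass D p (f i) A + mass D p E A := by
  classical
  unfold mass Ft
  rw [Finset.sum_comm, ← Finset.sum_add_distrib]
  refine Finset.sum_congr rfl fun z _ => ?_
  split_ifs
  · simp
  · simp

/-- The weight of a small loop which visits a zone. -/
theorem w_loop (h : Phs θ c D th) (hR : Rng D p Z K d) (hf : ∀ i z, f i z ≠ 0 → z ∈ K i)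
    {i : Fin m} (hA : A ∈ pcs ω D) (hl : IsLp D A) (hs : Small (d i) A) {e : Ed} (he : e ∈ A)
    (h1 : hdv e ∈ Z i) (hE : mass D p E A = 0) :
    wR (th A) (mass D p (Ft (fun _ => 1) f E) A) = wR θ (G (f i) A) := by
  rw [mass_Ft, hE, add_zero, h.lp A hl]
  congr 1
  rw [Finset.sum_eq_single i]
  · exact mass_bump hR (hf i) hA hl
  · intro j _ hj
    rw [mass_bump hR (hf j) hA hl]
    exact G_other hR (fun h => hj h.symm) (hf j) hA hl hs he h1
  · intro h; exact absurd (Finset.mem_univ i) h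

theorem sum_Sm (hR : Rng D p Z K d) (hf : ∀ i z, f i z ≠ 0 → z ∈ K i) (i : Fin m) :
    ∑ A ∈ snk (K i) (d i) D ω, G (f i) A = Sm (f i) (d i) ω ∧
    ∑ A ∈ snk (K i) (d i) D ω, (G (f i) A) ^ 2 = ∑ ℓ ∈ smf (Z i) (d i) ω, (G (f i) ℓ) ^ 2 := by
  have hpos := hR.pos i
  have hf' : ∀ z ∉ K i, f i z = 0 := fun z hz => by
    by_contra hcon
    exact hz (hf i z hcon)
  have hT : ∀ ℓ, IsLoop ω ℓ → Small (d i) ℓ → G (f i) ℓ ≠ 0 → ∃ v ∈ vs ℓ, v ∈ Z i := by
    intro ℓ h1 h2 h3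
    have h4 := mem_snk_of (hR.geo i) (by linarith) (hR.wide i) hf' h1 h2 h3
    obtain ⟨-, -, h5, -⟩ := snk_spec (hR.geo i) (by linarith) h4
    obtain ⟨e, he, h6⟩ := vs_of_nr hR h5
    exact ⟨_, Finset.mem_image_of_mem _ he, h6⟩
  have hZ : ∀ z, f i z ≠ 0 → z ∈ Z i := fun z hz => hR.core i z (hf i z hz) z (by
    rw [sub_self]
    have e0 : nm (0 : ℤ × ℤ) = 0 := by simp [nm]
    rw [e0]; push_cast; linarith)
  constructor
  · rw [← sum_snk (hR.geo i) (by linarith) (hR.wide i) hf' hT (φ := G (f i)) fun _ h => h]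
    exact H562.MAJ.sum_G hZ (fun s hs v hv => hR.core i s (hf i s hs) v (by linarith)) ω
  · exact (sum_snk (hR.geo i) (by linarith) (hR.wide i) hf' hT (φ := fun ℓ => (G (f i) ℓ) ^ 2)
      fun _ h => by rw [h]; ring).symm

open Classical in
/-- The product of the weights of the small pieces. -/
theorem prod_small (h : Phs θ c D th) (hR : Rng D p Z K d) (hf : ∀ i z, f i z ≠ 0 → z ∈ K i)
    (hH : ∀ A ∈ pcs ω D, (∃ i, Vz (Z i) A ∧ Small (d i) A) → mass D p E A = 0 ∧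
      (¬ IsLp D A → mass D p (Ft (fun _ => 1) f E) A = 0)) :
    ∏ A ∈ (pcs ω D).filter (fun A => ∃ i, Vz (Z i) A ∧ Small (d i) A),
      wR (th A) (mass D p (Ft (fun _ => 1) f E) A) =
    ∏ i, ∏ A ∈ snk (K i) (d i) D ω, wR θ (G (f i) A) := by
  have hcs : ∀ A, Real.cos (th A) ≠ 0 := fun A => (h.c0.trans_le (h.cs A)).ne'
  have hc : Real.cos θ ≠ 0 := cos_ne h.m0 h.m1
  have hspec : ∀ i, ∀ A ∈ snk (K i) (d i) D ω, A ∈ pcs ω D ∧ Small (d i) A ∧ IsLp D A ∧
      ∃ e ∈ A, hdv e ∈ Z i := by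
    intro i A hA
    have hpos := hR.pos i
    obtain ⟨h1, h2, h3, -, -, h4⟩ := snk_spec (hR.geo i) (by linarith) hA
    exact ⟨h1, h2, h4, vs_of_nr hR h3⟩
  have hdisj : ∀ i ∈ (Finset.univ : Finset (Fin m)), ∀ j ∈ (Finset.univ : Finset (Fin m)), i ≠ j →
      Disjoint (snk (K i) (d i) D ω) (snk (K j) (d j) D ω) := by
    intro i _ j _ hij
    rw [Finset.disjoint_left]
    intro A hA hA'
    obtain ⟨-, h2, -, e, he, h3⟩ := hspec i A hA
    obtain ⟨-, -, -, e', he', h4⟩ := hspec j A hA'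
    exact not_vs hR hij h2 he h3 he' h4
  calc ∏ A ∈ (pcs ω D).filter (fun A => ∃ i, Vz (Z i) A ∧ Small (d i) A),
        wR (th A) (mass D p (Ft (fun _ => 1) f E) A)
      = ∏ A ∈ Finset.univ.biUnion (fun i => snk (K i) (d i) D ω),
        wR (th A) (mass D p (Ft (fun _ => 1) f E) A) := by
        symm
        refine Finset.prod_subset ?_ ?_
        · intro A hA
          obtain ⟨i, -, hi⟩ := Finset.mem_biUnion.1 hA
          obtain ⟨h1, h2, -, e, he, h3⟩ := hspec i A hi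
          exact Finset.mem_filter.2 ⟨h1, i, vz_of he h3, h2⟩
        · intro A hA hA'
          obtain ⟨h1, i, hv, hs⟩ := Finset.mem_filter.1 hA
          obtain ⟨hE, hst⟩ := hH A h1 ⟨i, hv, hs⟩
          by_cases hl : IsLp D A
          · obtain ⟨e, he, h2⟩ := exists_vs (hR.sub i) h1 hv
            rw [w_loop h hR hf h1 hl hs he h2 hE]
            have h0 : G (f i) A = 0 := by
              by_contra hne
              apply hA'
              have hpos := hR.pos i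
              refine Finset.mem_biUnion.2 ⟨i, Finset.mem_univ i, ?_⟩
              exact mem_snk_of (hR.geo i) (by linarith) (hR.wide i) (fun z hz => by
                by_contra hcon
                exact hz (hf i z hcon)) (IsLp.isLoop h1 hl) hs hne
            rw [h0, wR_zero hc]
          · rw [hst hl, wR_zero (hcs A)]
    _ = ∏ i, ∏ A ∈ snk (K i) (d i) D ω, wR (th A) (mass D p (Ft (fun _ => 1) f E) A) :=
        Finset.prod_biUnion hdisj
    _ = _ := by
        refine Finset.prod_congr rfl fun i _ => Finset.prod_congr rfl fun A hA => ?_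
        obtain ⟨h1, h2, hl, e, he, h3⟩ := hspec i A hA
        exact w_loop h hR hf h1 hl h2 he h3 (hH A h1 ⟨i, vz_of he h3, h2⟩).1

/-- **(PW)** -/
theorem s_PW : S_PW := by
  classical
  intro θ c D th p h m Z K d hR f E hf ω hsm hH N hN M hM1 hMc
  have hτ := tan_nonneg h.m0 h.m1
  set w : Finset Ed → ℝ := fun A => wR (th A) (mass D p (Ft (fun _ => 1) f E) A) with hw
  set vis := (pcs ω D).filter (fun A => ∃ i, Vz (Z i) A) with hvis
  have hsplit : ∏ A ∈ vis, w A =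
      (∏ A ∈ vis.filter (fun A => ¬ ∃ i, Vz (Z i) A ∧ Small (d i) A), w A) *
      ∏ i, ∏ A ∈ snk (K i) (d i) D ω, wR θ (G (f i) A) := by
    rw [← prod_small h hR hf hH, ← Finset.prod_filter_mul_prod_filter_not vis
      (fun A => ∃ i, Vz (Z i) A ∧ Small (d i) A), mul_comm]
    congr 1
    refine Finset.prod_congr ?_ fun _ _ => rfl
    rw [hvis, Finset.filter_filter]
    refine Finset.filter_congr fun A _ => ?_
    constructor
    · exact fun h1 => h1.2
    · exact fun h1 => ⟨h1.imp fun i h2 => h2.1, h1⟩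
  set big := vis.filter (fun A => ¬ ∃ i, Vz (Z i) A ∧ Small (d i) A) with hbig
  -- the number of the big pieces
  have hcard : big.card ≤ ∑ i, N i := by
    have hsub : big ⊆ Finset.univ.biUnion fun i =>
        (pcs ω D).filter (fun A => Vz (Z i) A ∧ ¬ Small (d i) A) := by
      intro A hA
      obtain ⟨h1, h2⟩ := Finset.mem_filter.1 hA
      obtain ⟨h3, i, h4⟩ := Finset.mem_filter.1 h1
      exact Finset.mem_biUnion.2 ⟨i, Finset.mem_univ i, Finset.mem_filter.2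
        ⟨h3, h4, fun h5 => h2 ⟨i, h4, h5⟩⟩⟩
    refine (Finset.card_le_card hsub).trans (Finset.card_biUnion_le.trans ?_)
    refine Finset.sum_le_sum fun i _ => ?_
    refine hN i _ (fun γ hγ => isSeg_piece (Finset.mem_filter.1 hγ).1) ?_ ?_
    · intro γ hγ γ' hγ' hne
      rw [Finset.disjoint_left]
      intro e he he'
      exact hne (eq_of_mem_pcs (Finset.mem_filter.1 hγ).1 (Finset.mem_filter.1 hγ').1 he he')
    · intro γ hγ
      obtain ⟨h1, h2, h3⟩ := Finset.mem_filter.1 hγ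
      refine ⟨exists_vs (hR.sub i) h1 h2, ?_⟩
      unfold Small at h3
      push Not at h3
      obtain ⟨u, hu, v, hv, h4⟩ := h3
      obtain ⟨e1, he1, rfl⟩ := Finset.mem_image.1 hu
      obtain ⟨e2, he2, rfl⟩ := Finset.mem_image.1 hv
      exact ⟨e1, he1, e2, he2, h4⟩
  have hM0 : 0 < M := by linarith
  have hspec : ∀ i, ∀ A ∈ snk (K i) (d i) D ω, |G (f i) A| ≤ 1 / 10 := by
    intro i A hA
    have hpos := hR.pos i
    obtain ⟨-, h2, -, h3, -, -⟩ := snk_spec (hR.geo i) (by linarith) hA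
    exact hsm i A h3 h2
  have hnn : ∀ i, 0 ≤ ∏ A ∈ snk (K i) (d i) D ω, wR θ (G (f i) A) := fun i =>
    Finset.prod_nonneg fun A hA => by
      have := wR_ge h.m0 h.m1 (hspec i A hA)
      linarith
  rw [hsplit]
  constructor
  · rw [abs_mul, abs_of_nonneg (Finset.prod_nonneg fun i _ => hnn i), Finset.prod_mul_distrib,
      Finset.prod_pow_eq_pow_sum]
    refine mul_le_mul ?_ ?_ (Finset.prod_nonneg fun i _ => hnn i) (by positivity)
    · have h1 : |∏ A ∈ big, w A| ≤ M ^ big.card := prod_le_pow big fun A _ =>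
        (abs_wR_le h.c0 (h.cs A) _).trans hMc
      exact h1.trans (pow_le_pow_right₀ hM1 hcard)
    · refine Finset.prod_le_prod (fun i _ => hnn i) fun i _ => ?_
      calc ∏ A ∈ snk (K i) (d i) D ω, wR θ (G (f i) A)
          ≤ ∏ A ∈ snk (K i) (d i) D ω, Real.exp (-(Real.tan θ * G (f i) A)) := by
            refine Finset.prod_le_prod (fun A hA => ?_) fun A hA => ?_
            · have := wR_ge h.m0 h.m1 (hspec i A hA)
              linarith
            · exact wR_le_exp h.m0 h.m1 (hspec i A hA)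
        _ = Real.exp (-(Real.tan θ * Sm (f i) (d i) ω)) := by
            rw [← Real.exp_sum, Finset.sum_neg_distrib, ← Finset.mul_sum, (sum_Sm hR hf i).1]
  · intro hlow
    rw [Finset.prod_mul_distrib, Finset.prod_pow_eq_pow_sum]
    have hMi0 : 0 < M⁻¹ := inv_pos.2 hM0
    have hMi1 : M⁻¹ ≤ 1 := inv_le_one_of_one_le₀ hM1
    refine mul_le_mul ?_ ?_ (Finset.prod_nonneg fun i _ => (Real.exp_pos _).le) ?_
    · calc M⁻¹ ^ (∑ i, N i) ≤ M⁻¹ ^ big.card := pow_le_pow_of_le_one hMi0.le hMi1 hcard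
        _ = ∏ _A ∈ big, M⁻¹ := by rw [Finset.prod_const]
        _ ≤ ∏ A ∈ big, w A := by
            refine Finset.prod_le_prod (fun _ _ => hMi0.le) fun A hA => ?_
            obtain ⟨h1, h2⟩ := Finset.mem_filter.1 hA
            obtain ⟨h3, i, h4⟩ := Finset.mem_filter.1 h1
            exact hlow A h3 ⟨i, h4, fun h5 => h2 ⟨i, h4, h5⟩⟩
    · refine Finset.prod_le_prod (fun i _ => (Real.exp_pos _).le) fun i _ => ?_
      calc Real.exp (-(Real.tan θ * Sm (f i) (d i) ω) -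
            30 * ∑ ℓ ∈ smf (Z i) (d i) ω, (G (f i) ℓ) ^ 2)
          = ∏ A ∈ snk (K i) (d i) D ω,
              Real.exp (-(Real.tan θ * G (f i) A) - 30 * (G (f i) A) ^ 2) := by
            rw [← Real.exp_sum, Finset.sum_sub_distrib, Finset.sum_neg_distrib, ← Finset.mul_sum,
              ← Finset.mul_sum, (sum_Sm hR hf i).1, (sum_Sm hR hf i).2]
        _ ≤ _ := Finset.prod_le_prod (fun _ _ => (Real.exp_pos _).le) fun A hA =>
            exp_le_wR h.m0 h.m1 (hspec i A hA)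
    · refine Finset.prod_nonneg fun A hA => ?_
      obtain ⟨h1, h2⟩ := Finset.mem_filter.1 hA
      obtain ⟨h3, i, h4⟩ := Finset.mem_filter.1 h1
      exact hMi0.le.trans (hlow A h3 ⟨i, h4, fun h5 => h2 ⟨i, h4, h5⟩⟩)

end Vale.Agent.P167.H542.Q.PW
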