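import Vale.Agent.P167.H542.Q.Cm3
import Vale.Agent.P167.H446.G.Asm

/-!
# P167, general `q`, [CMP]: the block `B_cmp`
-/

set_option autoImplicit false

namespace Vale.Agent.P167.H542Q.Cmp

open Vale.Agent.P167 Vale.Agent.P167.FK
open Vale.Agent.P167.H192.Q (SRSW)

/-- **[CMP]** -/
theorem b_cmp {μ : ℝ} (hQ : 1 ≤ 2 * Real.cos μ) (hRS : RSW (2 * Real.cos μ))
    (hSR : SRSW (2 * Real.cos μ)) : H446.G.B_cmp μ :=
  fun _ _ _ _ _ _ _ _ H hK _ _ hT hR => cmp hQ hRS hSR H hK hT hR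

end Vale.Agent.P167.H542Q.Cmp
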