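import Vale.Agent.P167.H542.Q.Um2
import Vale.Agent.P167.H411.Q.CDefs

/-!
# P167, general `q`, block Q-ND (CONT): a flat window in another direction, the bridge

`s_unsM : S_unsM θ P`: `QB.uns` with the window of the base point in any direction.
-/

namespace Vale.Agent.P167.H542.Q.Um

open Finset Filter Topology MeasureTheory Vale.Agent.P167 Vale.Agent.P167.BR Vale.Agent.P167.FK
open Vale.Agent.P167.E6 (IsPolygon Encloses dir face)
open Vale.Agent.P167.FKA (Loc Ind ArmDec)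
open Vale.Agent.P167.H519 (IsLim)
open Vale.Agent.P167.H135 (Mov Cor rk)
open Vale.Agent.P167.QX (lo hi exists_xy lo_xy hi_xy wB)
open Vale.Agent.P167.H562.SML
open Vale.Agent.P167.H562.MAJ (bigs Sm Sm_loc core Sc mem_core)
open Vale.Agent.P167.H562.QM
open Vale.Agent.P167.QB
open Vale.Agent.P167.H174.ND (poly_rot encl_rot s_base)
open Vale.Agent.P167.H640.ND (Mq poly_mov enc_mov ard_mov Ex_mov good_mov)

variable {P : Measure Cfg} {D : Finset (ℤ × ℤ)} {η ω : Cfg} {r R : ℤ} {K θ : ℝ} {i : Fin 4}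

theorem F_at (f : ℤ × ℤ → ℝ) (z : ℤ × ℤ) : (rk i).F f ((rk i).t z) = f z := by
  unfold Mov.F
  rw [Equiv.symm_apply_apply]

/-- **The bridge at `q l`, bump and point charge at `q m`.** -/
theorem brC2M (hθ0 : 0 < θ) (hθ1 : θ ≤ Real.pi / 3) (hR0 : RSW (2 * Real.cos θ))
    (hP : IsLim (2 * Real.cos θ) P) (hK : 1 ≤ K) :
    ∃ (r0 : ℝ) (Λ : ℤ) (α C : ℝ), 1 ≤ r0 ∧ 1 ≤ Λ ∧ 0 < α ∧ 0 < C ∧
    ∀ (n : ℕ) (q : ZMod n → ℤ × ℤ) (D : Finset (ℤ × ℤ)), IsPolygon q → Encloses q D →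
    ∀ (i : Fin 4) (η : Cfg) (l m : ℕ) (rc R₁ R₂ R₃ rd : ℤ) (fc fd : ℤ × ℤ → ℝ),
      Good η → m < n → l < n → (l : ℤ) + R₃ ≤ n → r0 ≤ rc → r0 ≤ rd →
      4 * rc + 2 ≤ R₁ → Λ * R₁ ≤ R₂ → R₂ + 4 ≤ R₃ →
      FltQ D η (q l) R₃ false false →
      FltQ ((rk i).S D) ((rk i).c η) ((rk i).t (q m)) (2 * rd) false false →
      q 0 ∉ sites (hbox (q l) R₃) →
      (rk i).t (q 0) ∉ sites (hbox ((rk i).t (q m)) (2 * rd)) →
      Disjoint (Zo i (q m) (2 * rd)) (hbox (q l) R₃) →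
      Bq' θ K (q l) rc fc → Bq' θ K ((rk i).t (q m)) rd ((rk i).F fd) →
      |Ex (2 * Real.cos θ) D η (XG θ q D n (fun z => (fd z - dlt (q m) θ z) - fc z)) -
        zC θ (q l) rc R₁ R₂ fc * Ex (2 * Real.cos θ) D η
          (XG θ q D n (fun z => (fd z - dlt (q m) θ z) - dlt (q l) θ z))| ≤
        C * (((rc : ℝ) / R₁) ^ α + ((R₁ : ℝ) / R₂) ^ α + ((R₂ : ℝ) / R₃) ^ α) *
          (Nf θ K P rc / Nf θ K P rd) := by
  classical
  have hQ := two_cos hθ0 hθ1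
  have hQ0 : 0 < 2 * Real.cos θ := by linarith
  obtain ⟨t0, t2⟩ := H562.QM.tan_bd hθ0 hθ1
  have hM2 := two_le_MW hθ0 hθ1
  have hM3 : (1 : ℝ) ≤ MW θ ^ 3 := one_le_pow₀ (by linarith)
  obtain ⟨C1, r1, hC1, hr1, h1⟩ := yb_mom hQ hR0 hP hK (MW θ ^ 3) 1 hM3 zero_le_one
  obtain ⟨Λ, α, C, hΛ, hα, hC, h2⟩ := asmC hθ0 hθ1 hR0
  refine ⟨r1, Λ, α, C * MW θ ^ 2 * C1 * C1, hr1, hΛ, hα, by positivity,
    fun n q D hq hD i η l m rc R₁ R₂ R₃ rd fc fd hη hmn hln hk hrc hrd hR1 hR2 hR3 hFc hFd h0c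
      h0d hdis hfc hfd => ?_⟩
  obtain ⟨hSc, h1c⟩ := h1 rc hrc
  obtain ⟨hSd, h1d⟩ := h1 rd hrd
  obtain ⟨Nc, hNc1, hNc2, hNc3⟩ := h1c (q l)
  obtain ⟨Nd, hNd1, hNd2, hNd3⟩ := h1d ((rk i).t (q m))
  have hrc8 := hSc.r8
  have hrd8 := hSd.r8
  have hΛR : R₁ ≤ R₂ := by nlinarith
  have hFc' : Flt D (q l) R₃ := flt_of hFc
  have hFc2 : Flt D (q l) (2 * rc) := hFc'.mono (by omega)
  have hFd' : Flt ((rk i).S D) ((rk i).t (q m)) (2 * rd) := flt_of hFd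
  have h0c2 : q 0 ∉ sites (hbox (q l) (2 * rc)) := fun h => h0c (sites_mono (hbox_mono (by omega)) h)
  have hfda : ∀ z, |fd z| ≤ K / (rd : ℝ) ^ 2 := fun z => by
    rw [← F_at (i := i) fd z]
    exact hfd.abs_le _
  have hfds : ∑ᶠ z, fd z = θ := (fs_mov (rk i) fd).symm.trans hfd.sum
  set Yc : Cfg → ℝ := YQ (MW θ ^ 3) (Real.tan θ) Nc (-fc) (dq K rc) with hYc
  set Y0 : Cfg → ℝ := YQ (MW θ ^ 3) (Real.tan θ) Nd ((rk i).F fd) (dq K rd) with hY0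
  set Yd : Cfg → ℝ := fun ω => Y0 ((rk i).c ω) with hYd
  have hYd' : ∀ ω, Yd ω = (MW θ ^ 3) ^ Nd ((rk i).c ω) *
      Real.exp (-(Real.tan θ * Sm fd (dq K rd) ω)) := fun ω => by
    rw [hYd, hY0]
    simp only [YQ]
    rw [Sm_mov i]
  have hbd : ∀ ω, (bigs D (Zo i (q m) rd) (dq K rd) ω).card ≤ Nd ((rk i).c ω) := fun ω => by
    rw [← bigs_mov i, S_Zo]
    exact hNd2 _ _
  have hYc0 : ∀ ω, 0 ≤ Yc ω := fun ω => (YQ_pos (by positivity) _ _ _ _ _).le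
  have hYd0 : ∀ ω, 0 ≤ Yd ω := fun ω => (YQ_pos (by positivity) _ _ _ _ _).le
  have hnf : ∀ z, |(-fc) z| ≤ K / (rc : ℝ) ^ 2 := fun z => by
    rw [Pi.neg_apply, abs_neg]; exact hfc.abs_le z
  have hqls : q l ∈ sites D := sites_mono (hbox_sub hFc') (by
    rw [mem_sites_hbox (by omega)]; omega)
  have hqms : q m ∈ sites D := sites_mono (Zo_sub hFd') (b_mem_Zo _ (by omega))
  have hmain := h2 n q D hq hD η n l rc R₁ R₂ R₃ fc (fun z => fd z - dlt (q m) θ z) Yc Yd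
    (C1 * Nf θ K P rc) (MW θ ^ 2) hη hln
    (by omega) hR1 hR2 hR3 hFc h0c hk hfc.nonneg
    (fun z hz => sites_mono hSc.core_sub (hfc.supp z hz)) hfc.sum
    (fun ζ A hA hI => ?_)
    (mul_nonneg hC1.le (Nf_pos _ _ _ _).le) (by positivity) hYc0 hYd0 ?_ ?_ ?_ ?_ ?_
  · refine hmain.trans ?_
    -- the expectation of the majorant at `d`
    have h3 := hNd3 ((rk i).S D) ((rk i).c η) false false (good_mov _ hη) hFd _ hfd.abs_le
      hfd.supp (fun _ => 1) (fun _ => zero_le_one) (fun _ _ _ => rfl) (Real.tan θ) 1 t0 t2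
      zero_le_one le_rfl
    simp only [one_mul, Real.rpow_one] at h3
    rw [FKA.Ex_const hQ0, hfd.sum, mul_one] at h3
    have h4 : Real.exp (-(Real.tan θ * θ * H562.QM.NbP P (dq K rd))) = 1 / Nf θ K P rd := by
      unfold Nf
      rw [Real.exp_neg, one_div]
    rw [h4] at h3
    have h3' : Ex (2 * Real.cos θ) D η Yd ≤ C1 * (1 / Nf θ K P rd) := by
      rw [hYd, ← Ex_mov]
      exact h3
    have h5 : (0 : ℝ) ≤ ((rc : ℝ) / R₁) ^ α + ((R₁ : ℝ) / R₂) ^ α + ((R₂ : ℝ) / R₃) ^ α := by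
      have e1 : (0 : ℝ) ≤ rc := by exact_mod_cast (by omega : (0 : ℤ) ≤ rc)
      have e2 : (0 : ℝ) ≤ R₁ := by exact_mod_cast (by omega : (0 : ℤ) ≤ R₁)
      have e3 : (0 : ℝ) ≤ R₂ := by exact_mod_cast (by omega : (0 : ℤ) ≤ R₂)
      have e4 : (0 : ℝ) ≤ R₃ := by exact_mod_cast (by omega : (0 : ℤ) ≤ R₃)
      positivity
    have h6 := Nf_pos θ K P rc
    calc C * (((rc : ℝ) / R₁) ^ α + ((R₁ : ℝ) / R₂) ^ α + ((R₂ : ℝ) / R₃) ^ α) * MW θ ^ 2 *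
          (C1 * Nf θ K P rc) * Ex (2 * Real.cos θ) D η Yd
        ≤ C * (((rc : ℝ) / R₁) ^ α + ((R₁ : ℝ) / R₂) ^ α + ((R₂ : ℝ) / R₃) ^ α) * MW θ ^ 2 *
          (C1 * Nf θ K P rc) * (C1 * (1 / Nf θ K P rd)) :=
          mul_le_mul_of_nonneg_left h3' (by positivity)
      _ = _ := by ring
  · -- the inner pieces
    rw [mass_sub', mass_innM hq hD (m := m) (rm := rd) hln hmn hFd' hFc'
      (by omega) (by omega) (by omega) hdis h0c
      (fun z hz => sites_mono (Ko_sub hSd _) (supp_Ko hfd.supp z hz)) hI, zero_sub,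
      mass_dlt hq hD hmn.le hA hqms, if_neg, neg_zero]
    intro ha
    have hAl : ¬ IsLp D A := fun h' => ard_lp hq hD hA h' ha
    obtain ⟨x, y, g1, g2, g3, g4, g5, -⟩ := inn_xy hq hD hFc' (by omega) hln h0c hA
      (fun e he => (hI e he).1) (fun e he => (hI e he).2) hAl
    have hfar := far_m hq hD hFd' (by omega) hFc' (by omega) hdis
    unfold Ard at ha
    rw [lo_xy hq hD hA g1, hi_xy hq hD hA g1] at ha
    omega
  · intro ω ω' hw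
    refine YQ_reads hSd hNd1 hfd.supp fun v hv => hw _ fun hv' => ?_
    have hvD : v ∈ (rk i).S D := (rk i).mem_S'.2 (hbox_sub hFc' hv')
    refine Finset.disjoint_left.1 hdis (mem_Zo.2 ?_) hv'
    rw [Equiv.apply_symm_apply]
    exact near_hbox hFd hvD hv
  · intro D' η' hF' hη' G hG0 hG
    have h3 := hNc3 D' η' false false hη' (fltQ_mn hF' (by omega)) (-fc) hnf hfc.neg_supp G hG0
      (fun ω ω' hw => hG ω ω' fun v hv => hw v fun hv' => hv (hbox_mono (by omega) hv'))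
      (Real.tan θ) 1 t0 t2 zero_le_one le_rfl
    simp only [Real.rpow_one] at h3
    rw [hfc.neg_sum] at h3
    refine h3.trans (le_of_eq ?_)
    unfold Nf
    congr 3
    ring
  · intro ω
    have h3 := FL_le (θ := θ) (σ := -1) hθ0 hθ1 hSc (R := R₁) (by omega) (Or.inr rfl) hnf
      hfc.neg_supp (hNc2 ω)
    refine (le_abs_self _).trans (h3.trans ?_)
    rw [hYc, YQ]
    refine mul_le_mul_of_nonneg_left (mul_le_mul_of_nonneg_right ?_ (Real.exp_pos _).le)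
      (by norm_num)
    rw [← pow_mul]
    exact pow_le_pow_right₀ (by linarith) (by omega)
  · intro ω
    rw [hYd']
    exact maj4M hq hD hθ0 hθ1 hln hmn hSd hSc hFd' hFc2 h0d h0c2
      (hdis.mono_right (hbox_mono (by omega))) hfda hfc.abs_le hfd.supp hfc.supp hfds
      hfc.sum ω (hbd ω) (hNc2 ω D)
  · intro ω
    rw [hYd']
    exact maj5M hq hD hθ0 hθ1 hln hmn hSd hFd' hFc' (by omega) h0d hdis hfda hfd.supp
      hfds ω (hbd ω)

variable {n : ℕ} {q : ZMod n → ℤ × ℤ} {l : ℕ} {rp : ℤ}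

/-- The position of the flat point `q l` and the new base point. -/
theorem base_pos (hq : IsPolygon q) (hD : Encloses q D) (hln : l ≤ n) (hR : 2 ≤ R)
    (hrp : 1 ≤ rp) (hFc : Flt D (q l) R)
    (hFp : Flt ((rk i).S D) ((rk i).t (q 0)) (2 * rp))
    (hdis : Disjoint (Zo i (q 0) (2 * rp)) (hbox (q l) R)) :
    R ≤ l ∧ (l : ℤ) + R ≤ n ∧ (rk i).t (q l + (R - 1, 0)) ∉
      sites (hbox ((rk i).t (q 0)) (2 * rp)) := by
  have hn0 : q ((0 : ℕ) : ZMod n) = q 0 := by rw [Nat.cast_zero]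
  have hnn : q ((n : ℕ) : ZMod n) = q 0 := by rw [ZMod.natCast_self]
  have f1 : ((0 : ℕ) : ℤ) ≤ l - R ∨ (l : ℤ) + R ≤ (0 : ℕ) :=
    far_m hq hD (i := i) (m := 0) (Rm := 2 * rp) (R := R) (by rw [hn0]; exact hFp) (by omega) hFc
      (by omega) (by rw [hn0]; exact hdis)
  have f2 : ((n : ℕ) : ℤ) ≤ l - R ∨ (l : ℤ) + R ≤ (n : ℕ) :=
    far_m hq hD (i := i) (m := n) (Rm := 2 * rp) (R := R) (by rw [hnn]; exact hFp) (by omega) hFc
      (by omega) (by rw [hnn]; exact hdis)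
  refine ⟨by omega, by omega, fun hcon => ?_⟩
  obtain ⟨v', hv', hc⟩ := mem_sites.1 hcon
  obtain ⟨v, rfl⟩ := (rk i).s.surjective v'
  have hv : v ∈ D := (rk i).mem_S.1 (hbox_sub hFp hv')
  have hc' : Cor v (q l + (R - 1, 0)) := ((rk i).cor v _).1 hc
  unfold Cor at hc'
  simp only [Prod.fst_add, Prod.snd_add] at hc'
  have h3 := (hFc v (by omega) (by omega) (by omega) (by omega)).1 hv
  exact Finset.disjoint_left.1 hdis (mem_Zo.2 hv') (by rw [mem_hbox]; omega)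

/-- The change of the base point. -/
theorem base_geoM (hq : IsPolygon q) (hD : Encloses q D)
    (hθ0 : 0 < θ) (hθ1 : θ ≤ Real.pi / 3) (hln : l ≤ n) (hR : 2 ≤ R) (hrp : 1 ≤ rp)
    (hFc : Flt D (q l) R) (hFp : Flt ((rk i).S D) ((rk i).t (q 0)) (2 * rp))
    (hdis : Disjoint (Zo i (q 0) (2 * rp)) (hbox (q l) R)) :
    ∃ (q' : ZMod n → ℤ × ℤ) (m l' : ℕ), IsPolygon q' ∧ Encloses q' D ∧ m < n ∧ l' < n ∧
      q' m = q 0 ∧ q' l' = q l ∧ q' 0 = q l + (R - 1, 0) ∧ (l' : ℤ) + (R - 2) ≤ n ∧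
    ∃ s : ℤ, (s = 0 ∨ s = 1 ∨ s = -1) ∧ ∀ fp g : ℤ × ℤ → ℝ, (∀ z, fp z ≠ 0 → z ∈ sites D) →
      (∀ z, g z ≠ 0 → z ∈ sites D) → ∑ᶠ z, fp z = θ → ∑ᶠ z, g z = θ → ∀ ω : Cfg,
      XG θ q D n (fun z => fp z - g z) ω = (2 * Real.cos θ) ^ s *
        XG θ q' D n (fun z => (fp z - dlt (q' m) θ z) - g z) ω := by
  obtain ⟨hl1, hl2, -⟩ := base_pos hq hD hln hR hrp hFc hFp hdis
  obtain ⟨t, ht⟩ : ∃ t : ℕ, (t : ℤ) = R - 1 := ⟨(R - 1).toNat, by omega⟩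
  set j : ℕ := l + t with hj
  obtain ⟨m, hm⟩ : ∃ m : ℕ, m + j = n := ⟨n - j, by omega⟩
  set q' : ZMod n → ℤ × ℤ := fun i => q (i + j) with hq'def
  have hqq : ∀ i : ZMod n, q' i = q (i + j) := fun _ => rfl
  have hqm : q' m = q 0 := by
    rw [hqq, ← Nat.cast_add, hm, ZMod.natCast_self]
  have hql : q' ((m + l : ℕ) : ZMod n) = q l := by
    rw [hqq, ← Nat.cast_add]
    have : m + l + j = l + n := by omega
    rw [this, Nat.cast_add, ZMod.natCast_self, add_zero]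
  have hq0 : q' 0 = q l + (R - 1, 0) := by
    rw [hqq, zero_add, hj, Nat.cast_add, ← ht]
    exact (walk hq hD hFc t (by omega)).1
  exact ⟨q', m, m + l, poly_rot hq hqq, encl_rot hD hqq, by omega, by omega, hqm, hql, hq0,
    by push_cast; omega,
    base_ch hq hD hθ0 (by linarith [Real.pi_pos]) (by omega) (by omega) hm hqq⟩

theorem pow_le_two (hQ : 1 ≤ 2 * Real.cos θ) {s : ℤ} (hs : s = 0 ∨ s = 1 ∨ s = -1) :
    (2 * Real.cos θ) ^ s ≤ 2 := by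
  have hc1 := Real.cos_le_one θ
  rcases hs with h3 | h3 | h3
  · rw [h3, zpow_zero]; norm_num
  · rw [h3, zpow_one]; linarith
  · rw [h3, zpow_neg_one]
    exact (inv_le_one_of_one_le₀ hQ).trans (by norm_num)

/-- **The bridge at `q l`, bump at the base point.** -/
theorem brC3M (hθ0 : 0 < θ) (hθ1 : θ ≤ Real.pi / 3) (hR0 : RSW (2 * Real.cos θ))
    (hP : IsLim (2 * Real.cos θ) P) (hK : 1 ≤ K) :
    ∃ (r0 : ℝ) (Λ : ℤ) (α C : ℝ), 1 ≤ r0 ∧ 1 ≤ Λ ∧ 0 < α ∧ 0 < C ∧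
    ∀ (n : ℕ) (q : ZMod n → ℤ × ℤ) (D : Finset (ℤ × ℤ)), IsPolygon q → Encloses q D →
    ∀ (i : Fin 4) (η : Cfg) (l : ℕ) (rc R₁ R₂ R₃ rp : ℤ) (fc fp : ℤ × ℤ → ℝ),
      Good η → l ≤ n → r0 ≤ rc → r0 ≤ rp → 4 * rc + 2 ≤ R₁ → Λ * R₁ ≤ R₂ → R₂ + 6 ≤ R₃ →
      FltQ D η (q l) R₃ false false →
      FltQ ((rk i).S D) ((rk i).c η) ((rk i).t (q 0)) (2 * rp) false false →
      Disjoint (Zo i (q 0) (2 * rp)) (hbox (q l) R₃) →
      Bq' θ K (q l) rc fc → Bq' θ K ((rk i).t (q 0)) rp ((rk i).F fp) →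
      |Ex (2 * Real.cos θ) D η (XG θ q D n (fun z => fp z - fc z)) -
        zC θ (q l) rc R₁ R₂ fc *
          Ex (2 * Real.cos θ) D η (XG θ q D n (fun z => fp z - dlt (q l) θ z))| ≤
        C * (((rc : ℝ) / R₁) ^ α + ((R₁ : ℝ) / R₂) ^ α + ((R₂ : ℝ) / R₃) ^ α) *
          (Nf θ K P rc / Nf θ K P rp) := by
  classical
  have hQ := two_cos hθ0 hθ1
  have hQ0 : 0 < 2 * Real.cos θ := by linarith
  obtain ⟨r0, Λ, α, C, hr0, hΛ, hα, hC, h⟩ := brC2M hθ0 hθ1 hR0 hP hK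
  obtain ⟨C1, r1, -, -, h1⟩ := yb_mom hQ hR0 hP hK 1 1 le_rfl zero_le_one
  refine ⟨max r0 r1, Λ, α, 2 * C * 2 ^ α, hr0.trans (le_max_left _ _), hΛ, hα, by positivity,
    fun n q D hq hD i η l rc R₁ R₂ R₃ rp fc fp hη hln hrc hrp hR1 hR2 hR3 hFc hFp hdis hfc hfp => ?_⟩
  obtain ⟨hSc, -⟩ := h1 rc ((le_max_right _ _).trans hrc)
  obtain ⟨hSp, -⟩ := h1 rp ((le_max_right _ _).trans hrp)
  replace hrc := (le_max_left _ _).trans hrc
  replace hrp := (le_max_left _ _).trans hrp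
  have hr1 : (1 : ℝ) ≤ rc := hr0.trans hrc
  have hr1' : 1 ≤ rc := by exact_mod_cast hr1
  have hr2 : 1 ≤ rp := by exact_mod_cast hr0.trans hrp
  have hR12 : R₁ ≤ R₂ := by nlinarith
  have hFc' := flt_of hFc
  have hFp' := flt_of hFp
  obtain ⟨-, -, hb2⟩ := base_pos hq hD hln (by omega) hr2 hFc' hFp' hdis
  obtain ⟨q', m, l', hq', hD', hm, hl', hqm, hql, hq0, hlR, s, hs, hbase⟩ :=
    base_geoM (θ := θ) hq hD hθ0 hθ1 hln (by omega) hr2 hFc' hFp' hdis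
  have hb1 : q' 0 ∉ sites (hbox (q l) (R₃ - 2)) := by
    rw [mem_sites_hbox (by omega), hq0]
    simp only [Prod.fst_add]
    omega
  rw [← hq0] at hb2
  have hsup1 : ∀ z, fp z ≠ 0 → z ∈ sites D := fun z hz =>
    sites_mono ((Ko_sub hSp _).trans ((Zo_mono _ (by omega)).trans (Zo_sub hFp')))
      (supp_Ko hfp.supp z hz)
  have hsup2 : ∀ z, fc z ≠ 0 → z ∈ sites D := fun z hz =>
    sites_mono (hSc.core_sub.trans ((hbox_mono (by omega)).trans (hbox_sub hFc'))) (hfc.supp z hz)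
  have hls : q l ∈ sites D := sites_mono (hbox_sub hFc') (by
    rw [mem_sites_hbox (by omega)]; omega)
  have hsup3 : ∀ z, dlt (q l) θ z ≠ 0 → z ∈ sites D := dlt_supp hls
  have htot3 : ∑ᶠ z, dlt (q l) θ z = θ := by rw [fin_sites hsup3, sum_dlt hls]
  have htot1 : ∑ᶠ z, fp z = θ := (fs_mov (rk i) fp).symm.trans hfp.sum
  have e1 : Ex (2 * Real.cos θ) D η (XG θ q D n (fun z => fp z - fc z)) =
      (2 * Real.cos θ) ^ s * Ex (2 * Real.cos θ) D η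
        (XG θ q' D n (fun z => (fp z - dlt (q' m) θ z) - fc z)) := by
    rw [← FKA.Ex_mul_left]
    congr 1
    funext ω
    exact hbase fp fc hsup1 hsup2 htot1 hfc.sum ω
  have e2 : Ex (2 * Real.cos θ) D η (XG θ q D n (fun z => fp z - dlt (q l) θ z)) =
      (2 * Real.cos θ) ^ s * Ex (2 * Real.cos θ) D η
        (XG θ q' D n (fun z => (fp z - dlt (q' m) θ z) - dlt (q l) θ z)) := by
    rw [← FKA.Ex_mul_left]
    congr 1
    funext ω
    exact hbase fp (dlt (q l) θ) hsup1 hsup3 htot1 htot3 ω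
  have h2 := h n q' D hq' hD' i η l' m rc R₁ R₂ (R₃ - 2) rp fc fp hη hm hl'
    hlR hrc hrp hR1 hR2 (by omega) (by rw [hql]; exact fltQ_mn hFc (by omega))
    (by rw [hqm]; exact hFp) (by rw [hql]; exact hb1) (by rw [hqm]; exact hb2)
    (by rw [hql, hqm]; exact hdis.mono_right (hbox_mono (by omega)))
    (by rw [hql]; exact hfc) (by rw [hqm]; exact hfp)
  rw [hql] at h2
  have hc2 : (0 : ℝ) < (2 * Real.cos θ) ^ s := zpow_pos hQ0 _
  have hc3 : (2 * Real.cos θ) ^ s ≤ 2 := pow_le_two hQ hs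
  rw [e1, e2, mul_left_comm, ← mul_sub, abs_mul, abs_of_pos hc2]
  refine (mul_le_mul hc3 h2 (abs_nonneg _) (by norm_num)).trans ?_
  have hb1 : (0 : ℝ) < R₁ := by exact_mod_cast (by omega : 0 < R₁)
  have hb2 : (0 : ℝ) < R₂ := by exact_mod_cast (by omega : 0 < R₂)
  have hb3 : (0 : ℝ) < R₃ := by exact_mod_cast (by omega : 0 < R₃)
  have hb4 : (0 : ℝ) < ((R₃ - 2 : ℤ) : ℝ) := by exact_mod_cast (by omega : 0 < R₃ - 2)
  have g3 : ((R₂ : ℝ) / ((R₃ - 2 : ℤ) : ℝ)) ^ α ≤ 2 ^ α * ((R₂ : ℝ) / R₃) ^ α := by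
    rw [← Real.mul_rpow (by norm_num) (by positivity)]
    refine Real.rpow_le_rpow (div_nonneg hb2.le hb4.le) ?_ hα.le
    rw [mul_div_assoc', div_le_div_iff₀ hb4 hb3]
    have h5 : (R₃ : ℝ) ≤ 2 * ((R₃ - 2 : ℤ) : ℝ) := by
      exact_mod_cast (by omega : R₃ ≤ 2 * (R₃ - 2))
    nlinarith
  have g2 : (1 : ℝ) ≤ 2 ^ α := Real.one_le_rpow (by norm_num) hα.le
  set x1 : ℝ := ((rc : ℝ) / R₁) ^ α with hx1'
  set x2 : ℝ := ((R₁ : ℝ) / R₂) ^ α with hx2'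
  set x3 : ℝ := ((R₂ : ℝ) / R₃) ^ α with hx3'
  have hr0' : (0 : ℝ) < rc := by linarith
  have hx1 : 0 ≤ x1 := Real.rpow_nonneg (by positivity) _
  have hx2 : 0 ≤ x2 := Real.rpow_nonneg (by positivity) _
  have hN : 0 ≤ Nf θ K P rc / Nf θ K P rp := (div_pos (Nf_pos _ _ _ _) (Nf_pos _ _ _ _)).le
  have k1 : x1 + x2 + ((R₂ : ℝ) / ((R₃ - 2 : ℤ) : ℝ)) ^ α ≤ 2 ^ α * (x1 + x2 + x3) := by
    nlinarith
  have k2 := mul_le_mul_of_nonneg_left k1 (mul_nonneg (mul_nonneg (by norm_num : (0 : ℝ) ≤ 2) hC.le)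
    hN)
  calc _ = 2 * C * (Nf θ K P rc / Nf θ K P rp) *
        (x1 + x2 + ((R₂ : ℝ) / ((R₃ - 2 : ℤ) : ℝ)) ^ α) := by ring
    _ ≤ _ := k2
    _ = _ := by ring

/-- **The functional with the bump at the base point and a point charge**, upper bound. -/
theorem brB3M (hθ0 : 0 < θ) (hθ1 : θ ≤ Real.pi / 3) (hR0 : RSW (2 * Real.cos θ))
    (hP : IsLim (2 * Real.cos θ) P) (hK : 1 ≤ K) :
    ∃ (r0 C : ℝ), 1 ≤ r0 ∧ 0 < C ∧
    ∀ (n : ℕ) (q : ZMod n → ℤ × ℤ) (D : Finset (ℤ × ℤ)), IsPolygon q → Encloses q D →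
    ∀ (i : Fin 4) (η : Cfg) (l : ℕ) (R rp : ℤ) (fp : ℤ × ℤ → ℝ),
      Good η → l ≤ n → r0 ≤ rp → 2 ≤ R →
      FltQ D η (q l) R false false →
      FltQ ((rk i).S D) ((rk i).c η) ((rk i).t (q 0)) (2 * rp) false false →
      Disjoint (Zo i (q 0) (2 * rp)) (hbox (q l) R) →
      Bq' θ K ((rk i).t (q 0)) rp ((rk i).F fp) →
      Ex (2 * Real.cos θ) D η
        (fun ω => |XG θ q D n (fun z => fp z - dlt (q l) θ z) ω|) ≤ C / Nf θ K P rp := by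
  classical
  have hQ := two_cos hθ0 hθ1
  have hQ0 : 0 < 2 * Real.cos θ := by linarith
  obtain ⟨t0, t2⟩ := H562.QM.tan_bd hθ0 hθ1
  have hM2 := two_le_MW hθ0 hθ1
  have hM3 : (1 : ℝ) ≤ MW θ ^ 3 := one_le_pow₀ (by linarith)
  obtain ⟨C1, r1, hC1, hr1, h1⟩ := yb_mom hQ hR0 hP hK (MW θ ^ 3) 1 hM3 zero_le_one
  refine ⟨r1, 2 * (MW θ ^ 2 * C1), hr1, by positivity,
    fun n q D hq hD i η l R rp fp hη hln hrp hR hFc hFp hdis hfp => ?_⟩
  obtain ⟨hSp, h1p⟩ := h1 rp hrp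
  obtain ⟨Np, hNp1, hNp2, hNp3⟩ := h1p ((rk i).t (q 0))
  have hrp8 := hSp.r8
  have hFc' := flt_of hFc
  have hFp' := flt_of hFp
  obtain ⟨-, -, hb⟩ := base_pos hq hD hln hR (by omega) hFc' hFp' hdis
  obtain ⟨q', m, l', hq', hD', hm, hl', hqm, hql, hq0, -, s, hs, hbase⟩ :=
    base_geoM (θ := θ) hq hD hθ0 hθ1 hln hR (by omega) hFc' hFp' hdis
  rw [← hq0] at hb
  have hls : q l ∈ sites D := sites_mono (hbox_sub hFc') (by
    rw [mem_sites_hbox (by omega)]; omega)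
  have hc2 : (0 : ℝ) < (2 * Real.cos θ) ^ s := zpow_pos hQ0 _
  have hc3 : (2 * Real.cos θ) ^ s ≤ 2 := pow_le_two hQ hs
  have hfpa : ∀ z, |fp z| ≤ K / (rp : ℝ) ^ 2 := fun z => by
    rw [← F_at (i := i) fp z]
    exact hfp.abs_le _
  have htot1 : ∑ᶠ z, fp z = θ := (fs_mov (rk i) fp).symm.trans hfp.sum
  have h3 := hNp3 ((rk i).S D) ((rk i).c η) false false (good_mov _ hη) hFp _ hfp.abs_le
    hfp.supp (fun _ => 1) (fun _ => zero_le_one) (fun _ _ _ => rfl) (Real.tan θ) 1 t0 t2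
    zero_le_one le_rfl
  simp only [one_mul, Real.rpow_one] at h3
  rw [FKA.Ex_const hQ0, hfp.sum, mul_one] at h3
  have h4 : Real.exp (-(Real.tan θ * θ * H562.QM.NbP P (dq K rp))) = 1 / Nf θ K P rp := by
    unfold Nf
    rw [Real.exp_neg, one_div]
  rw [h4] at h3
  have hpt : ∀ ω, |XG θ q D n (fun z => fp z - dlt (q l) θ z) ω| ≤
      2 * MW θ ^ 2 * YQ (MW θ ^ 3) (Real.tan θ) Np ((rk i).F fp) (dq K rp) ((rk i).c ω) := by
    intro ω
    rw [hbase fp (dlt (q l) θ) (fun z hz => sites_mono ((Ko_sub hSp _).trans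
      ((Zo_mono _ (by omega)).trans (Zo_sub hFp'))) (supp_Ko hfp.supp z hz)) (dlt_supp hls) htot1
      (by rw [fin_sites (dlt_supp hls), sum_dlt hls]) ω, abs_mul, abs_of_pos hc2]
    have h5 := maj5M (R := R) (K := K) (fd := fp) (Nd := Np ((rk i).c ω)) (i := i) hq' hD' hθ0 hθ1
      hl' hm hSp (by rw [hqm]; exact hFp') (by rw [hql]; exact hFc') (by omega)
      (by rw [hqm]; exact hb) (by rw [hql, hqm]; exact hdis) hfpa (by rw [hqm]; exact hfp.supp)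
      htot1 ω (by
        rw [← bigs_mov i, S_Zo, hqm]
        exact hNp2 _ _)
    rw [hql] at h5
    refine (mul_le_mul hc3 h5 (abs_nonneg _) (by norm_num)).trans (le_of_eq ?_)
    unfold YQ
    rw [Sm_mov i]
    ring
  have h6 : Ex (2 * Real.cos θ) D η
      (fun ω => |XG θ q D n (fun z => fp z - dlt (q l) θ z) ω|) ≤
      Ex (2 * Real.cos θ) D η (fun ω => 2 * MW θ ^ 2 *
        YQ (MW θ ^ 3) (Real.tan θ) Np ((rk i).F fp) (dq K rp) ((rk i).c ω)) :=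
    FKA.Ex_mono hQ0 fun S _ => hpt _
  rw [FKA.Ex_mul_left, ← Ex_mov] at h6
  refine h6.trans ?_
  refine (mul_le_mul_of_nonneg_left h3 (by positivity)).trans (le_of_eq ?_)
  ring

/-- **(UNS) with the window of the base point in any direction.** -/
theorem s_unsM (hθ0 : 0 < θ) (hθ1 : θ ≤ Real.pi / 3) (hR0 : RSW (2 * Real.cos θ))
    (hP : IsLim (2 * Real.cos θ) P) : H411.Q.S_unsM θ P := by
  intro K hK
  have hQ := two_cos hθ0 hθ1
  have hQ0 : 0 < 2 * Real.cos θ := by linarith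
  obtain ⟨r1, Λ1, α1, C1, hr1, hΛ1, hα1, hC1, h1⟩ := brC3M hθ0 hθ1 hR0 hP hK
  obtain ⟨r2, Λ2, α2, C2, hr2, hΛ2, hα2, hC2, h2⟩ := zC_cmp hθ0 hθ1 hR0 hP hK
  obtain ⟨r3, C3, hr3, hC3, h3⟩ := brB3M hθ0 hθ1 hR0 hP hK
  obtain ⟨K0, hK0, hsc⟩ := mid_sc (max Λ1 Λ2) (le_trans hΛ1 (le_max_left _ _))
  refine ⟨max (max r1 r2) (max r3 2), K0, min α1 α2 / 3,
    C1 * (3 * 2 ^ α1) + C2 * C3 * (3 * 2 ^ α2), hr1.trans ((le_max_left _ _).trans (le_max_left _ _)),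
    hK0, by positivity, by positivity,
    fun n q D hq hD i η l rc R rp fc fp hη hln hrc hrp hR1 hR2 hFc hFp hdis hfc hfp => ?_⟩
  have hdis' : Disjoint (Zo i (q 0) (2 * rp)) (hbox (q l) R) := by
    rw [← S_disj (rk i), S_Zo]
    exact hdis
  have m1 : r1 ≤ rc := ((le_max_left _ _).trans (le_max_left _ _)).trans hrc
  have m2 : r2 ≤ rc := ((le_max_right _ _).trans (le_max_left _ _)).trans hrc
  have m4 : (2 : ℝ) ≤ rc := ((le_max_right _ _).trans (le_max_right _ _)).trans hrc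
  have m5 : r1 ≤ rp := ((le_max_left _ _).trans (le_max_left _ _)).trans hrp
  have m6 : r3 ≤ rp := ((le_max_left _ _).trans (le_max_right _ _)).trans hrp
  have m4' : 2 ≤ rc := by exact_mod_cast m4
  obtain ⟨R₁, R₂, g1, g2, g3, g4, g5⟩ := hsc rc R (by omega) hR1
  have g2a : Λ1 * R₁ ≤ R₂ := le_trans (mul_le_mul_of_nonneg_right (le_max_left _ _) (by omega)) g2
  have g2b : Λ2 * R₁ ≤ R₂ := le_trans (mul_le_mul_of_nonneg_right (le_max_right _ _) (by omega)) g2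
  have k1 := h1 n q D hq hD i η l rc R₁ R₂ R rp fc fp hη hln m1 m5 g1 g2a g3 hFc hFp hdis' hfc hfp
  have k2 := h2 (q l) rc R₁ R₂ (rc ^ 2) (rc ^ 3) fc m2 g1 g2b (by omega) (by nlinarith)
    (by nlinarith) hfc
  have k3 : |Ex (2 * Real.cos θ) D η (XG θ q D n (fun z => fp z - dlt (q l) θ z))| ≤
      C3 / Nf θ K P rp := (FKA.abs_Ex_le hQ0 _).trans
    (h3 n q D hq hD i η l R rp fp hη hln m6 (by omega) hFc hFp hdis' hfp)
  have hx : (0 : ℝ) < rc := by linarith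
  have hRR : (rc : ℝ) ≤ R := by exact_mod_cast (by nlinarith : rc ≤ R)
  have hR0' : (0 : ℝ) < R := by linarith
  have hxR : (rc : ℝ) / R ≤ 1 := (div_le_one hR0').2 hRR
  have hxR0 : 0 < (rc : ℝ) / R := div_pos hx hR0'
  have e1 : ∀ α' : ℝ, min α1 α2 ≤ α' → ((rc : ℝ) / R) ^ (α' / 3) ≤
      ((rc : ℝ) / R) ^ (min α1 α2 / 3) := fun α' h =>
    Real.rpow_le_rpow_of_exponent_ge hxR0 hxR (by linarith)
  have p1 : (0 : ℝ) < 2 ^ α1 := by positivity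
  have p2 : (0 : ℝ) < 2 ^ α2 := by positivity
  have a1 := (g5 α1 hα1).trans (mul_le_mul_of_nonneg_left (e1 α1 (min_le_left _ _))
    (by positivity : (0 : ℝ) ≤ 3 * 2 ^ α1))
  have a2 := (g5 α2 hα2).trans (mul_le_mul_of_nonneg_left (e1 α2 (min_le_right _ _))
    (by positivity : (0 : ℝ) ≤ 3 * 2 ^ α2))
  have hN := Nf_pos θ K P rc
  have hM := Nf_pos θ K P rp
  set x : ℝ := ((rc : ℝ) / R) ^ (min α1 α2 / 3) with hxdef
  have hx0 : 0 ≤ x := Real.rpow_nonneg hxR0.le _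
  have q3 : (0 : ℝ) ≤ ((R₂ : ℝ) / R) ^ α2 := Real.rpow_nonneg (div_nonneg (by
    exact_mod_cast (by omega : 0 ≤ R₂)) hR0'.le) _
  have b1 := k1.trans (mul_le_mul_of_nonneg_right (mul_le_mul_of_nonneg_left a1 hC1.le)
    (div_pos hN hM).le)
  have b2 : |zC θ (q l) rc R₁ R₂ fc - zC θ (q l) rc (rc ^ 2) (rc ^ 3) fc| ≤
      C2 * (3 * 2 ^ α2 * x) * Nf θ K P rc := k2.trans (mul_le_mul_of_nonneg_right
      (mul_le_mul_of_nonneg_left (by linarith) hC2.le) hN.le)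
  have b3 := fin_asm b1 b2 k3 hN.le hC2.le (by positivity)
  refine b3.trans (le_of_eq ?_)
  ring

end Vale.Agent.P167.H542.Q.Um
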