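import Vale.Agent.P167.H542.Q.FamB
import Vale.Agent.P167.H398.Q.CDefs

/-!
# P167, general `q`, block 2A START: second moments of `XB` for flows
-/

open Finset MeasureTheory Filter Topology

namespace Vale.Agent.P167.H542.Q

open Vale.Agent.P167 Vale.Agent.P167.BR Relation Vale.Agent.P167.H542 Vale.Agent.P167.FK
open Vale.Agent.P167.H436 (ero mem_ero ero_sub econ_ero econ_enl cells_conn mem_enl)
open Vale.Agent.P167.H542.Dt

/-! ### the sum of the divergence -/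

theorem fin_comp {f : ℤ × ℤ → ℝ} (hf : f.support.Finite) (a : ℤ × ℤ) :
    (Function.support fun z : ℤ × ℤ => f (z + a)).Finite := by
  have h : (Function.support fun z : ℤ × ℤ => f (z + a)) = (fun z => z + a) ⁻¹' f.support := rfl
  rw [h]
  exact hf.preimage (add_left_injective a).injOn

theorem finsum_shift (f : ℤ × ℤ → ℝ) (a : ℤ × ℤ) : ∑ᶠ z : ℤ × ℤ, f (z + a) = ∑ᶠ z, f z :=
  finsum_comp_equiv (Equiv.addRight a)

theorem finsum_dv {c : Ed → ℝ} (hc : (Function.support c).Finite) :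
    ∑ᶠ z, H825.dv c z = 0 := by
  have h1 : (Function.support fun v : ℤ × ℤ => c (Sum.inl v)).Finite :=
    hc.preimage (f := Sum.inl) Sum.inl_injective.injOn
  have h2 : (Function.support fun v : ℤ × ℤ => c (Sum.inr v)).Finite :=
    hc.preimage (f := Sum.inr) Sum.inr_injective.injOn
  have e : ∀ z : ℤ × ℤ, H825.dv c z = ((fun v : ℤ × ℤ => c (Sum.inl v)) (z + (-1, -1)) -
      (fun v : ℤ × ℤ => c (Sum.inl v)) (z + (-1, 0))) +
      ((fun v : ℤ × ℤ => c (Sum.inr v)) (z + (0, -1)) -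
      (fun v : ℤ × ℤ => c (Sum.inr v)) (z + (-1, -1))) := by
    intro z
    unfold H825.dv
    simp only [Prod.add_def, add_zero, ← sub_eq_add_neg]
    ring
  simp only [e]
  have s1 := finsum_shift (fun v => c (Sum.inl v)) (-1, -1)
  have s2 := finsum_shift (fun v => c (Sum.inl v)) (-1, 0)
  have s3 := finsum_shift (fun v => c (Sum.inr v)) (0, -1)
  have s4 := finsum_shift (fun v => c (Sum.inr v)) (-1, -1)
  rw [finsum_add_distrib, finsum_sub_distrib (fin_comp h1 _) (fin_comp h1 _),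
    finsum_sub_distrib (fin_comp h2 _) (fin_comp h2 _), s1, s2, s3, s4, sub_self, sub_self,
    add_zero]
  · exact ((fin_comp h1 (-1, -1)).union (fin_comp h1 (-1, 0))).subset
      (Function.support_sub _ _)
  · exact ((fin_comp h2 (0, -1)).union (fin_comp h2 (-1, -1))).subset
      (Function.support_sub _ _)

/-! ### moments for charges in the bulk -/

/-- **Moments of the functional, any charges in the bulk.** -/
theorem mom_bulkQ {Q m : ℝ} (c : ℝ) (hQ1 : 1 ≤ Q) (hRSW : RSW Q) (hm0 : 0 ≤ m)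
    (hm1 : m ≤ Real.pi / 3) (S : CA.Dat) {κ0 Cm q : ℝ} (hκ0p : 0 < κ0) (hκ08 : κ0 ≤ 1 / 8)
    (hCm1 : 1 ≤ Cm) (hq : 0 ≤ q) :
    ∃ C : ℝ, 0 < C ∧ ∀ᶠ n : ℕ in atTop, ∀ η : Cfg, Good η → ∀ p, Bas (S.D n) p →
      ∀ th, Phs m c (S.D n) th → ∀ F : ℤ × ℤ → ℂ, (∀ z, ‖F z‖ ≤ Cm / (n : ℝ) ^ 2) →
      (∀ z ∉ sites (ero S.Q n ⌊κ0 * n⌋), F z = 0) → ∑ z ∈ sites (S.D n), F z = 0 →
      Ex Q (S.D n) η (fun ω => ‖XQ th (S.D n) p F ω‖ ^ q) ≤ C := by
  obtain ⟨R1, hR1, hRn⟩ := exists_R S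
  have hCm0 : 0 < Cm := by linarith
  obtain ⟨κ, hκp, hκ1, hκ2⟩ : ∃ κ : ℝ, 0 < κ ∧ κ ≤ κ0 / 40 ∧ κ ≤ 1 / (20 * Cm) :=
    ⟨min (κ0 / 40) (1 / (20 * Cm)), by positivity, min_le_left _ _, min_le_right _ _⟩
  have hκ3 : κ ≤ 1 := by linarith
  have hκC : 2 * (Cm * κ ^ 2) ≤ 1 / 10 := by
    have h1 : Cm * κ ≤ 1 / 20 := by
      have := mul_le_mul_of_nonneg_left hκ2 hCm0.le
      refine this.trans (le_of_eq ?_)
      field_simp
    have h2 : Cm * κ ^ 2 = Cm * κ * κ := by ring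
    rw [h2]
    nlinarith
  obtain ⟨M, hM1, hM⟩ : ∃ M : ℝ, 1 ≤ M ∧ c⁻¹ * Real.exp ((2 * R1 + 3) ^ 2 * Cm) ≤ M :=
    ⟨max 1 _, le_max_left _ _, le_max_right _ _⟩
  obtain ⟨C, ρ0, hC, hρ0, h⟩ := Ym_mom (R := R1 + 2) hQ1 hRSW hm0 hm1 hCm0 hκp
    (by linarith) (by linarith) hq hM1
  refine ⟨C, hC, ?_⟩
  have hev2 : ∀ᶠ n : ℕ in atTop, ρ0 ≤ (n : ℝ) :=
    tendsto_natCast_atTop_atTop.eventually_ge_atTop _
  have hev : ∀ᶠ n : ℕ in atTop, 4 / κ + 16 ≤ (n : ℝ) :=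
    tendsto_natCast_atTop_atTop.eventually_ge_atTop _
  filter_upwards [hev, hev2, eventually_gt_atTop 0] with n h3 hρ hn0' η hη p hp th hth F hbd hoff htot
  have hn0 : (0 : ℝ) < n := by exact_mod_cast hn0'
  have hn4 : 4 ≤ κ * n := by
    have h5 : 0 ≤ (16 : ℝ) := by norm_num
    have : 4 / κ ≤ n := by linarith
    rw [div_le_iff₀ hκp] at this; linarith
  have hn16 : (16 : ℝ) ≤ n := by
    have : 0 ≤ 4 / κ := by positivity
    linarith
  have hf1 := Int.floor_le (κ0 * n)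
  have hf2 := Int.lt_floor_add_one (κ0 * n)
  have hk0 : 0 ≤ ⌊κ0 * n⌋ := Int.floor_nonneg.2 (mul_nonneg (by linarith) hn0.le)
  have hκn : 40 * (κ * n) ≤ κ0 * n := by nlinarith
  have hκn8 : κ0 * n ≤ n / 8 := by nlinarith
  have hk2 : 2 * ⌊κ0 * n⌋ < (n : ℤ) := by
    have : (2 * ⌊κ0 * n⌋ : ℝ) < n := by linarith
    exact_mod_cast this
  have hκk : 34 * κ * n + 2 ≤ ⌊κ0 * n⌋ := by nlinarith
  have hwd : 2 * (κ * n) ≤ ((n : ℤ) - 1 - 2 * ⌊κ0 * n⌋ : ℤ) := by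
    push_cast
    linarith
  have h1 := prod_datQ S hp hth hn0' hk0 hk2 hκp (by nlinarith) hwd hoff
    htot hR1 (hRn n) hCm0 hκC hbd hM1 hM
  have hG := geo_eroQ S (bas_b S hn0') hn0' hk0 hk2 (δ := (⌊κ0 * n⌋ : ℝ) - 1) (by linarith)
  have h2 := h n hρ (S.D n) η hη {z | z ∈ sites (ero S.Q n ⌊κ0 * n⌋)}
    (fun z hz => by
      have := box_ero S (hRn n) hz
      have hn1 : (1 : ℝ) ≤ n := by exact_mod_cast hn0'
      nlinarith)
    (fun z hz v hv => hG.nbhd z hz v (hv.trans (by linarith))) F hbd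
    (sites (ero S.Q n ⌊κ0 * n⌋)) hoff (fun z hz => hz) (by
      rw [← Complex.re_sum]
      have h3 : ∑ z ∈ sites (ero S.Q n ⌊κ0 * n⌋), F z = ∑ z ∈ sites (S.D n), F z :=
        Finset.sum_subset (sites_mono ero_sub) fun z _ hz => hoff z hz
      rw [h3, htot, Complex.zero_re])
  refine le_trans ?_ h2
  refine FKA.Ex_mono (by linarith) fun S' _ => ?_
  generalize cf (S.D n) η S' = ω
  refine Real.rpow_le_rpow (norm_nonneg (XQ th (S.D n) p F ω)) ?_ hq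
  have := h1 ω (P := pcs ω (S.D n)) (Finset.Subset.refl _)
  rw [Finset.sdiff_self, Finset.card_empty, pow_zero, one_mul] at this
  unfold XQ
  rwa [norm_prod]

/-- The support of the divergence of a flow in the bulk. -/
theorem dv_ero {S₀ : Finset (ℤ × ℤ)} {κ B : ℝ} {n : ℕ} {c : Ed → ℝ} (hF : H825.FlowIn (H825.enl S₀ n) κ B n c)
    {k : ℤ} (hk0 : 0 ≤ k) (hk : (k : ℝ) + 4 ≤ κ * n) {z : ℤ × ℤ} (hz : H825.dv c z ≠ 0) :
    z ∈ sites (ero S₀ n k) := by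
  obtain ⟨e, he, h1, h2⟩ : ∃ e, c e ≠ 0 ∧ |z.1 - (H825.epos e).1| ≤ 1 ∧
      |z.2 - (H825.epos e).2| ≤ 1 := by
    by_contra hcon
    push Not at hcon
    apply hz
    have key : ∀ e, |z.1 - (H825.epos e).1| ≤ 1 → |z.2 - (H825.epos e).2| ≤ 1 → c e = 0 := by
      intro e h1 h2
      by_contra h3
      have := hcon e h3 h1
      omega
    unfold H825.dv
    rw [key (Sum.inl (z.1 - 1, z.2 - 1)) (by simp [H825.epos]) (by simp [H825.epos]),
      key (Sum.inl (z.1 - 1, z.2)) (by simp [H825.epos]) (by simp [H825.epos]),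
      key (Sum.inr (z.1, z.2 - 1)) (by simp [H825.epos]) (by simp [H825.epos]),
      key (Sum.inr (z.1 - 1, z.2 - 1)) (by simp [H825.epos]) (by simp [H825.epos])]
    ring
  refine mem_sites.2 ⟨z, ?_, Or.inl rfl, Or.inl rfl⟩
  rw [mem_ero hk0]
  intro i j h3 h4 h5 h6
  refine hF.sup e he (i, j) ?_
  have h7 : nm ((i, j) - H825.epos e) ≤ k + 4 := by
    rw [H45.nm_le, abs_le, abs_le]
    rw [abs_le] at h1 h2
    simp only [Prod.fst_sub, Prod.snd_sub]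
    omega
  have h8 : (nm ((i, j) - H825.epos e) : ℝ) ≤ k + 4 := by exact_mod_cast h7
  linarith

/-- **(M2F) Second moments for flows.** -/
theorem m2F {θ β : ℝ} (h0 : 0 < θ) (h1 : θ ≤ Real.pi / 3)
    (hβ : Real.cos (θ / 2 + β) = Real.sin θ) (hR : RSW (2 * Real.cos θ)) :
    H398.Q.M2F θ β := by
  intro l _ p S₀ hp hD Q hQ bc hbc κ B hκ
  obtain ⟨r, hr⟩ := hp.2.2 0
  rw [zero_add] at hr
  set S : CA.Dat := ⟨l, p, S₀, hp, hD, r, hr, 1 / 2, by norm_num, by norm_num⟩ with hS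
  obtain ⟨κ0, hκ0p, hκ08, hκ0⟩ : ∃ κ0 : ℝ, 0 < κ0 ∧ κ0 ≤ 1 / 8 ∧ κ0 ≤ κ / 2 :=
    ⟨min (1 / 8) (κ / 2), by positivity, min_le_left _ _, min_le_right _ _⟩
  obtain ⟨C, hC, h⟩ := mom_bulkQ (cB θ) (BD.one_le h0 h1) hR h0.le h1 S hκ0p hκ08
    (Cm := |B| + 1) (by linarith [abs_nonneg B]) (q := 2) (by norm_num)
  refine ⟨C, ?_⟩
  have hev : ∀ᶠ n : ℕ in atTop, 8 / κ ≤ (n : ℝ) :=
    tendsto_natCast_atTop_atTop.eventually_ge_atTop _
  filter_upwards [h, hev, eventually_gt_atTop 0] with n h2 h3 hn η hη c hc hF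
  have hn0 : (0 : ℝ) < n := by exact_mod_cast hn
  have hq := Enl.isPolygon_qN hn hp (Enl.tB n Q)
  have hE := Enl.encloses_qN hn hp hD (Enl.tB n Q)
  have hn8 : 4 ≤ κ / 2 * n := by
    rw [div_le_iff₀ hκ] at h3
    linarith
  have hk0 : 0 ≤ ⌊κ0 * n⌋ := Int.floor_nonneg.2 (mul_nonneg (by linarith) hn0.le)
  have hkκ : ((⌊κ0 * n⌋ : ℤ) : ℝ) + 4 ≤ κ * n := by
    have := Int.floor_le (κ0 * n)
    nlinarith
  have hoff : ∀ z ∉ sites (ero S.Q n ⌊κ0 * n⌋), ((H825.dv c z : ℝ) : ℂ) = 0 := by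
    intro z hz
    by_contra hne
    exact hz (dv_ero hF hk0 hkκ fun h => hne (by rw [h]; simp))
  have htot : ∑ z ∈ sites (S.D n), ((H825.dv c z : ℝ) : ℂ) = 0 := by
    rw [← Complex.ofReal_sum, ← finsum_eq_sum_of_support_subset, finsum_dv hc, Complex.ofReal_zero]
    intro z hz
    exact sites_mono ero_sub (dv_ero hF hk0 hkκ hz)
  have h4 := h2 η hη.good (Enl.qN p n (Enl.tB n Q) 0) (bas_poly hq hE) _
    (phs_thB (q := Enl.qN p n (Enl.tB n Q)) (k := bc.ka l n (Enl.tB n Q)) h0 h1 hβ)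
    (fun z => ((H825.dv c z : ℝ) : ℂ)) (fun z => by
      rw [Complex.norm_real, Real.norm_eq_abs]
      refine (hF.dle z).trans (div_le_div_of_nonneg_right ?_ (by positivity))
      linarith [le_abs_self B]) hoff htot
  refine le_trans (le_of_eq ?_) h4
  refine congrArg _ (funext fun ω => ?_)
  rw [XQ_ofReal, XR_thB hβ, Complex.norm_real, Real.norm_eq_abs]
  norm_num
  rfl

end Vale.Agent.P167.H542.Q
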