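import Vale.Agent.P167.H542.Q.Lw

/-!
# P167, general `q`, block Q-LAYER: assembly, (MOM) for the family of the Dobrushin functionals
-/

open Finset MeasureTheory Filter Topology

namespace Vale.Agent.P167.H542.Q

open Vale.Agent.P167 Vale.Agent.P167.BR Vale.Agent.P167.H542 Vale.Agent.P167.FK
open Vale.Agent.P167.H519 (IsLim)
open Vale.Agent.P167.H825 (Box)
open Vale.Agent.P167.H638.L (obox)
open Vale.Agent.P167.H662.L (S_lay S_cut S_momF TwoA)

/-- **(MOM) for the family of the Dobrushin functionals**, from the layer theorem, the two law-free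
steps and (2a) for flows which vanish near the lines. -/
theorem BD.mom {S : CA.Dat} {θ β : ℝ} (X : BD S θ β) (h0 : 0 < θ) (h1 : θ ≤ Real.pi / 3)
    (hβ : Real.cos (θ / 2 + β) = Real.sin θ) {P : Measure Cfg} (hP : IsLim (2 * Real.cos θ) P)
    (hRSW : RSW (2 * Real.cos θ)) (hp : ∀ᶠ n in X.L, X.q n 0 = S.b n) (hlay : S_lay P)
    (hcut : S_cut) (htwo : H662.L.S_two) (hmom : S_momF) {GP : Box → Prop}
    (hGP : ∀ x ∈ S.P, ∃ b : Box, b.Ok S.Q ∧ GP b ∧ x ∈ obox b)
    (hA : TwoA (2 / (Real.pi - θ)) S X.L GP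
      fun n f => ((X.famB h0 h1 hβ).Vc n fun z => (f z : ℂ)).re) :
    (X.famB h0 h1 hβ).MOM := by
  have hL : (X.famB h0 h1 hβ).L ≤ atTop := X.le
  have hc := hcut S P _ _ hL hlay (X.lawV h0 h1 hβ hP hp)
  have h2 := htwo (2 / (Real.pi - θ)) S _ GP _ hL hc hA
  exact hmom S (X.famB h0 h1 hβ) GP hGP h2 (X.famB_M2 h0 h1 hβ hRSW)

end Vale.Agent.P167.H542.Q
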