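import Vale.Agent.P167.H72.SD.Wf
import Vale.Agent.P167.H318.Rel.Main

/-!
# P167, general `q`, [CMP]: the comparison of the laws for one explored domain and one shape

`up_of`, `lo_of` : 72's sandwich (`cmp_up`, `cmp_lo`) together with 318's `split`, `rel`, `on_mix`.
-/

set_option autoImplicit false

namespace Vale.Agent.P167.H542Q.Cmp

open Finset Relation Vale.Agent.P167 Vale.Agent.P167.FK
open Vale.Agent.P145.FB (PStep)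
open Vale.Agent.P167.FKA (Cor)
open Vale.Agent.P167.E6 (IsPolygon Encloses edges wiredOpen)
open Vale.Agent.P167.H718 (Dq)
open Vale.Agent.P167.BR (sites hbox Jn)
open Vale.Agent.P167.H192.Q (SRSW Fr)
open Vale.Agent.P167.H318.Rel (Ast On zof Fl Sld Lnd Far)
open Vale.Agent.P167.H72.SD (dk om om0 NSup NSlo Up Lo Fsd As)

variable {Q : ℝ} {n : ℕ} {p : ZMod n → ℤ × ℤ} {S : Finset (ℤ × ℤ)} {k : ℕ}
  {A : Finset (Sym2 (ℤ × ℤ))} {j : ℕ} {Bad E P Z Bx : Finset (ℤ × ℤ)} {ζ ξ : Cfg}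
  {W arcP WP F : Set (ℤ × ℤ)}

/-- the functional -/
noncomputable def Fz (Q : ℝ) (D Dc Z : Finset (ℤ × ℤ)) (η ζ : Cfg) (W : Set (ℤ × ℤ)) : ℝ :=
  Ex Q D η (fun ω => (On Z ζ).indicator 1 ω * (Ast Dc Z W).indicator 1 ω)

theorem cf_zof (η : Cfg) : cf Z η ∅ = zof Z η := by
  funext v
  unfold cf zof
  split_ifs <;> simp

theorem as_ast (D : Finset (ℤ × ℤ)) : As D Z W = Ast D Z W := rfl

/-- `NSup` does not read the box. -/
theorem nsup_ind (D Bad Bx V : Finset (ℤ × ℤ)) (hV : V ⊆ Bx) :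
    FKA.Ind V ((NSup D Bad Bx).indicator (1 : Cfg → ℝ)) := by
  have key : ∀ ω ω' : Cfg, (∀ v, v ∉ V → ω v = ω' v) → ω ∈ NSup D Bad Bx → ω' ∈ NSup D Bad Bx := by
    rintro ω ω' h ⟨s, t, h1, h2, h3, h4⟩
    have h5 : (∃ t' ∈ sites Bx, ReflTransGen (PStep {v | v ∈ D ∧ ω' v = false}) s t') ∨
        ReflTransGen (PStep {v | v ∈ D ∧ ω' v = false}) s t := by
      clear h3
      induction h4 with
      | refl => exact Or.inr ReflTransGen.refl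
      | @tail w w' _ hst ih =>
        rcases ih with ih | ih
        · exact Or.inl ih
        · have hc := FKA.cor_of_step hst
          by_cases hq : (min w.1 w'.1, min w.2 w'.2) ∈ V
          · refine Or.inl ⟨w, ?_, ih⟩
            exact (H72.SD.mem_sites').2 ⟨_, hV hq, hc.1⟩
          · refine Or.inr (ih.tail ⟨hst.1, hst.2.1, hst.2.2.1, ?_⟩)
            show ω' _ = false
            rw [← h _ hq]
            exact hst.2.2.2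
    rcases h5 with ⟨t', h6, h7⟩ | h7
    · exact ⟨s, t', h1, h2, h6, h7⟩
    · exact ⟨s, t, h1, h2, h3, h7⟩
  intro ω ω' h
  by_cases h2 : ω ∈ NSup D Bad Bx
  · rw [Set.indicator_of_mem h2, Set.indicator_of_mem (key _ _ h h2)]
    rfl
  · rw [Set.indicator_of_notMem h2, Set.indicator_of_notMem fun h3 =>
      h2 (key _ _ (fun v hv => (h v hv).symm) h3)]

theorem Fz_split (hQ : 0 < Q) {D Dc : Finset (ℤ × ℤ)} {η : Cfg} {v₀ : ℤ × ℤ} {r : ℤ}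
    (hF : Fl D Dc η v₀ (r + 1)) (hZ : Z ⊆ hbox v₀ r) (hS : Sld v₀ Z ζ) :
    Fz Q D Dc Z η ζ W = Pr Q D η (On Z ζ) * Pr Q (D \ Z) (zof Z η) (Ast Dc Z W) :=
  H318.Rel.split hQ hF hZ hS H318.Rel.ind_Ast

theorem rpow_small {α C ε : ℝ} (hα : 0 < α) (hC : 0 < C) (hε : 0 < ε) : ∃ K : ℤ, 1 ≤ K ∧
    ∀ r R : ℤ, 1 ≤ r → K * r ≤ R → C * ((r : ℝ) / R) ^ α ≤ ε := by
  obtain ⟨t, ht, ht1⟩ : ∃ t : ℝ, 0 < t ∧ C * t ^ α ≤ ε := by
    refine ⟨(ε / C) ^ (1 / α), by positivity, ?_⟩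
    rw [← Real.rpow_mul (by positivity), one_div_mul_cancel hα.ne', Real.rpow_one]
    rw [mul_div_cancel₀ _ hC.ne']
  refine ⟨max 1 ⌈1 / t⌉, le_max_left _ _, fun r R hr hR => ?_⟩
  have hr' : (0 : ℝ) < r := by exact_mod_cast (show (0 : ℤ) < r by omega)
  have h1 : (1 / t : ℝ) ≤ (max 1 ⌈1 / t⌉ : ℤ) :=
    (Int.le_ceil _).trans (by exact_mod_cast le_max_right _ _)
  have h2 : (1 / t : ℝ) * r ≤ R := by
    have h3 : (((max 1 ⌈1 / t⌉ : ℤ) : ℝ)) * r ≤ R := by exact_mod_cast hR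
    exact (mul_le_mul_of_nonneg_right h1 hr'.le).trans h3
  have hR' : (0 : ℝ) < R := lt_of_lt_of_le (by positivity) h2
  have h4 : (r : ℝ) / R ≤ t := by
    rw [div_le_iff₀ hR']
    rw [one_div, inv_mul_eq_div, div_le_iff₀ ht] at h2
    linarith
  calc C * ((r : ℝ) / R) ^ α ≤ C * t ^ α := by
        gcongr
    _ ≤ ε := ht1

theorem fin_up {C₁ ε ε₀ a b pD pP N x y : ℝ} (hC₁ : 0 < C₁) (hε : 0 < ε) (hε0 : ε ≤ ε₀)
    (hε1 : ε ≤ 1) (a0 : 0 ≤ a) (b0 : 0 ≤ b) (pP0 : 0 ≤ pP) (j1 : a ≤ b + x)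
    (j2 : x ≤ C₁ * (N * a)) (hN : N ≤ ε / (8 * C₁)) (i1 : |pD - pP| ≤ y * pP) (i2 : y ≤ ε / 4) :
    pD * a ≤ (1 + ε₀) * (pP * b) := by
  have k1 : C₁ * (N * a) ≤ ε / 8 * a := by
    have h5 : C₁ * (N * a) ≤ C₁ * (ε / (8 * C₁) * a) :=
      mul_le_mul_of_nonneg_left (mul_le_mul_of_nonneg_right hN a0) hC₁.le
    have k2 : C₁ * (ε / (8 * C₁) * a) = ε / 8 * a := by field_simp
    linarith
  have k3 : a ≤ (1 + ε / 4) * b := by
    have h5 : (1 - ε / 8) * a ≤ b := by linarith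
    have h6 : 0 ≤ (1 + ε / 4) * (1 - ε / 8) - 1 := by nlinarith
    have h7 : (1 + ε / 4) * ((1 - ε / 8) * a) ≤ (1 + ε / 4) * b :=
      mul_le_mul_of_nonneg_left h5 (by linarith)
    have h8 : 0 ≤ ((1 + ε / 4) * (1 - ε / 8) - 1) * a := mul_nonneg h6 a0
    linarith
  have k4 : pD ≤ (1 + ε / 4) * pP := by
    have h5 := (abs_le.1 i1).2
    have h6 : y * pP ≤ ε / 4 * pP := mul_le_mul_of_nonneg_right i2 pP0
    linarith
  have k5 : pD * a ≤ ((1 + ε / 4) * pP) * ((1 + ε / 4) * b) :=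
    mul_le_mul k4 k3 a0 (by positivity)
  have k6 : (1 + ε / 4) * (1 + ε / 4) ≤ 1 + ε₀ := by nlinarith
  have k7 : 0 ≤ pP * b := mul_nonneg pP0 b0
  calc pD * a ≤ ((1 + ε / 4) * pP) * ((1 + ε / 4) * b) := k5
    _ = ((1 + ε / 4) * (1 + ε / 4)) * (pP * b) := by ring
    _ ≤ (1 + ε₀) * (pP * b) := mul_le_mul_of_nonneg_right k6 k7

theorem fin_lo {ε ε₀ a b pD pP N y : ℝ} (hε : 0 < ε) (hε0 : ε ≤ ε₀)
    (hε1 : ε ≤ 1) (b0 : 0 ≤ b) (pD0 : 0 ≤ pD) (pP0 : 0 ≤ pP)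
    (j1 : (1 - N) * b ≤ a) (hN : N ≤ ε / 2) (i1 : |pP - pD| ≤ y * pD) (i2 : y ≤ ε / 2) :
    (1 - ε₀) * (pP * b) ≤ pD * a := by
  have k1 : (1 - ε / 2) * b ≤ a :=
    le_trans (mul_le_mul_of_nonneg_right (by linarith) b0) j1
  have k4 : pP ≤ (1 + ε / 2) * pD := by
    have h5 := (abs_le.1 i1).2
    have h6 : y * pD ≤ ε / 2 * pD := mul_le_mul_of_nonneg_right i2 pD0
    linarith
  have k5 : (1 - ε / 2) * pP ≤ pD := by
    have h5 : (1 - ε / 2) * pP ≤ (1 - ε / 2) * ((1 + ε / 2) * pD) :=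
      mul_le_mul_of_nonneg_left k4 (by linarith)
    have h6 : 0 ≤ (ε / 2) * (ε / 2) * pD := by positivity
    linarith
  have k6 : ((1 - ε / 2) * pP) * ((1 - ε / 2) * b) ≤ pD * a :=
    mul_le_mul k5 k1 (mul_nonneg (by linarith) b0) pD0
  have k7 : 0 ≤ pP * b := mul_nonneg pP0 b0
  have k8 : 1 - ε₀ ≤ (1 - ε / 2) * (1 - ε / 2) := by nlinarith
  calc (1 - ε₀) * (pP * b) ≤ ((1 - ε / 2) * (1 - ε / 2)) * (pP * b) :=
        mul_le_mul_of_nonneg_right k8 k7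
    _ = ((1 - ε / 2) * pP) * ((1 - ε / 2) * b) := by ring
    _ ≤ pD * a := k6

/-- **[CMP], upper bound.** -/
theorem up_of (hQ : 1 ≤ Q) (hR : RSW Q) (hS : SRSW Q) : ∃ K : ℤ, 1 ≤ K ∧ ∀ (M : ℕ) (ε : ℝ), 0 < ε →
    ∃ η : ℝ, 0 < η ∧ ∃ K' m0 : ℤ, 1 ≤ K' ∧ 1 ≤ m0 ∧
    ∀ (n : ℕ) (p : ZMod n → ℤ × ℤ) (S : Finset (ℤ × ℤ)) (k : ℕ) (A : Finset (Sym2 (ℤ × ℤ))) (j : ℕ)
      (Bad E P Z Bx : Finset (ℤ × ℤ)) (ζ ξ : Cfg) (W arcP : Set (ℤ × ℤ)) (v₀ : ℤ × ℤ)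
      (r m L : ℤ), IsPolygon p → Encloses p S → k < n → A ⊆ edges S → m0 ≤ m → 1 ≤ r →
      K' * r ≤ m → K * m ≤ L → L ≤ M * m → Z ⊆ hbox v₀ r → hbox v₀ r ⊆ E → Sld v₀ Z ζ →
      Bq v₀ (K * m) ⊆ Bx →
      Fl (dk p k S A j) (Dq S p k) (om p k A) v₀ (K * m) → Lnd (dk p k S A j) v₀ m L K W →
      Far v₀ (K * m) W → Fl P P ξ v₀ (K * m) → Up p k S A j Bad E P ξ W arcP →
      Pr Q (dk p k S A j) (om p k A) (NSup (dk p k S A j) Bad Bx) ≤ η →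
      Fz Q (dk p k S A j) (Dq S p k) Z (om p k A) ζ W ≤ (1 + ε) * Fz Q P P Z ξ ζ arcP := by
  obtain ⟨K₁, hK₁, hrel⟩ := H318.Rel.rel hQ hR hS
  obtain ⟨α, C₂, K₂, hα, hC₂, hK₂, hmix⟩ := H318.Rel.on_mix hQ hR
  refine ⟨K₁, hK₁, fun M ε₀ hε₀ => ?_⟩
  obtain ⟨C₁, m1, hC₁, hm1, hrel⟩ := hrel M
  obtain ⟨ε, hε, hεε, hε1⟩ : ∃ ε : ℝ, 0 < ε ∧ ε ≤ ε₀ ∧ ε ≤ 1 :=
    ⟨min ε₀ 1, lt_min hε₀ one_pos, min_le_left _ _, min_le_right _ _⟩
  obtain ⟨K₃, hK₃, h3⟩ := rpow_small hα hC₂ (show 0 < ε / 4 by positivity)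
  refine ⟨ε / (8 * C₁), by positivity, max 2 (max K₂ K₃), m1, by omega, hm1, ?_⟩
  intro n p S k A j Bad E P Z Bx ζ ξ W arcP v₀ r m L hp hSe hk hA hm hr hrm hL hLM hZ hE hζ hBx
    hF hLn hFar hF' hUp hNS
  have hQ0 : 0 < Q := by linarith
  have e1 : 2 * r ≤ m := (mul_le_mul_of_nonneg_right (le_max_left _ _) (by omega)).trans hrm
  have e2 : K₂ * r ≤ m := (mul_le_mul_of_nonneg_right ((le_max_left _ _).trans
    (le_max_right _ _)) (by omega)).trans hrm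
  have e3 : K₃ * r ≤ m := (mul_le_mul_of_nonneg_right ((le_max_right _ _).trans
    (le_max_right _ _)) (by omega)).trans hrm
  have e4 : m ≤ K₁ * m := le_mul_of_one_le_left (by omega) hK₁
  have hZm : Z ⊆ hbox v₀ m := hZ.trans fun v hv => by
    rw [H318.Rel.mem_hbox] at hv ⊢
    omega
  have hZx : Z ⊆ Bx := fun v hv => hBx (H318.Rel.hbox_Bq e4 (hZm hv))
  have hsites : sites Z ⊆ sites Bx := fun s hs => by
    obtain ⟨v, hv, hvs⟩ := H72.SD.mem_sites'.1 hs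
    exact H72.SD.mem_sites'.2 ⟨v, hZx hv, hvs⟩
  have hFr : Fl (dk p k S A j) (Dq S p k) (om p k A) v₀ (r + 1) := hF.mono (by omega)
  have hFr' : Fl P P ξ v₀ (r + 1) := hF'.mono (by omega)
  -- the law on `Z`
  have i1 := hmix (dk p k S A j) (Dq S p k) P P Z (om p k A) ξ ζ v₀ r m hr e2 hZ
    (hF.mono e4) (hF'.mono e4)
  have i2 := h3 r m hr e3
  -- the far part
  have j1 := H72.SD.cmp_up (Z := Z) (Bx := Bx) hQ hF.good hF'.good hp hSe hk hA hUp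
    (hZ.trans hE) hsites
  rw [cf_zof, show om0 p k A Z = zof Z (om p k A) from cf_zof _] at j1
  have j2 := hrel (dk p k S A j) (Dq S p k) Z (om p k A) v₀ m L W
    ((NSup (dk p k S A j) Bad Bx).indicator 1) hm hL hLM hZm hF hLn hFar
    (fun _ => FKA.ind_nonneg _ _)
    (nsup_ind _ _ _ _ (Finset.inter_subset_right.trans hBx))
  have j3 : Pr Q (dk p k S A j \ Z) (zof Z (om p k A))
      (As (Dq S p k) Z W ∩ NSup (dk p k S A j) Bad Bx) =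
      Ex Q (dk p k S A j \ Z) (zof Z (om p k A)) (fun ω =>
        (NSup (dk p k S A j) Bad Bx).indicator 1 ω * (Ast (Dq S p k) Z W).indicator 1 ω) := by
    unfold Pr
    refine FKA.Ex_congr fun T _ => ?_
    set ω := cf (dk p k S A j \ Z) (zof Z (om p k A)) T
    show (As (Dq S p k) Z W ∩ NSup (dk p k S A j) Bad Bx).indicator (1 : Cfg → ℝ) ω =
      (NSup (dk p k S A j) Bad Bx).indicator 1 ω * (As (Dq S p k) Z W).indicator 1 ω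
    by_cases h5 : ω ∈ As (Dq S p k) Z W
    · by_cases h6 : ω ∈ NSup (dk p k S A j) Bad Bx
      · rw [Set.indicator_of_mem h5, Set.indicator_of_mem h6, Set.indicator_of_mem
          (show ω ∈ As (Dq S p k) Z W ∩ NSup (dk p k S A j) Bad Bx from ⟨h5, h6⟩)]
        simp
      · rw [Set.indicator_of_notMem h6, Set.indicator_of_notMem
          (show ω ∉ As (Dq S p k) Z W ∩ NSup (dk p k S A j) Bad Bx from fun h7 => h6 h7.2), zero_mul]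
    · rw [Set.indicator_of_notMem h5, Set.indicator_of_notMem
        (show ω ∉ As (Dq S p k) Z W ∩ NSup (dk p k S A j) Bad Bx from fun h7 => h5 h7.1), mul_zero]
  rw [j3] at j1
  rw [Fz_split hQ0 hFr hZ hζ, Fz_split hQ0 hFr' hZ hζ]
  exact fin_up hC₁ hε hεε hε1 (FKA.Pr_nonneg hQ0 _) (FKA.Pr_nonneg hQ0 _) (FKA.Pr_nonneg hQ0 _)
    j1 j2 hNS i1 i2

/-- **[CMP], lower bound.** -/
theorem lo_of (hQ : 1 ≤ Q) (hR : RSW Q) : ∀ ε : ℝ, 0 < ε → ∃ η : ℝ, 0 < η ∧ ∃ K' : ℤ, 1 ≤ K' ∧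
    ∀ (n : ℕ) (p : ZMod n → ℤ × ℤ) (S : Finset (ℤ × ℤ)) (k : ℕ) (A : Finset (Sym2 (ℤ × ℤ))) (j : ℕ)
      (Bad E P Z : Finset (ℤ × ℤ)) (ζ ξ : Cfg) (W WP arcP F : Set (ℤ × ℤ)) (v₀ : ℤ × ℤ)
      (r m a b c d : ℤ), IsPolygon p → Encloses p S → A ⊆ edges S → 1 ≤ r →
      K' * r ≤ m → Z ⊆ hbox v₀ r → hbox v₀ r ⊆ E → Sld v₀ Z ζ →
      Fl (dk p k S A j) (Dq S p k) (om p k A) v₀ m → Fl P P ξ v₀ m →
      Lo p k S A j Bad E P ξ W WP arcP →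
      (∀ s ∈ WP, ∀ t ∈ WP, ReflTransGen (PStep (op ξ ∩ (↑P : Set (ℤ × ℤ))ᶜ)) s t) →
      Fsd p k S A Z W F a b c d →
      Pr Q (dk p k S A j) (om p k A) (NSlo (dk p k S A j) (om p k A) Bad F) ≤ η →
      (1 - ε) * Fz Q P P Z ξ ζ arcP ≤ Fz Q (dk p k S A j) (Dq S p k) Z (om p k A) ζ W := by
  obtain ⟨α, C₂, K₂, hα, hC₂, hK₂, hmix⟩ := H318.Rel.on_mix hQ hR
  intro ε₀ hε₀
  obtain ⟨ε, hε, hεε, hε1⟩ : ∃ ε : ℝ, 0 < ε ∧ ε ≤ ε₀ ∧ ε ≤ 1 :=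
    ⟨min ε₀ 1, lt_min hε₀ one_pos, min_le_left _ _, min_le_right _ _⟩
  obtain ⟨K₃, hK₃, h3⟩ := rpow_small hα hC₂ (show 0 < ε / 2 by positivity)
  refine ⟨ε / 2, by positivity, max 2 (max K₂ K₃), by omega, ?_⟩
  intro n p S k A j Bad E P Z ζ ξ W WP arcP F v₀ r m a' b' c d hp hSe hA hr hrm hZ hE hζ
    hF hF' hLo hJ hFsd hNS
  have hQ0 : 0 < Q := by linarith
  have e1 : 2 * r ≤ m := (mul_le_mul_of_nonneg_right (le_max_left _ _) (by omega)).trans hrm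
  have e2 : K₂ * r ≤ m := (mul_le_mul_of_nonneg_right ((le_max_left _ _).trans
    (le_max_right _ _)) (by omega)).trans hrm
  have e3 : K₃ * r ≤ m := (mul_le_mul_of_nonneg_right ((le_max_right _ _).trans
    (le_max_right _ _)) (by omega)).trans hrm
  have hFr : Fl (dk p k S A j) (Dq S p k) (om p k A) v₀ (r + 1) := hF.mono (by omega)
  have hFr' : Fl P P ξ v₀ (r + 1) := hF'.mono (by omega)
  have i1 := hmix P P (dk p k S A j) (Dq S p k) Z ξ (om p k A) ζ v₀ r m hr e2 hZ hF' hF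
  have i2 := h3 r m hr e3
  have j1 := H72.SD.cmp_lo (Z := Z) hQ hF.good hF'.good hp hSe hA hLo hJ (hZ.trans hE) hFsd
  rw [cf_zof, show om0 p k A Z = zof Z (om p k A) from cf_zof _] at j1
  rw [Fz_split hQ0 hFr hZ hζ, Fz_split hQ0 hFr' hZ hζ]
  exact fin_lo hε hεε hε1 (FKA.Pr_nonneg hQ0 _) (FKA.Pr_nonneg hQ0 _) (FKA.Pr_nonneg hQ0 _)
    j1 hNS i1 i2

end Vale.Agent.P167.H542Q.Cmp
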