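import Vale.Agent.P167.H918.FlsP

/-!
# P167, general `q`, [CMP]: the choice of the scales
-/

set_option autoImplicit false

open Filter Topology Set

namespace Vale.Agent.P167.H542Q.Cmp

open Vale.Agent.P167
open Vale.Agent.P167.H446.G (Ku dl_pos Nn_le lt_Nn Ku_le lt_Ku tendsto_dl Nn_dvd)
open Vale.Agent.P167.H918 (Ku_Nn_bd half_Nn)

/-- The number of squares between the target and the mark at the distance `L`. -/
noncomputable def mq' (L s δ : ℝ) : ℕ := Ku L s * H446.G.Nn s δ + H446.G.Nn s δ / 2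

/-- The inequalities in squares. -/
structure Sc (K K' m₀ m b : ℤ) (M NN : ℕ) (D C u : ℤ) (δ ρ : ℝ) : Prop where
  m0 : m₀ ≤ m
  m1 : 1 ≤ m
  n1 : (1 : ℤ) ≤ NN
  kn : K' * (NN : ℤ) ≤ m
  kb : K * m ≤ b
  bD : b + 2 ≤ D
  DC : D + K * m + 1 ≤ C
  cM : (C - D) + K * m ≤ M * m
  r1 : ((C + 2 * (K * m) : ℤ) : ℝ) * δ ≤ ρ
  r2 : ((D : ℤ) : ℝ) * δ ≤ ρ
  r3 : ((C : ℤ) : ℝ) * δ ≤ ρ
  fl : K * m + 1 ≤ u * NN

theorem sc_core {Ld Lc mm ρ s d δ : ℝ} {K K' m₀ m b D C u : ℤ} {M NN : ℕ} (hd : 0 < d)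
    (hδ : 0 < δ) (hδd : δ ≤ 2 * d) (hK : 1 ≤ K) (hK' : 1 ≤ K') (hm : 0 < mm)
    (h1 : 8 * mm ≤ Ld) (h2 : Ld + 8 * mm ≤ Lc) (h3 : 2 * (Lc + 8 * mm) ≤ ρ)
    (hs1 : K' * s ≤ mm / (16 * K)) (hs2 : s ≤ mm / 16) (hs : 0 < s)
    (hM : 48 * K * Lc / mm ≤ (M : ℝ))
    (a1 : Ld - 2 * s ≤ (D : ℝ) * d) (a2 : (D : ℝ) * d ≤ Ld + s)
    (b1 : Lc - 2 * s ≤ (C : ℝ) * d) (b2 : (C : ℝ) * d ≤ Lc + s)
    (g1 : mm - 2 * s ≤ (u : ℝ) * NN * d)
    (n1 : (NN : ℝ) * d ≤ s) (n2 : 0 < (NN : ℝ) * d)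
    (hb1 : (b : ℝ) * d ≤ mm / 8)
    (f1 : (K : ℝ) * m * d ≤ mm / 8) (f2 : mm / 16 < (K : ℝ) * m * d) (hmb : K * m ≤ b)
    (e5 : |(m₀ : ℝ)| * K * d ≤ mm / 16) (e6 : 16 * d ≤ mm) :
    Sc K K' m₀ m b M NN D C u δ ρ := by
  have hKR : (1 : ℝ) ≤ K := by exact_mod_cast hK
  have hKR' : (1 : ℝ) ≤ K' := by exact_mod_cast hK'
  have f3 : mm / (16 * K) < (m : ℝ) * d := by
    rw [div_lt_iff₀ (by positivity)]
    have : (m : ℝ) * d * (16 * K) = 16 * (K * m * d) := by ring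
    linarith only [this, f2]
  have hLc : 0 < Lc := by linarith only [h1, h2, hm]
  have key : ∀ x y : ℤ, (x : ℝ) * d ≤ (y : ℝ) * d → x ≤ y := fun x y h => by
    exact_mod_cast le_of_mul_le_mul_right h hd
  have key' : ∀ x : ℤ, 0 ≤ x → (x : ℝ) * d ≤ Lc + 8 * mm → (x : ℝ) * δ ≤ ρ := by
    intro x hx h
    have hx' : (0 : ℝ) ≤ x := by exact_mod_cast hx
    have h4 : (x : ℝ) * δ ≤ x * (2 * d) := mul_le_mul_of_nonneg_left hδd hx'
    have h5 : (x : ℝ) * (2 * d) = 2 * (x * d) := by ring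
    linarith only [h4, h5, h, h3]
  have hmpos : 1 ≤ m := by
    have h4 : (0 : ℝ) < mm / (16 * K) := by positivity
    by_contra hcon
    have h5 : (m : ℝ) ≤ 0 := by exact_mod_cast (show m ≤ 0 by omega)
    have : (m : ℝ) * d ≤ 0 := mul_nonpos_of_nonpos_of_nonneg h5 hd.le
    linarith only [this, f3, h4]
  have hKm : 0 ≤ K * m := mul_nonneg (by omega) (by omega)
  have hD0 : 0 ≤ D := by
    apply key
    rw [Int.cast_zero, zero_mul]
    linarith only [a1, hs2, h1, hm]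
  have hC0 : 0 ≤ C := by
    apply key
    rw [Int.cast_zero, zero_mul]
    linarith only [b1, hs2, h1, h2, hm]
  constructor
  · apply key
    have h4 : (m₀ : ℝ) ≤ |(m₀ : ℝ)| := le_abs_self _
    have h5 : (m₀ : ℝ) * d ≤ |(m₀ : ℝ)| * d := mul_le_mul_of_nonneg_right h4 hd.le
    have h6 : |(m₀ : ℝ)| * d ≤ mm / (16 * K) := by
      rw [le_div_iff₀ (by positivity)]
      have : |(m₀ : ℝ)| * d * (16 * K) = 16 * (|(m₀ : ℝ)| * K * d) := by ring
      linarith only [this, e5]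
    linarith only [h5, h6, f3]
  · exact hmpos
  · by_contra hcon
    have h4 : NN = 0 := by omega
    rw [h4, Nat.cast_zero, zero_mul] at n2
    exact absurd n2 (lt_irrefl _)
  · apply key
    rw [Int.cast_mul, Int.cast_natCast]
    have h4 : (K' : ℝ) * (NN * d) ≤ K' * s :=
      mul_le_mul_of_nonneg_left n1 (by linarith only [hKR'])
    have h5 : (K' : ℝ) * (NN : ℝ) * d = K' * (NN * d) := by ring
    rw [h5]
    linarith only [h4, hs1, f3]
  · exact hmb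
  · apply key
    rw [Int.cast_add]
    have h5 : ((b : ℝ) + ((2 : ℤ) : ℝ)) * d = b * d + 2 * d := by push_cast; ring
    rw [h5]
    linarith only [hb1, e6, a1, hs2, h1, hm]
  · apply key
    rw [Int.cast_add, Int.cast_add, Int.cast_mul, Int.cast_one]
    have h5 : ((D : ℝ) + K * m + 1) * d = D * d + K * m * d + d := by ring
    rw [h5]
    linarith only [a2, f1, e6, b1, h2, hs2, hm]
  · apply key
    rw [Int.cast_add, Int.cast_sub, Int.cast_mul, Int.cast_mul, Int.cast_natCast]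
    have h4 : ((C : ℝ) - D + K * m) * d = C * d - D * d + K * m * d := by ring
    rw [h4]
    have hmd : 0 ≤ (m : ℝ) * d := by
      have h4 : (0 : ℝ) < mm / (16 * K) := by positivity
      linarith only [f3, h4]
    have h5 : 48 * K * Lc / mm * (m * d) ≤ (M : ℝ) * (m * d) :=
      mul_le_mul_of_nonneg_right hM hmd
    have h6 : 3 * Lc ≤ 48 * K * Lc / mm * (m * d) := by
      have h7 : 48 * K * Lc / mm * (mm / (16 * K)) = 3 * Lc := by field_simp; ring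
      rw [← h7]
      exact mul_le_mul_of_nonneg_left f3.le (by positivity)
    have h8 : (M : ℝ) * m * d = (M : ℝ) * (m * d) := by ring
    rw [h8]
    linarith only [h5, h6, b2, a1, f1, hs2, h1, h2, hm]
  · apply key' _ (by omega)
    rw [Int.cast_add, Int.cast_mul, Int.cast_mul]
    have : ((C : ℝ) + ((2 : ℤ) : ℝ) * (K * m)) * d = C * d + 2 * (K * m * d) := by
      push_cast; ring
    rw [this]
    linarith only [b2, f1, hs2, hm]
  · apply key' _ hD0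
    linarith only [a2, h2, hs2, hm]
  · apply key' _ hC0
    linarith only [b2, hs2, hm]
  · apply key
    rw [Int.cast_add, Int.cast_mul, Int.cast_one, Int.cast_mul, Int.cast_natCast]
    have h5 : ((K : ℝ) * m + 1) * d = K * m * d + d := by ring
    rw [h5]
    linarith only [f1, e6, g1, hs2, hm]

theorem cmp_num {Ld Lc mm ρ : ℝ} {K : ℤ} (hK : 1 ≤ K) (hm : 0 < mm) (h1 : 8 * mm ≤ Ld)
    (h2 : Ld + 8 * mm ≤ Lc) (h3 : 2 * (Lc + 8 * mm) ≤ ρ) :
    ∃ M : ℕ, ∀ K' : ℤ, 1 ≤ K' → ∃ s₀ : ℝ, 0 < s₀ ∧ ∀ s : ℝ, 0 < s → s ≤ s₀ →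
      ∀ (m₀ : ℤ) (δ : ℕ → ℝ), (∀ n, 0 < δ n) → Tendsto δ atTop (𝓝 0) → ∀ᶠ n in atTop,
      ∃ m : ℤ, Sc K K' m₀ m ⌊mm / (8 * H446.G.dl (δ n))⌋ M (H446.G.Nn s (δ n))
        (mq' Ld s (δ n) : ℤ) (mq' Lc s (δ n) : ℤ) (Ku mm s : ℤ) (δ n) ρ := by
  have hKR : (1 : ℝ) ≤ K := by exact_mod_cast hK
  have hLd : 0 < Ld := by linarith
  have hLc : 0 < Lc := by linarith
  refine ⟨⌈48 * K * Lc / mm⌉₊, fun K' hK' => ?_⟩
  have hKR' : (1 : ℝ) ≤ K' := by exact_mod_cast hK'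
  have hM : 48 * K * Lc / mm ≤ (⌈48 * K * Lc / mm⌉₊ : ℝ) := Nat.le_ceil _
  refine ⟨mm / (16 * K * K'), by positivity, ?_⟩
  intro s hs hs0 m₀ δ hδ hδ0
  have hs1 : K' * s ≤ mm / (16 * K) := by
    have h4 := mul_le_mul_of_nonneg_left hs0 (show (0 : ℝ) ≤ K' by linarith)
    have h5 : (K' : ℝ) * (mm / (16 * K * K')) = mm / (16 * K) := by field_simp
    linarith
  have hs2 : s ≤ mm / 16 := by
    have h4 : mm / (16 * K) ≤ mm / 16 := by
      refine div_le_div_of_nonneg_left hm.le (by norm_num) (by linarith)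
    have h5 : s ≤ K' * s := le_mul_of_one_le_left hs.le hKR'
    linarith
  have ht := tendsto_dl hδ0
  have ev : ∀ x y : ℝ, 0 < y → ∀ᶠ n in atTop, H446.G.dl (δ n) * x < y := by
    intro x y hy
    have h3 : Tendsto (fun n => H446.G.dl (δ n) * x) atTop (𝓝 (0 * x)) := ht.mul_const x
    rw [zero_mul] at h3
    exact h3.eventually (gt_mem_nhds hy)
  filter_upwards [ev (4 * Ld) (s * s) (by positivity), ev (4 * Lc) (s * s) (by positivity),
    ev (4 * mm) (s * s) (by positivity), ev 8 s hs,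
    ev (|(m₀ : ℝ)| * K) (mm / 16) (by positivity),
    ev (1 + K) (mm / 16) (by positivity)] with
    n e1 e2 e3 e4 e5 e6
  have hd := dl_pos (hδ n)
  obtain ⟨a1, a2⟩ := Ku_Nn_bd hLd.le hs (hδ n) e1.le
  obtain ⟨b1, b2⟩ := Ku_Nn_bd hLc.le hs (hδ n) e2.le
  obtain ⟨g1, g2⟩ := Ku_Nn_bd hm.le hs (hδ n) e3.le
  have n1 := Nn_le hs (hδ n)
  have n2 := lt_Nn (s := s) (hδ n)
  have hδe : δ n ≤ 2 * H446.G.dl (δ n) := by
    have hsq : Real.sqrt 2 ≤ 2 := by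
      rw [Real.sqrt_le_left (by norm_num)]
      norm_num
    have h4 : δ n = Real.sqrt 2 * H446.G.dl (δ n) := by
      unfold H446.G.dl
      field_simp
    have h5 := mul_le_mul_of_nonneg_right hsq hd.le
    linarith only [h4, h5]
  have hhalf := half_Nn (s := s) (δ := δ n)
  have eq : ∀ L : ℝ, ((mq' L s (δ n) : ℤ) : ℝ) * H446.G.dl (δ n) =
      H446.G.dl (δ n) * ((Ku L s : ℝ) * H446.G.Nn s (δ n)) +
        H446.G.dl (δ n) * (H446.G.Nn s (δ n) : ℝ) / 2 := by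
    intro L
    unfold mq'
    have : (((Ku L s * H446.G.Nn s (δ n) + H446.G.Nn s (δ n) / 2 : ℕ) : ℤ) : ℝ) =
        (Ku L s : ℝ) * H446.G.Nn s (δ n) + (H446.G.Nn s (δ n) : ℝ) / 2 := by
      rw [← hhalf]
      push_cast
      rfl
    rw [this]
    ring
  have n3 : 0 < H446.G.dl (δ n) * (H446.G.Nn s (δ n) : ℝ) := by linarith only [n2, e4, hs]
  obtain ⟨b, hb⟩ : ∃ b : ℤ, b = ⌊mm / (8 * H446.G.dl (δ n))⌋ := ⟨_, rfl⟩
  have hb1 : (b : ℝ) * H446.G.dl (δ n) ≤ mm / 8 := by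
    have := Int.floor_le (mm / (8 * H446.G.dl (δ n)))
    rw [← hb, le_div_iff₀ (by positivity)] at this
    linarith only [this]
  have hb2 : mm / 8 < ((b : ℝ) + 1) * H446.G.dl (δ n) := by
    have := Int.lt_floor_add_one (mm / (8 * H446.G.dl (δ n)))
    rw [← hb, div_lt_iff₀ (by positivity)] at this
    linarith only [this]
  rw [← hb]
  obtain ⟨m, hmb⟩ : ∃ m : ℤ, m = b / K := ⟨_, rfl⟩
  have hm1 : K * m ≤ b := by rw [hmb]; exact Int.mul_ediv_self_le (by omega)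
  have hm2 : b < K * m + K := by
    rw [hmb]
    exact Int.lt_mul_ediv_self_add (x := b) (show 0 < K by omega)
  have hm1R : (K : ℝ) * m ≤ b := by exact_mod_cast hm1
  have hm2R : (b : ℝ) < K * m + K := by exact_mod_cast hm2
  have f1 : (K : ℝ) * m * H446.G.dl (δ n) ≤ mm / 8 :=
    (mul_le_mul_of_nonneg_right hm1R hd.le).trans hb1
  have f2 : mm / 16 < (K : ℝ) * m * H446.G.dl (δ n) := by
    have h4 := mul_lt_mul_of_pos_right hm2R hd
    have h5 : ((b : ℝ) + 1) * H446.G.dl (δ n) = b * H446.G.dl (δ n) + H446.G.dl (δ n) := by ring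
    have h6 : ((K : ℝ) * m + K) * H446.G.dl (δ n) =
      K * m * H446.G.dl (δ n) + K * H446.G.dl (δ n) := by ring
    have h7 : H446.G.dl (δ n) * (1 + (K : ℝ)) = H446.G.dl (δ n) + K * H446.G.dl (δ n) := by ring
    linarith only [h4, h5, h6, h7, hb2, e6]
  have hKd : 0 ≤ H446.G.dl (δ n) * (K - 1) := mul_nonneg hd.le (by linarith only [hKR])
  refine ⟨m, sc_core (s := s) hd (hδ n) hδe hK hK' hm h1 h2 h3 hs1 hs2 hs hM ?_ ?_ ?_ ?_ ?_ ?_
    ?_ hb1 f1 f2 hm1 ?_ ?_⟩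
  · rw [eq]
    linarith only [a1, n3]
  · rw [eq]
    linarith only [a2, n1, hs]
  · rw [eq]
    linarith only [b1, n3]
  · rw [eq]
    linarith only [b2, n1, hs]
  · have : ((Ku mm s : ℤ) : ℝ) * (H446.G.Nn s (δ n) : ℝ) * H446.G.dl (δ n) =
        H446.G.dl (δ n) * ((Ku mm s : ℝ) * H446.G.Nn s (δ n)) := by push_cast; ring
    rw [this]
    exact g1
  · linarith only [n1]
  · linarith only [n3]
  · linarith only [e5]
  · linarith only [e6, hKd, hm, hd]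

end Vale.Agent.P167.H542Q.Cmp
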