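import Vale.Agent.P167.H542.Q.Cm1
import Vale.Agent.P167.H542.Q.Cm2
import Vale.Agent.P167.H446.G.Lit
import Vale.Agent.P167.H446.G.Flat2
import Vale.Agent.P167.QE.Ft

/-!
# P167, general `q`, [CMP]: the block `I_cmp`

`cmp` : for all constants which are small relative to the flat radius of the domains the one-sided
comparison holds for all histories before the exit.
-/

set_option autoImplicit false

open Filter Topology Set

namespace Vale.Agent.P167.H542Q.Cmp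

open Vale.Agent.P167 Vale.Agent.P167.FK
open Vale.Agent.P145.FB (PStep)
open Vale.Agent.P167.QT
open Vale.Agent.P167.E6 (IsPolygon Encloses edges wiredOpen)
open Vale.Agent.P167.H718 (Dq)
open Vale.Agent.P167.BR (sites hbox Jn)
open Vale.Agent.P167.H192 (ro)
open Vale.Agent.P167.H192.Q (SRSW)
open Vale.Agent.P167.H411 (exn Set6)
open Vale.Agent.P167.H318.Rel (Ast On zof Fl Sld Lnd Far)
open Vale.Agent.P167.H72.SD (dk om NSup NSlo Up Lo Fsd Wf Ff)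
open Vale.Agent.P167.H446.G

theorem fz_eq (D Z : Finset (ℤ × ℤ)) (ζ : Cfg) (W : Set (ℤ × ℤ)) (ω : Cfg) :
    fz D Z ζ W ω = (On Z ζ).indicator 1 ω * (Ast D Z W).indicator 1 ω := by
  unfold fz
  by_cases h1 : ∀ v ∈ Z, ω v = ζ v
  · rw [Set.indicator_of_mem (show ω ∈ On Z ζ from h1)]
    by_cases h2 : Jn false (D \ Z) ω (sites Z) W
    · rw [Set.indicator_of_mem (show ω ∈ Ast D Z W from h2), if_pos ⟨h1, h2⟩]
      simp
    · rw [Set.indicator_of_notMem (show ω ∉ Ast D Z W from h2), if_neg (fun h => h2 h.2), mul_zero]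
  · rw [Set.indicator_of_notMem (show ω ∉ On Z ζ from h1), if_neg (fun h => h1 h.1), zero_mul]

theorem PZ_eq (μ : ℝ) (N : ℕ) (v₀ : ℤ × ℤ) (P : Sh4) (Z : Finset (ℤ × ℤ)) (ζ : Cfg) :
    PZ μ N v₀ P Z ζ = Fz (2 * Real.cos μ) (dom N v₀ P) (dom N v₀ P) Z (ext N v₀ P) ζ
      (arcc N v₀ P) := by
  unfold PZ Fz
  congr 1
  funext ω
  exact fz_eq _ _ _ _ _

theorem cex_eq {μ : ℝ} (hμ : 0 < Real.cos μ) (δ : ℕ → ℝ) (N k : ℕ → ℕ)
    (p : ∀ n, ZMod (N n) → ℤ × ℤ) (S : ℕ → Finset (ℤ × ℤ)) (ψn : ℕ → ℂ → ℂ) (n : ℕ)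
    (hp : IsPolygon (p n)) (hE : Encloses (p n) (S n)) {A : Finset (Sym2 (ℤ × ℤ))}
    (hA : A ⊆ edges (S n)) (j : ℕ) (Z : Finset (ℤ × ℤ)) (ζ : Cfg) (W : Set (ℤ × ℤ)) :
    QE.cexW (exn δ N k p S ψn n) (QE.wq ((2 * Real.cos μ) ^ 2) (N n) (p n) (k n) (S n))
        (fun A' => fz (Dq (S n) (p n) (k n)) Z ζ W (QT.cf (p n) (k n) A')) A j =
      Fz (2 * Real.cos μ) (dk (p n) (k n) (S n) A j) (Dq (S n) (p n) (k n)) Z
        (om (p n) (k n) A) ζ W := by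
  have h := QG.cexW_exn (q := (2 * Real.cos μ) ^ 2) (by positivity) δ N k p S ψn n hp hE
    (fun ω => fz (Dq (S n) (p n) (k n)) Z ζ W ω) hA j
  rw [Real.sqrt_sq (by positivity)] at h
  refine h.trans ?_
  unfold Fz
  congr 1
  funext ω
  exact fz_eq _ _ _ _ _

section

variable {Φ : (ℝ × ℝ) ≃ₜ (ℝ × ℝ)} {ψ : ℂ → ℂ} {δ : ℕ → ℝ} {N k : ℕ → ℕ}
  {p : ∀ n, ZMod (N n) → ℤ × ℤ} {S : ℕ → Finset (ℤ × ℤ)} {ψn : ℕ → ℂ → ℂ} {T R μ : ℝ}

/-- **[CMP]** -/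
theorem cmp (hQ : 1 ≤ 2 * Real.cos μ) (hRS : RSW (2 * Real.cos μ)) (hSR : SRSW (2 * Real.cos μ))
    (H : Set6 Φ ψ δ N k p S ψn) (hK : QE.Stair 3 Φ δ N k p S) (hT : 0 ≤ T) (hR : 0 < R) :
    ∃ ρ : ℝ, 0 < ρ ∧ ∀ C : Cst, C.T = T → C.R = R → C.Sm ρ → I_cmp μ C δ N k p S ψn := by
  obtain ⟨r, hr, hst⟩ := hK
  obtain ⟨ρ₁, hρ₁, h1⟩ := H918.loc_of H.appr hr hst
  obtain ⟨ρ₂, hρ₂, h2⟩ := H918.fls_pt H hr hst hT hR.le
  refine ⟨min ρ₁ ρ₂ / 4, by positivity, fun C hCT hCR hC => ?_⟩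
  have hcos : 0 < Real.cos μ := by linarith
  obtain ⟨K, hK1, hup⟩ := up_of hQ hRS hSR
  obtain ⟨M, hnum⟩ := cmp_num (ρ := min ρ₁ ρ₂) hK1 hC.m_pos hC.m_Ld hC.Ld_Lc (by
    have := hC.Lc_le
    have := lt_min hρ₁ hρ₂
    linarith)
  intro ε' hε'
  obtain ⟨η₁, hη₁, K₁, m₀, hK₁, hm₀, hup⟩ := hup M ε' hε'
  obtain ⟨η₂, hη₂, K₂, hK₂, hlo⟩ := lo_of hQ hRS ε' hε'
  obtain ⟨s₀, hs₀, hnum⟩ := hnum (max 2 (max K₁ K₂)) (by omega)
  refine ⟨min η₁ η₂, lt_min hη₁ hη₂, s₀, hs₀, fun s hs hs' r' hr' => ?_⟩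
  have hδ0 : ∀ n, 0 < δ n := fun n => (H.appr.1 n).1
  filter_upwards [h1, h2, hnum s hs hs' m₀ δ hδ0 H.appr.2.1] with n g1 g2 g3
  rintro A j ⟨hAC, hjK, hbef⟩ c P hP hInp hpr Z ζ hZ
  rw [hCT, hCR] at hbef
  obtain ⟨fl, lnd, far⟩ := g2 A hAC j hjK hbef
  obtain ⟨M', HL⟩ := g1
  obtain ⟨m, ⟨c1, c2, c3, c4, c5, c6, c7, c8, c9, c10, c11, c12⟩⟩ := g3
  obtain ⟨hδ, hk0, hkN, hpoly, henc⟩ := H.appr.1 n
  have hA : A ⊆ edges (S n) := (H411.mem_Qc (p := p n) (k := k n) (δ := δ n)).1 hAC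
  have hKm : 0 ≤ K * m := mul_nonneg (by omega) (by omega)
  have hmK : m ≤ K * m := le_mul_of_one_le_left (by omega) hK1
  have k1 : K₁ * (H446.G.Nn s (δ n) : ℤ) ≤ m := (mul_le_mul_of_nonneg_right
    ((le_max_left _ _).trans (le_max_right _ _)) (by omega)).trans c4
  have k2 : K₂ * (H446.G.Nn s (δ n) : ℤ) ≤ m := (mul_le_mul_of_nonneg_right
    ((le_max_right _ _).trans (le_max_right _ _)) (by omega)).trans c4
  have k3 : 2 * (H446.G.Nn s (δ n) : ℤ) ≤ m := (mul_le_mul_of_nonneg_right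
    (le_max_left _ _) (by omega)).trans c4
  -- the distances
  have hcst : ∀ x : ℤ, x ≤ (mq' C.Lc s (δ n) : ℤ) + 2 * (K * m) → (x : ℝ) * δ n ≤ ρ₂ := by
    intro x hx
    have h3 : (x : ℝ) ≤ (((mq' C.Lc s (δ n) : ℤ) + 2 * (K * m) : ℤ) : ℝ) := by exact_mod_cast hx
    exact ((mul_le_mul_of_nonneg_right h3 hδ.le).trans c9).trans (min_le_right _ _)
  have hFl : Fl (dk (p n) (k n) (S n) A j) (Dq (S n) (p n) (k n)) (om (p n) (k n) A)
      (vd (p n) (k n) C.Ld s (δ n)) (K * m) := by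
    refine fl (mq' C.Ld s (δ n) : ℤ) (K * m) (by omega) ?_
    have := hcst ((mq' C.Ld s (δ n) : ℤ) + K * m) (by omega)
    rwa [Int.cast_add] at this
  have hFl' : Fl (dom (H446.G.Nn s (δ n)) (vd (p n) (k n) C.Ld s (δ n)) P)
      (dom (H446.G.Nn s (δ n)) (vd (p n) (k n) C.Ld s (δ n)) P)
      (ext (H446.G.Nn s (δ n)) (vd (p n) (k n) C.Ld s (δ n)) P)
      (vd (p n) (k n) C.Ld s (δ n)) (K * m) := fl_shape hP.1 (by omega) c12
  have hcases : c = true ∨ c = false := by cases c <;> simp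
  rcases hcases with rfl | rfl
  · -- the upper bound
    rw [if_pos rfl, cex_eq hcos δ N k p S ψn n hpoly henc hA j, PZ_eq]
    obtain ⟨E, hE, hU⟩ := hInp
    rw [if_pos rfl] at hU
    unfold prNS at hpr
    rw [if_pos rfl] at hpr
    refine hup (N n) (p n) (S n) (k n) A j _ E _ Z
      (Bq (vd (p n) (k n) C.Ld s (δ n)) (mb C.m (δ n))) ζ _ _ _
      (vd (p n) (k n) C.Ld s (δ n)) (H446.G.Nn s (δ n)) m
      (((mq' C.Lc s (δ n) : ℤ) - mq' C.Ld s (δ n)) + K * m) hpoly henc (by omega) hA c1 c3 k1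
      (by omega) (by exact_mod_cast c8) hZ.sub hE hZ.sld ?_ hFl ?_ ?_ hFl' hU
      (hpr.trans (min_le_left _ _))
    · intro v hv
      have h4 : K * m ≤ mb C.m (δ n) := c5
      rw [H318.Rel.mem_Bq] at hv ⊢
      omega
    · refine lnd (mq' C.Ld s (δ n) : ℤ) m _ K (mq C.Lc s (δ n) + 1) (by omega) (by omega) ?_ ?_
      · have := hcst ((mq' C.Ld s (δ n) : ℤ) +
          (((mq' C.Lc s (δ n) : ℤ) - mq' C.Ld s (δ n)) + K * m) + K * m) (by omega)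
        push_cast at this ⊢
        linarith
      · show ((mq' C.Lc s (δ n) + 1 : ℕ) : ℤ) + K * m ≤ _
        omega
    · refine far (mq' C.Ld s (δ n) : ℤ) (K * m) (mq C.Lc s (δ n) + 1) (by omega) ?_ ?_
      · have := hcst ((mq' C.Ld s (δ n) : ℤ) + K * m) (by omega)
        rwa [Int.cast_add] at this
      · show _ ≤ ((mq' C.Lc s (δ n) + 1 : ℕ) : ℤ)
        omega
  · -- the lower bound
    rw [if_neg (by simp), cex_eq hcos δ N k p S ψn n hpoly henc hA j, PZ_eq]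
    obtain ⟨E, hE, hU⟩ := hInp
    rw [if_neg (by simp)] at hU
    obtain ⟨WP, hJ, hU⟩ := hU
    unfold prNS at hpr
    rw [if_neg (by simp)] at hpr
    have hfl1 : ((mq' C.Lc s (δ n) : ℕ) : ℤ) ≤ ⌊ρ₁ / δ n⌋ := by
      rw [Int.le_floor, le_div_iff₀ hδ]
      exact c11.trans (min_le_left _ _)
    have hRM := HL.hR
    have hFs : Fsd (p n) (k n) (S n) A Z (H446.G.wf C (p n) (k n) (S n) (δ n) s)
        (Ff (ro (p n (k n))) (mq C.Lc s (δ n) + 1)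
          ((vd (p n) (k n) C.Ld s (δ n)).1 - mb C.m (δ n))
          ((vd (p n) (k n) C.Ld s (δ n)).1 + mb C.m (δ n))
          ((vd (p n) (k n) C.Ld s (δ n)).2 - mb C.m (δ n))
          ((vd (p n) (k n) C.Ld s (δ n)).2 + mb C.m (δ n)))
        ((vd (p n) (k n) C.Ld s (δ n)).1 - mb C.m (δ n))
        ((vd (p n) (k n) C.Ld s (δ n)).1 + mb C.m (δ n))
        ((vd (p n) (k n) C.Ld s (δ n)).2 - mb C.m (δ n))
        ((vd (p n) (k n) C.Ld s (δ n)).2 + mb C.m (δ n)) := by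
      have hv1 : (vd (p n) (k n) C.Ld s (δ n)).1 =
          (ro (p n (k n))).1 - ((mq' C.Ld s (δ n) : ℕ) : ℤ) := rfl
      have hv2 : (vd (p n) (k n) C.Ld s (δ n)).2 = (ro (p n (k n))).2 := by
        unfold vd
        simp
      have h4 : K * m ≤ mb C.m (δ n) := c5
      have h5 : ((mq C.Lc s (δ n) : ℕ) : ℤ) = ((mq' C.Lc s (δ n) : ℕ) : ℤ) := rfl
      refine H72.SD.fsd_of (r := (H446.G.Nn s (δ n) : ℤ)) HL hA ?_ (by omega) (by omega) hZ.sub hv2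
        (even_vd _ _ _ _ _) (by omega) (by omega) (by omega)
      omega
    exact hlo (N n) (p n) (S n) (k n) A j _ E _ Z ζ _ _ WP _ _
      (vd (p n) (k n) C.Ld s (δ n)) (H446.G.Nn s (δ n)) m _ _ _ _ hpoly henc hA c3 k2 hZ.sub hE hZ.sld
      (hFl.mono hmK) (hFl'.mono hmK) hU hJ hFs (hpr.trans (min_le_right _ _))

end

end Vale.Agent.P167.H542Q.Cmp
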