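import Vale.Agent.P167.H542.Q.M2
import Vale.Agent.P167.CAQ.Defs
import Vale.Agent.P167.QX.Stag

/-!
# P167, general `q`, block Q-M2: the instance of the family of CORE-ASM

`fam` is the family of the functionals `VQ` with potentials `HQ`, for any configurations `η n` outside,
any base sites `p n` and any phases `th n`. `fam_M2` is the input (M2). `thB` are the phases of
helper944's normalised weights `wB`, `XB = XR thB`.
-/

open Finset MeasureTheory Filter Topology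

namespace Vale.Agent.P167.H542.Q

open Vale.Agent.P167 Vale.Agent.P167.BR Vale.Agent.P167.H542 Vale.Agent.P167.FK
open Vale.Agent.P167.CAQ (FamAt Supp)

/-- **The algebraic properties.** -/
theorem famAt {Q : ℝ} (hQ : 0 < Q) {S : CA.Dat} {n : ℕ} {η : Cfg} {th : Finset Ed → ℝ}
    {p : ℤ × ℤ} (hc : ∀ A, Real.cos (th A) ≠ 0) (hp : p ∈ sites (S.D n)) :
    FamAt S n (VQ Q (S.D n) η th p) (HQ Q (S.D n) η th p) p where
  entire a c _ _ := differentiable_VQ a c
  real a _ := by rw [VQ_ofReal, Complex.ofReal_im]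
  der a c _ _ := deriv_VQ_zero a c
  one := VQ_zero hQ hc
  mem := hp
  base a _ := HQ_base a

/-- The potential of the charge `0`. -/
theorem HQ_zero {Q : ℝ} {D : Finset (ℤ × ℤ)} {η : Cfg} {th : Finset Ed → ℝ} {p : ℤ × ℤ}
    (hc : ∀ A, Real.cos (th A) ≠ 0) (z : ℤ × ℤ) :
    HQ Q D η th p (fun _ => 0) z = Ex Q D η (fun ω => open Classical in
      ∑ A ∈ (pcs ω D).filter fun A => Sep D A z p, Real.tan (th A)) := by
  classical
  unfold HQ
  congr 1
  funext ω
  unfold XTR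
  have hm : ∀ A, mass D p (fun _ => 0) A = 0 := fun A => by
    unfold mass
    simp
  refine Finset.sum_congr rfl fun A _ => ?_
  rw [Finset.prod_eq_one fun B _ => ?_, mul_one, hm, wR', add_zero, Real.tan_eq_sin_div_cos]
  rw [hm, wR, add_zero, div_self (hc B)]

/-- The data of the family. -/
structure FD (S : CA.Dat) (Q m c : ℝ) where
  L : Filter ℕ
  le : L ≤ atTop
  cg : L.IsCountablyGenerated
  η : ℕ → Cfg
  th : ℕ → Finset Ed → ℝ
  p : ℕ → ℤ × ℤ
  good : ∀ᶠ n in L, Good (η n)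
  phs : ∀ᶠ n in L, Phs m c (S.D n) (th n)
  bas : ∀ᶠ n in L, Bas (S.D n) (p n)

/-- The family. -/
noncomputable def fam {S : CA.Dat} {Q m c : ℝ} (hQ : 0 < Q) (X : FD S Q m c) (s : ℝ) :
    CAQ.Fam S where
  L := X.L
  le := X.le
  cg := X.cg
  s := s
  Vc n := VQ Q (S.D n) (X.η n) (X.th n) (X.p n)
  Hl n := HQ Q (S.D n) (X.η n) (X.th n) (X.p n)
  b := X.p
  ok := by
    filter_upwards [X.phs, X.bas] with n h1 h2
    exact famAt hQ (fun A => (lt_of_lt_of_le h1.c0 (h1.cs A)).ne') h2.mem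

/-- **(M2)** -/
theorem fam_M2 {S : CA.Dat} {Q m c : ℝ} (hQ : 0 < Q) (hQ1 : 1 ≤ Q) (hRSW : RSW Q) (hm0 : 0 ≤ m)
    (hm1 : m ≤ Real.pi / 3) (X : FD S Q m c) (s : ℝ) : (fam hQ X s).M2 := by
  intro f hf
  obtain ⟨C, -, h⟩ := m2_datQ c hQ1 hRSW hm0 hm1 S f f hf hf 1
  refine ⟨1, one_pos, C, ?_⟩
  have h' : ∀ᶠ n : ℕ in X.L, ∀ η : Cfg, Good η → ∀ p, Bas (S.D n) p →
      ∀ th, Phs m c (S.D n) th → ∀ t : ℝ, |t| ≤ 1 → ∀ s : ℂ, ‖s‖ ≤ 1 →
      ‖VQ Q (S.D n) η th p (Fc f f n t s)‖ ≤ C := h.filter_mono X.le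
  show ∀ᶠ n : ℕ in X.L, _
  filter_upwards [h', X.good, X.phs, X.bas] with n h1 h2 h3 h4 t ht s hs
  have h5 := h1 _ h2 _ h4 _ h3 t ht s hs
  have e : Fc f f n t s = fun z => (t + s) * (CA.cms f (1 / n) z : ℂ) := by
    funext z
    unfold Fc
    push_cast
    ring
  rw [e] at h5
  exact h5

/-! ### helper944's normalised weights -/

section Stag

variable {n k : ℕ} {q : ZMod n → ℤ × ℤ} {D : Finset (ℤ × ℤ)} {θ β : ℝ} {η : Cfg}

open Classical in
/-- The phases of the normalised weights `QX.wB`. -/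
noncomputable def thB (θ β : ℝ) (q : ZMod n → ℤ × ℤ) (D : Finset (ℤ × ℤ)) (k : ℕ)
    (A : Finset Ed) : ℝ :=
  if IsLp D A then θ
  else if QX.lo q A < k ∧ k ≤ QX.hi q A then θ / 2 + β
  else if H718.IsCl D q k A then 2 * θ - Real.pi / 2
  else Real.pi / 2 - θ

theorem wR_thB (hβ : Real.cos (θ / 2 + β) = Real.sin θ) (A : Finset Ed) (t : ℝ) :
    wR (thB θ β q D k A) t = QX.wB θ β q D k A t := by
  unfold wR thB QX.wB
  split_ifs
  · rfl
  · rw [hβ]
  · have e1 : 2 * θ - Real.pi / 2 + t = (2 * θ + t) - Real.pi / 2 := by ring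
    rw [e1, Real.cos_sub_pi_div_two, Real.cos_sub_pi_div_two]
  · have e1 : Real.pi / 2 - θ + t = Real.pi / 2 - (θ - t) := by ring
    rw [e1, Real.cos_pi_div_two_sub, Real.cos_pi_div_two_sub]

theorem XR_thB (hβ : Real.cos (θ / 2 + β) = Real.sin θ) (f : ℤ × ℤ → ℝ) (ω : Cfg) :
    XR (thB θ β q D k) D (q 0) f ω = QX.XB θ β q D k f ω := by
  unfold XR QX.XB
  exact Finset.prod_congr rfl fun A _ => wR_thB hβ A _

/-- The lower bound of the cosines. -/
noncomputable def cB (θ : ℝ) : ℝ := min (Real.cos θ) (min (Real.sin θ) (Real.sin (2 * θ)))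

theorem cB_pos (h0 : 0 < θ) (h1 : θ ≤ Real.pi / 3) : 0 < cB θ := by
  have hpi := Real.pi_pos
  refine lt_min (Real.cos_pos_of_mem_Ioo ⟨by linarith, by linarith⟩)
    (lt_min (Real.sin_pos_of_pos_of_lt_pi h0 (by linarith))
      (Real.sin_pos_of_pos_of_lt_pi (by linarith) (by linarith)))

theorem phs_thB (h0 : 0 < θ) (h1 : θ ≤ Real.pi / 3)
    (hβ : Real.cos (θ / 2 + β) = Real.sin θ) : Phs θ (cB θ) D (thB θ β q D k) := by
  refine ⟨h0.le, h1, cB_pos h0 h1, fun A hA => ?_, fun A => ?_⟩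
  · unfold thB
    rw [if_pos hA]
  · unfold thB cB
    split_ifs
    · exact min_le_left _ _
    · rw [hβ]; exact (min_le_right _ _).trans (min_le_left _ _)
    · rw [Real.cos_sub_pi_div_two]; exact (min_le_right _ _).trans (min_le_right _ _)
    · rw [Real.cos_pi_div_two_sub]; exact (min_le_right _ _).trans (min_le_left _ _)

/-- The functional is the expectation of `QX.XB`. -/
theorem VQ_XB (hβ : Real.cos (θ / 2 + β) = Real.sin θ) (Q : ℝ) (f : ℤ × ℤ → ℝ) :
    VQ Q D η (thB θ β q D k) (q 0) (fun z => (f z : ℂ)) = (Ex Q D η (QX.XB θ β q D k f) : ℂ) := by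
  rw [VQ_ofReal]
  congr 2
  funext ω
  exact XR_thB hβ f ω

end Stag

end Vale.Agent.P167.H542.Q
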