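import Vale.Agent.P167.H871.Q.Ext

/-!
# P167, general `q`, block 2A START: the turning of the strands on the far side of a frame

`D` is the domain of a polygon `q`, `V k` the square outside of `D` at the side `k`. A walk `ω` which
leaves the row of the squares `V` on the far side of `V i` and comes back on the far side of `V j`,
without visiting `D`. If a configuration `ω'` agrees with `ω` along the walk and prolongs it by two
steps on both sides up to the sides `a`, `b` of `D` (neighbours of `i`, `j`), then the walk is a part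
of an excursion of `ω'` from `D` to `D`. This gives its total turning and a potential.
-/

namespace Vale.Agent.P167.H542.Q.Far

open Finset
open Vale.Agent.P167.Top
open Vale.Agent.P167.H871
open Vale.Agent.P167.H871.Q (exists_ext rs_eq)
open Vale.Agent.P167.E6 (IsPolygon Encloses)
open Vale.Agent.P167.H199 (ret Returns ret_min ret_le)
open Vale.Agent.P167.BR (be be_even be_odd be_injective)
open Vale.Agent.P167.XDL (bS mem_bS P4_be)

variable {n : ℕ} {q : ZMod n → ℤ × ℤ} {D : Finset (ℤ × ℤ)} {u : ℕ → ℤ} {ω ω' : Cfg} {e f x y : Ed}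
  {m i j a b : ℕ}

/-! ### edges -/

theorem vec_inj {d d' : ℤ} (h : vec d = vec d') : d % 4 = d' % 4 := by
  rcases head_cases d with ⟨a, b, c⟩ | ⟨a, b, c⟩ | ⟨a, b, c⟩ | ⟨a, b, c⟩ <;>
    rcases head_cases d' with ⟨a', b', c'⟩ | ⟨a', b', c'⟩ | ⟨a', b', c'⟩ | ⟨a', b', c'⟩ <;>
    simp only [vec, b, c, b', c', Prod.mk.injEq] at h <;> omega

/-- An edge is determined by its tail and its heading. -/
theorem ed_ext (h1 : tlv x = tlv y) (h2 : hd4 x % 4 = hd4 y % 4) : x = y := by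
  apply me_injective
  rw [me_eq, me_eq, h1, dx_congr h2, dy_congr h2]

theorem hd4_par (x : Ed) : hd4 x % 2 = ((tlv x).1 + (tlv x).2) % 2 := by
  rcases x with ⟨a, b⟩ | ⟨a, b⟩ <;> by_cases h : Even (a + b) <;> simp only [hd4, tlv, h, if_true, if_false] <;>
    rw [Int.even_iff] at h <;> omega

theorem sqL_par (s : ℤ × ℤ) (d : ℤ) : ((sqL s d).1 + (sqL s d).2) % 2 = (s.1 + s.2 + d) % 2 := by
  unfold sqL
  simp only
  split_ifs <;> omega

theorem sqL_add (s : ℤ × ℤ) (d d' : ℤ) : sqL (s + vec d') d = sqL s d + vec d' := by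
  unfold sqL
  ext <;> simp only [Prod.fst_add, Prod.snd_add] <;> ring

/-- The heading of the step before the square on the right. -/
theorem P4_tl (x : Ed) : P4 x = (4 * (tlv x).1 + 2 * (vec (hd4 x)).1, 4 * (tlv x).2 + 2 * (vec (hd4 x)).2) := by
  unfold P4
  rw [me_eq]
  unfold vec
  ext <;> simp only <;> ring

theorem hd_out {s : ℤ × ℤ} {d : ℤ} (h1 : P4 x = M4 (s + vec (d - 1)) d) (h2 : tlv x = sqL s (d - 1)) :
    hd4 x % 4 = (d - 1) % 4 := by
  apply vec_inj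
  rw [P4_tl, h2, M4_eq] at h1
  have h3 := sqL_four s (d - 1)
  obtain ⟨v1, v2, v3, -⟩ := vec_nt (d - 1)
  rw [show d - 1 + 1 = d by ring] at v2
  rw [v2] at h3
  have e1 : vec d = (dx d, dy d) := rfl
  simp only [S4, Prod.ext_iff, Prod.fst_add, Prod.snd_add, e1] at h1 h3 ⊢
  omega

theorem hd_in {s : ℤ × ℤ} {d : ℤ} (h1 : P4 x = M4 (s + vec (d - 1)) d) (h2 : hdv x = sqL s (d - 1)) :
    hd4 x % 4 = (d + 1) % 4 := by
  have h4 := hdv_eq x
  have h5 : tlv x = hdv x - vec (hd4 x) := by rw [h4]; abel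
  rw [P4_tl, h5, h2, M4_eq] at h1
  have h3 := sqL_four s (d - 1)
  obtain ⟨v1, v2, v3, -⟩ := vec_nt (d - 1)
  rw [show d - 1 + 1 = d by ring] at v2
  rw [show d - 1 + 2 = d + 1 by ring] at v1
  rw [v2] at h3
  apply vec_inj
  rw [v1]
  have e1 : vec d = (dx d, dy d) := rfl
  simp only [S4, Prod.ext_iff, Prod.fst_add, Prod.snd_add, Prod.fst_sub, Prod.snd_sub, e1,
    Prod.fst_neg, Prod.snd_neg] at h1 h3 ⊢
  omega

/-! ### the sides -/

/-- The square outside of `D` at the side `k`. -/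
def V (q : ZMod n → ℤ × ℤ) (u : ℕ → ℤ) (k : ℕ) : ℤ × ℤ := sqL (q (k : ZMod n)) (u k - 1)

theorem M4_inj {s : ℤ × ℤ} {d d' : ℤ} (h : M4 s d = M4 s d') : d % 4 = d' % 4 := by
  apply vec_inj
  rw [M4_eq, M4_eq] at h
  simp only [Prod.mk.injEq] at h
  unfold vec
  ext <;> simp only <;> omega

section

variable (hq : IsPolygon q) (hD : Encloses q D)
  (hu : Bd (D : Set (ℤ × ℤ)) n (fun k => q (k : ZMod n)) u 1)

include hu

theorem V_out (k : ℕ) : V q u k ∉ D := hu.right k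

theorem V_succ {k : ℕ} (h : u (k + 1) = u k) : V q u (k + 1) = V q u k + vec (u k) := by
  unfold V
  have h1 := hu.step k
  rw [h1, h, sqL_add]

theorem V_per (k : ℕ) : V q u (k + n) = V q u k := by
  unfold V
  have h1 := hu.perP k
  rw [h1, hu.per]
  exact sqL_congr (by omega)

theorem par_succ (k : ℕ) : ((q ((k + 1 : ℕ) : ZMod n)).1 + (q ((k + 1 : ℕ) : ZMod n)).2) % 2 =
    ((q (k : ZMod n)).1 + (q (k : ZMod n)).2 + 1) % 2 := by
  have h1 := hu.step k
  have h2 := vpar (u k)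
  rw [h1]
  simp only [Prod.fst_add, Prod.snd_add]
  omega

include hq hD

theorem be_out (h : ¬ Even ((q (a : ZMod n)).1 + (q (a : ZMod n)).2)) :
    tlv (be q (a : ZMod n)) ∈ D ∧ hdv (be q (a : ZMod n)) = V q u a ∧
      hd4 (be q (a : ZMod n)) % 4 = (u a - 1) % 4 := by
  obtain ⟨h1, h2, h3, h4⟩ := be_odd hq hD h
  obtain ⟨r1, r2, r3, r4, r5, r6⟩ := rs_eq (be q (a : ZMod n))
  have h5 := P4_be hq hu a
  rw [r2, ← M4_rev, ← r1, h1] at h5
  have h6 := M4_inj h5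
  refine ⟨h3, ?_, by omega⟩
  rw [r5, h1]
  exact sqL_congr (by omega)

theorem be_inn (h : Even ((q (b : ZMod n)).1 + (q (b : ZMod n)).2)) :
    hdv (be q (b : ZMod n)) ∈ D ∧ tlv (be q (b : ZMod n)) = V q u b ∧
      hd4 (be q (b : ZMod n)) % 4 = (u b + 1) % 4 := by
  obtain ⟨h1, h2, h3, h4⟩ := be_even hq hD h
  obtain ⟨r1, r2, r3, r4, r5, r6⟩ := rs_eq (be q (b : ZMod n))
  have h5 := P4_be hq hu b
  rw [r2, h1] at h5
  have h6 := M4_inj h5
  refine ⟨h3, ?_, by omega⟩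
  rw [r4, h1]
  exact sqL_congr (by omega)

end

/-! ### two steps -/

/-- `ω'` leads from the side `a` of `D` in two steps to the far side of `V i`. -/
def Ent (q : ZMod n → ℤ × ℤ) (u : ℕ → ℤ) (ω' : Cfg) (i a : ℕ) : Prop :=
  (a = i + 1 ∧ u (i + 1) = u i ∧ ω' (V q u i) = false ∧ ω' (V q u a) = true) ∨
    (i = a + 1 ∧ u (a + 1) = u a ∧ ω' (V q u i) = true ∧ ω' (V q u a) = false)

/-- `ω'` leads from the far side of `V j` in two steps to the side `b` of `D`. -/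
def Exi (q : ZMod n → ℤ × ℤ) (u : ℕ → ℤ) (ω' : Cfg) (j b : ℕ) : Prop :=
  (j = b + 1 ∧ u (b + 1) = u b ∧ ω' (V q u j) = false ∧ ω' (V q u b) = true) ∨
    (b = j + 1 ∧ u (j + 1) = u j ∧ ω' (V q u j) = true ∧ ω' (V q u b) = false)

theorem trn_f (h : ω (hdv e) = false) : trn ω e = 1 := by
  unfold trn; rw [h]; rfl

theorem trn_t (h : ω (hdv e) = true) : trn ω e = -1 := by
  unfold trn; rw [h]; rfl

theorem parI (h1 : tlv e = V q u i) (h2 : hd4 e % 4 = (u i - 1) % 4) :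
    ((q (i : ZMod n)).1 + (q (i : ZMod n)).2) % 2 = 0 := by
  have h3 := hd4_par e
  have h4 := sqL_par (q (i : ZMod n)) (u i - 1)
  rw [h1] at h3
  unfold V at h3
  omega

theorem parJ (h1 : hdv f = V q u j) (h2 : hd4 f % 4 = (u j + 1) % 4) :
    ((q (j : ZMod n)).1 + (q (j : ZMod n)).2) % 2 = 1 := by
  have h3 := hd4_par f
  have h4 := sqL_par (q (j : ZMod n)) (u j - 1)
  have h5 := hdv_eq f
  have h6 := vpar (hd4 f)
  rw [h1] at h5
  unfold V at h5
  rw [h5] at h4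
  simp only [Prod.fst_add, Prod.snd_add] at h4
  omega

section

variable (hq : IsPolygon q) (hD : Encloses q D)
  (hu : Bd (D : Set (ℤ × ℤ)) n (fun k => q (k : ZMod n)) u 1)
include hq hD hu

theorem entry (h : Ent q u ω' i a) (h1 : tlv e = V q u i) (h2 : hd4 e % 4 = (u i - 1) % 4) :
    nx ω' (nx ω' (be q (a : ZMod n))) = e ∧ tlv (be q (a : ZMod n)) ∈ D ∧
      hdv (be q (a : ZMod n)) = V q u a ∧ hdv (nx ω' (be q (a : ZMod n))) = V q u i ∧
      trn ω' (be q (a : ZMod n)) + trn ω' (nx ω' (be q (a : ZMod n))) = 0 := by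
  have hp := parI h1 h2
  have hpa : ¬ Even ((q (a : ZMod n)).1 + (q (a : ZMod n)).2) := by
    rw [Int.even_iff]
    rcases h with ⟨rfl, -⟩ | ⟨rfl, -⟩
    · have := par_succ hu i
      omega
    · have := par_succ hu a
      omega
  obtain ⟨g1, g2, g3⟩ := be_out hq hD hu hpa
  set s := be q (a : ZMod n) with hs
  have k1 := hd4_nx ω' s
  have k2 := hd4_nx ω' (nx ω' s)
  have k3 := tlv_nx ω' s
  have k4 := tlv_nx ω' (nx ω' s)
  have k5 := hdv_eq (nx ω' s)
  have hne : ∀ y : ℤ, vec (y + 2) = - vec y := fun y => (vec_nt y).1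
  rcases h with ⟨ha, hfl, c1, c2⟩ | ⟨ha, hfl, c1, c2⟩
  · have t1 : trn ω' s = -1 := trn_t (by rw [g2]; exact c2)
    have e1 : hd4 (nx ω' s) % 4 = (u i + 2) % 4 := by
      rw [ha, hfl] at g3
      omega
    have e2 : hdv (nx ω' s) = V q u i := by
      rw [k5, k3, g2, vec_congr e1, hne, ha, V_succ hu hfl]
      abel
    have t2 : trn ω' (nx ω' s) = 1 := trn_f (by rw [e2]; exact c1)
    refine ⟨ed_ext (by rw [k4, e2, h1]) (by omega), g1, g2, e2, by rw [t1, t2]; rfl⟩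
  · have t1 : trn ω' s = 1 := trn_f (by rw [g2]; exact c2)
    have e1 : hd4 (nx ω' s) % 4 = (u a) % 4 := by omega
    have e2 : hdv (nx ω' s) = V q u i := by
      rw [k5, k3, g2, vec_congr e1, ha, V_succ hu hfl]
    have t2 : trn ω' (nx ω' s) = -1 := trn_t (by rw [e2]; exact c1)
    rw [ha, hfl] at h2
    refine ⟨ed_ext (by rw [k4, e2, h1]) (by omega), g1, g2, e2, by rw [t1, t2]; rfl⟩

theorem exit' (h : Exi q u ω' j b) (h1 : hdv f = V q u j) (h2 : hd4 f % 4 = (u j + 1) % 4) :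
    nx ω' (nx ω' f) = be q (b : ZMod n) ∧ hdv (be q (b : ZMod n)) ∈ D ∧
      hdv (nx ω' f) = V q u b ∧ trn ω' f + trn ω' (nx ω' f) = 0 := by
  have hp := parJ h1 h2
  have hpb : Even ((q (b : ZMod n)).1 + (q (b : ZMod n)).2) := by
    rw [Int.even_iff]
    rcases h with ⟨rfl, -⟩ | ⟨rfl, -⟩
    · have := par_succ hu b
      omega
    · have := par_succ hu j
      omega
  obtain ⟨g1, g2, g3⟩ := be_inn hq hD hu hpb
  have k1 := hd4_nx ω' f
  have k2 := hd4_nx ω' (nx ω' f)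
  have k3 := tlv_nx ω' f
  have k4 := tlv_nx ω' (nx ω' f)
  have k5 := hdv_eq (nx ω' f)
  have hne : ∀ y : ℤ, vec (y + 2) = - vec y := fun y => (vec_nt y).1
  rcases h with ⟨hb, hfl, c1, c2⟩ | ⟨hb, hfl, c1, c2⟩
  · have t1 : trn ω' f = 1 := trn_f (by rw [h1]; exact c1)
    have e1 : hd4 (nx ω' f) % 4 = (u b + 2) % 4 := by
      rw [hb, hfl] at h2
      omega
    have e2 : hdv (nx ω' f) = V q u b := by
      rw [k5, k3, h1, vec_congr e1, hne, hb, V_succ hu hfl]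
      abel
    have t2 : trn ω' (nx ω' f) = -1 := trn_t (by rw [e2]; exact c2)
    refine ⟨ed_ext (by rw [k4, e2, g2]) (by omega), g1, e2, by rw [t1, t2]; rfl⟩
  · have t1 : trn ω' f = -1 := trn_t (by rw [h1]; exact c1)
    have e1 : hd4 (nx ω' f) % 4 = (u j) % 4 := by omega
    have e2 : hdv (nx ω' f) = V q u b := by
      rw [k5, k3, h1, vec_congr e1, hb, V_succ hu hfl]
    have t2 : trn ω' (nx ω' f) = 1 := trn_f (by rw [e2]; exact c2)
    rw [hb, hfl] at g3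
    refine ⟨ed_ext (by rw [k4, e2, g2, hb]) (by rw [hb]; omega), g1, e2, by rw [t1, t2]; rfl⟩

/-- **The walk as a part of an excursion of `ω'`.** -/
theorem far_core (hE : Ent q u ω' i a) (hX : Exi q u ω' j b)
    (he1 : tlv e = V q u i) (he2 : hd4 e % 4 = (u i - 1) % 4)
    (hf1 : hdv ((nx ω)^[m] e) = V q u j) (hf2 : hd4 ((nx ω)^[m] e) % 4 = (u j + 1) % 4)
    (hk : ∀ k < m, hdv ((nx ω)^[k] e) ∉ D ∧
      ω' (hdv ((nx ω)^[k] e)) = ω (hdv ((nx ω)^[k] e))) :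
    (∀ k ≤ m, (nx ω')^[k + 2] (be q (a : ZMod n)) = (nx ω)^[k] e) ∧
    Returns (nx ω') (bS D) (be q (a : ZMod n)) ∧
    ret (nx ω') (bS D) (be q (a : ZMod n)) = m + 4 ∧
    ∃ (i0 j0 : ℕ) (φ : ℤ × ℤ → ℤ) (σ : ℤ), i0 < n ∧ j0 < n ∧ i0 ≠ j0 ∧
      (i0 : ZMod n) = a ∧ (j0 : ZMod n) = b ∧
      QX.ExtPot D (QX.exc D ω' (be q (a : ZMod n))) σ φ ∧
      ∑ k ∈ range m, trn ω ((nx ω)^[k] e) = u j0 - u i0 +
        (if i0 < j0 then (if σ = 1 then 2 else -6) else (if σ = 1 then 6 else -2)) := by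
  obtain ⟨s1, s2, s3, s4, s5⟩ := entry hq hD hu hE he1 he2
  obtain ⟨t1, t2, t3, t4⟩ := exit' hq hD hu hX hf1 hf2
  set s := be q (a : ZMod n) with hs
  have hmid : ∀ k ≤ m, (nx ω')^[k + 2] s = (nx ω)^[k] e := by
    intro k
    induction k with
    | zero => intro _; exact s1
    | succ k ih =>
      intro hk'
      rw [show k + 1 + 2 = (k + 2) + 1 by ring, Function.iterate_succ_apply', ih (by omega),
        Function.iterate_succ_apply']
      exact H685.nx_loc (hk k (by omega)).2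
  have hf : (nx ω')^[m + 2] s = (nx ω)^[m] e := hmid m le_rfl
  have hf3 : (nx ω')^[m + 3] s = nx ω' ((nx ω)^[m] e) := by
    rw [show m + 3 = (m + 2) + 1 by ring, Function.iterate_succ_apply', hf]
  have hf4 : (nx ω')^[m + 4] s = be q (b : ZMod n) := by
    rw [show m + 4 = (m + 3) + 1 by ring, Function.iterate_succ_apply', hf3, t1]
  have hV := V_out hu
  have hout : ∀ k < m + 4, hdv ((nx ω')^[k] s) ∉ D := by
    intro k hk'
    rcases Nat.lt_or_ge k 2 with h | h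
    · rcases (by omega : k = 0 ∨ k = 1) with rfl | rfl
      · rw [Function.iterate_zero, id, s3]; exact hV a
      · rw [Function.iterate_one, s4]; exact hV i
    · obtain ⟨k', rfl⟩ : ∃ k', k = k' + 2 := ⟨k - 2, by omega⟩
      rcases Nat.lt_or_ge k' m with h' | h'
      · rw [hmid k' h'.le]; exact (hk k' h').1
      · rcases (by omega : k' = m ∨ k' = m + 1) with rfl | rfl
        · rw [hf, hf1]; exact hV j
        · rw [show m + 1 + 2 = m + 3 by ring, hf3, t3]; exact hV b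
  have hlast : (nx ω')^[m + 4] s ∈ bS D := by
    rw [mem_bS]
    refine Or.inl ⟨by rw [hf4]; exact t2, ?_⟩
    rw [show m + 4 = (m + 3) + 1 by ring, Function.iterate_succ_apply', tlv_nx]
    exact hout _ (by omega)
  have hRet : Returns (nx ω') (bS D) s := ⟨m + 4, by omega, hlast⟩
  have hret : ret (nx ω') (bS D) s = m + 4 := by
    refine le_antisymm (ret_le (by omega) hlast) ?_
    by_contra hlt
    push Not at hlt
    obtain ⟨g1, g2⟩ := hRet.spec
    obtain ⟨k, hk'⟩ : ∃ k, ret (nx ω') (bS D) s = k + 1 := ⟨_, (Nat.sub_add_cancel g1).symm⟩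
    rw [hk', mem_bS] at g2
    rcases g2 with g2 | g2
    · exact hout _ (by omega) g2.1
    · rw [Function.iterate_succ_apply', tlv_nx] at g2
      exact hout _ (by omega) g2.2
  refine ⟨hmid, hRet, hret, ?_⟩
  obtain ⟨i0, j0, φ, σ, a1, a2, a3, a4, a5, a6, a7⟩ := exists_ext hq hD hu
    (by rw [s3]; exact hV a) s2 hRet
  rw [hret] at a5 a7
  refine ⟨i0, j0, φ, σ, a1, a2, a3, be_injective hq a4.symm, be_injective hq (a5.symm.trans hf4),
    a6, ?_⟩
  rw [← a7]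
  have hsum : ∀ M ≤ m, ∑ k ∈ range (M + 2), trn ω' ((nx ω')^[k] s) =
      ∑ k ∈ range M, trn ω ((nx ω)^[k] e) := by
    intro M
    induction M with
    | zero =>
      intro _
      rw [sum_range_succ, sum_range_succ, sum_range_zero, sum_range_zero]
      simp only [Function.iterate_zero, id, Function.iterate_one, zero_add]
      exact s5
    | succ M ih =>
      intro hM
      rw [show M + 1 + 2 = (M + 2) + 1 by ring, sum_range_succ, ih (by omega), sum_range_succ,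
        hmid M (by omega)]
      congr 1
      unfold trn
      rw [(hk M (by omega)).2]
  rw [show m + 4 = ((m + 2) + 1) + 1 by ring, sum_range_succ, sum_range_succ, hsum m le_rfl, hf,
    show m + 2 + 1 = m + 3 by ring, hf3]
  linarith

end

/-- Periodic form of the entry: `α = false`: `V i` is closed and `V (i + 1)` is open; `α = true`:
`V i` is open and `V (i - 1)` is closed. -/
def EntF (n : ℕ) (q : ZMod n → ℤ × ℤ) (u : ℕ → ℤ) (ω' : Cfg) (i a : ℕ) : Prop :=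
  (a = i + 1 ∧ u (i + 1) = u i ∧ ω' (V q u i) = false ∧ ω' (V q u a) = true) ∨
    (a + 1 = i + n ∧ u (a + 1) = u a ∧ ω' (V q u i) = true ∧ ω' (V q u a) = false)

/-- Periodic form of the exit: `V j` is closed and `V (j - 1)` is open, or `V j` is open and
`V (j + 1)` is closed. -/
def ExiF (n : ℕ) (q : ZMod n → ℤ × ℤ) (u : ℕ → ℤ) (ω' : Cfg) (j b : ℕ) : Prop :=
  (b + 1 = j + n ∧ u (b + 1) = u b ∧ ω' (V q u j) = false ∧ ω' (V q u b) = true) ∨
    (b = j + 1 ∧ u (j + 1) = u j ∧ ω' (V q u j) = true ∧ ω' (V q u b) = false)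

theorem arith {n i j a b i0 j0 : ℕ} {A B ui uj ua ub ui0 uj0 : ℤ} (hn : 3 ≤ n) (hi : i < n)
    (hj : j < n) (a1 : i0 < n) (a2 : j0 < n) (a3 : i0 ≠ j0) (hij : i ≠ j) (hAB : B = A + 4)
    (hua : (a = i0 ∧ ua = ui0) ∨ (a = i0 + n ∧ ua = ui0 + 4))
    (hub : (b = j0 ∧ ub = uj0) ∨ (b = j0 + n ∧ ub = uj0 + 4))
    (hui : (a = i + 1 ∧ ua = ui) ∨ (a + 1 = i + n ∧ ua = ui + 4))
    (huj : (b + 1 = j + n ∧ ub = uj + 4) ∨ (b = j + 1 ∧ ub = uj))
    (hne : a = i + 1 → b + 1 = j + n → b ≠ i ∧ b ≠ i + n)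
    (hne' : a + 1 = i + n → b = j + 1 → b ≠ i ∧ b ≠ i + n) :
    uj0 - ui0 + (if i0 < j0 then A else B) = uj - ui + (if i < j then A else B) := by
  rcases hui with ⟨p1, p2⟩ | ⟨p1, p2⟩ <;> rcases huj with ⟨p3, p4⟩ | ⟨p3, p4⟩
  · obtain ⟨h1, h2⟩ := hne p1 p3
    clear hne hne'
    rcases hua with ⟨p5, p6⟩ | ⟨p5, p6⟩ <;> rcases hub with ⟨p7, p8⟩ | ⟨p7, p8⟩ <;>
      split_ifs <;> omega
  · clear hne hne'
    rcases hua with ⟨p5, p6⟩ | ⟨p5, p6⟩ <;> rcases hub with ⟨p7, p8⟩ | ⟨p7, p8⟩ <;>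
      split_ifs <;> omega
  · clear hne hne'
    rcases hua with ⟨p5, p6⟩ | ⟨p5, p6⟩ <;> rcases hub with ⟨p7, p8⟩ | ⟨p7, p8⟩ <;>
      split_ifs <;> omega
  · obtain ⟨h1, h2⟩ := hne' p1 p3
    clear hne hne'
    rcases hua with ⟨p5, p6⟩ | ⟨p5, p6⟩ <;> rcases hub with ⟨p7, p8⟩ | ⟨p7, p8⟩ <;>
      split_ifs <;> omega

/-- **The turning on the far side of a frame.** -/
theorem far (hq : IsPolygon q) (hD : Encloses q D)
    (hu : Bd (D : Set (ℤ × ℤ)) n (fun k => q (k : ZMod n)) u 1) (hi : i < n) (hj : j < n)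
    (hE : EntF n q u ω' i a) (hX : ExiF n q u ω' j b)
    (he1 : tlv e = V q u i) (he2 : P4 e = M4 (q (i : ZMod n) + vec (u i - 1)) (u i))
    (hf1 : hdv ((nx ω)^[m] e) = V q u j)
    (hf2 : P4 ((nx ω)^[m] e) = M4 (q (j : ZMod n) + vec (u j - 1)) (u j))
    (hk : ∀ k < m, hdv ((nx ω)^[k] e) ∉ D ∧
      ω' (hdv ((nx ω)^[k] e)) = ω (hdv ((nx ω)^[k] e))) :
    (∀ k ≤ m, (nx ω')^[k + 2] (be q (a : ZMod n)) = (nx ω)^[k] e) ∧
    Returns (nx ω') (bS D) (be q (a : ZMod n)) ∧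
    ret (nx ω') (bS D) (be q (a : ZMod n)) = m + 4 ∧
    ∃ (φ : ℤ × ℤ → ℤ) (σ : ℤ), QX.ExtPot D (QX.exc D ω' (be q (a : ZMod n))) σ φ ∧
      ∑ k ∈ range m, trn ω ((nx ω)^[k] e) = u j - u i +
        (if i < j then (if σ = 1 then 2 else -6) else (if σ = 1 then 6 else -2)) := by
  have he2' := hd_out he2 he1
  have hf2' := hd_in hf2 hf1
  have hpi := parI he1 he2'
  have hpj := parJ hf1 hf2'
  have hij : i ≠ j := by
    rintro rfl
    omega
  have hn : 3 ≤ n := by have := hq.1; omega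
  -- the periodic forms
  have hun := hu.per
  have hVn := V_per hu
  have hqn : ∀ k : ℕ, ((k + n : ℕ) : ZMod n) = (k : ZMod n) := fun k => by simp
  have hc4 : ∀ k : ℕ, M4 (q ((k + n : ℕ) : ZMod n) + vec (u (k + n) - 1)) (u (k + n)) =
      M4 (q (k : ZMod n) + vec (u k - 1)) (u k) := by
    intro k
    rw [hqn, hun, vec_congr (show (u k + 4 * 1 - 1) % 4 = (u k - 1) % 4 by omega)]
    exact M4_congr (by omega)
  obtain ⟨i', hi', hEn⟩ : ∃ i', (i' = i ∨ i' = i + n) ∧ Ent q u ω' i' a := by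
    rcases hE with ⟨h1, h2, h3, h4⟩ | ⟨h1, h2, h3, h4⟩
    · exact ⟨i, Or.inl rfl, Or.inl ⟨h1, h2, h3, h4⟩⟩
    · exact ⟨i + n, Or.inr rfl, Or.inr ⟨h1.symm, h2, by rw [hVn]; exact h3, h4⟩⟩
  obtain ⟨j', hj', hXn⟩ : ∃ j', (j' = j ∨ j' = j + n) ∧ Exi q u ω' j' b := by
    rcases hX with ⟨h1, h2, h3, h4⟩ | ⟨h1, h2, h3, h4⟩
    · exact ⟨j + n, Or.inr rfl, Or.inl ⟨h1.symm, h2, by rw [hVn]; exact h3, h4⟩⟩
    · exact ⟨j, Or.inl rfl, Or.inr ⟨h1, h2, h3, h4⟩⟩
  have hVi : V q u i' = V q u i ∧ (u i' - 1) % 4 = (u i - 1) % 4 := by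
    rcases hi' with rfl | rfl
    · exact ⟨rfl, rfl⟩
    · exact ⟨hVn i, by rw [hun]; omega⟩
  have hVj : V q u j' = V q u j ∧ (u j' + 1) % 4 = (u j + 1) % 4 := by
    rcases hj' with rfl | rfl
    · exact ⟨rfl, rfl⟩
    · exact ⟨hVn j, by rw [hun]; omega⟩
  obtain ⟨g1, g2, g3, i0, j0, φ, σ, a1, a2, a3, a4, a5, a6, a7⟩ := far_core hq hD hu hEn hXn
    (by rw [hVi.1]; exact he1) (by rw [hVi.2]; exact he2') (by rw [hVj.1]; exact hf1)
    (by rw [hVj.2]; exact hf2') hk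
  refine ⟨g1, g2, g3, φ, σ, a6, ?_⟩
  rw [a7]
  -- indices
  have hidx : ∀ k0 k : ℕ, k0 < n → k < 2 * n → (k0 : ZMod n) = (k : ZMod n) →
      (k = k0 ∨ k = k0 + n) := by
    intro k0 k h1 h2 h3
    rw [ZMod.natCast_eq_natCast_iff] at h3
    rcases Nat.lt_or_ge k n with h | h
    · exact Or.inl (Nat.ModEq.eq_of_lt_of_lt h3 h1 h).symm
    · right
      obtain ⟨t, rfl⟩ : ∃ t, k = t + n := ⟨k - n, by omega⟩
      have h4 : k0 ≡ t [MOD n] := by
        have : t + n ≡ t [MOD n] := by simp [Nat.ModEq]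
        exact h3.trans this
      rw [Nat.ModEq.eq_of_lt_of_lt h4 h1 (by omega)]
  have ha2 : a < 2 * n := by
    rcases hE with ⟨h1, -⟩ | ⟨h1, -⟩ <;> omega
  have hb2 : b < 2 * n := by
    rcases hX with ⟨h1, -⟩ | ⟨h1, -⟩ <;> omega
  have hua : (a = i0 ∧ u a = u i0) ∨ (a = i0 + n ∧ u a = u i0 + 4) := by
    rcases hidx i0 a a1 ha2 a4 with h | h
    · exact Or.inl ⟨h, by rw [h]⟩
    · exact Or.inr ⟨h, by rw [h, hun]; ring⟩
  have hub : (b = j0 ∧ u b = u j0) ∨ (b = j0 + n ∧ u b = u j0 + 4) := by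
    rcases hidx j0 b a2 hb2 a5 with h | h
    · exact Or.inl ⟨h, by rw [h]⟩
    · exact Or.inr ⟨h, by rw [h, hun]; ring⟩
  have hui : (a = i + 1 ∧ u a = u i) ∨ (a + 1 = i + n ∧ u a = u i + 4) := by
    rcases hE with ⟨h1, h2, -⟩ | ⟨h1, h2, -⟩
    · exact Or.inl ⟨h1, by rw [h1]; exact h2⟩
    · exact Or.inr ⟨h1, by rw [← h2, h1, hun]; ring⟩
  have huj : (b + 1 = j + n ∧ u b = u j + 4) ∨ (b = j + 1 ∧ u b = u j) := by
    rcases hX with ⟨h1, h2, -⟩ | ⟨h1, h2, -⟩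
    · exact Or.inl ⟨h1, by rw [← h2, h1, hun]; ring⟩
    · exact Or.inr ⟨h1, by rw [h1]; exact h2⟩
  -- the two modifications do not meet
  have hne : a = i + 1 → b + 1 = j + n → b ≠ i ∧ b ≠ i + n := by
    intro h1 h2
    rcases hE with ⟨-, -, h3, -⟩ | ⟨h3, -⟩
    · rcases hX with ⟨-, -, -, h4⟩ | ⟨h4, -⟩
      · constructor
        · rintro rfl
          rw [h3] at h4
          exact absurd h4 (by simp)
        · rintro rfl
          rw [hVn, h3] at h4
          exact absurd h4 (by simp)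
      · omega
    · omega
  have hne' : a + 1 = i + n → b = j + 1 → b ≠ i ∧ b ≠ i + n := by
    intro h1 h2
    rcases hE with ⟨h3, -⟩ | ⟨-, -, h3, -⟩
    · omega
    · rcases hX with ⟨h4, -⟩ | ⟨-, -, -, h4⟩
      · omega
      · constructor
        · rintro rfl
          rw [h3] at h4
          exact absurd h4 (by simp)
        · rintro rfl
          rw [hVn, h3] at h4
          exact absurd h4 (by simp)
  refine arith hn hi hj a1 a2 a3 hij ?_ hua hub hui huj hne hne'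
  split_ifs <;> rfl

/-- The edges of the excursion of `ω'`. -/
theorem exc_far {s : Ed} (h1 : ∀ k ≤ m, (nx ω')^[k + 2] s = (nx ω)^[k] e)
    (h2 : ret (nx ω') (bS D) s = m + 4) :
    x ∈ QX.exc D ω' s ↔ x = s ∨ x = nx ω' s ∨ (∃ k ≤ m, x = (nx ω)^[k] e) ∨
      x = nx ω' ((nx ω)^[m] e) ∨ x = nx ω' (nx ω' ((nx ω)^[m] e)) := by
  have e3 : (nx ω')^[m + 3] s = nx ω' ((nx ω)^[m] e) := by
    rw [show m + 3 = (m + 2) + 1 by ring, Function.iterate_succ_apply', h1 m le_rfl]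
  have e4 : (nx ω')^[m + 4] s = nx ω' (nx ω' ((nx ω)^[m] e)) := by
    rw [show m + 4 = (m + 3) + 1 by ring, Function.iterate_succ_apply', e3]
  rw [QX.mem_exc, h2]
  constructor
  · rintro ⟨k, hk, rfl⟩
    rcases (by omega : k = 0 ∨ k = 1 ∨ (2 ≤ k ∧ k ≤ m + 2) ∨ k = m + 3 ∨ k = m + 4) with
      rfl | rfl | ⟨k1, k2⟩ | rfl | rfl
    · exact Or.inl rfl
    · exact Or.inr (Or.inl rfl)
    · obtain ⟨j, rfl⟩ : ∃ j, k = j + 2 := ⟨k - 2, by omega⟩
      exact Or.inr (Or.inr (Or.inl ⟨j, by omega, h1 j (by omega)⟩))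
    · exact Or.inr (Or.inr (Or.inr (Or.inl e3)))
    · exact Or.inr (Or.inr (Or.inr (Or.inr e4)))
  · rintro (rfl | rfl | ⟨k, hk, rfl⟩ | rfl | rfl)
    · exact ⟨0, by omega, rfl⟩
    · exact ⟨1, by omega, rfl⟩
    · exact ⟨k + 2, by omega, h1 k hk⟩
    · exact ⟨m + 3, by omega, e3⟩
    · exact ⟨m + 4, le_rfl, e4⟩

open Classical in
/-- The configuration `ω`, open at `S`, closed at `Z`. -/
noncomputable def put (S Z : Set (ℤ × ℤ)) (ω : Cfg) : Cfg :=
  fun v => if v ∈ S then true else if v ∈ Z then false else ω v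

theorem put_one {S Z : Set (ℤ × ℤ)} {v : ℤ × ℤ} (h : v ∈ S) : put S Z ω v = true := by
  unfold put; exact if_pos h

theorem put_zero {S Z : Set (ℤ × ℤ)} {v : ℤ × ℤ} (h : v ∉ S) (h' : v ∈ Z) :
    put S Z ω v = false := by
  unfold put; rw [if_neg h, if_pos h']

theorem put_out {S Z : Set (ℤ × ℤ)} {v : ℤ × ℤ} (h : v ∉ S) (h' : v ∉ Z) : put S Z ω v = ω v := by
  unfold put; rw [if_neg h, if_neg h']

/-- The next step is flat and its outer square is in `R`. -/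
def NbR (q : ZMod n → ℤ × ℤ) (u : ℕ → ℤ) (R : Set (ℤ × ℤ)) (i : ℕ) : Prop :=
  u (i + 1) = u i ∧ V q u (i + 1) ∈ R

/-- The previous step is flat and its outer square is in `R`. -/
def NbL (q : ZMod n → ℤ × ℤ) (u : ℕ → ℤ) (R : Set (ℤ × ℤ)) (i : ℕ) : Prop :=
  ∃ a, a + 1 = i + n ∧ u (a + 1) = u a ∧ V q u a ∈ R

/-- **The turning on the far side of the rows `R`** (any colours of the rows; the walk does not visit
`D` and `R` in between). The sides `i`, `j` have a neighbour in `R` on some side, with one exception: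
not only the two squares `V i`, `V j`. -/
theorem far_rows (hq : IsPolygon q) (hD : Encloses q D)
    (hu : Bd (D : Set (ℤ × ℤ)) n (fun k => q (k : ZMod n)) u 1) (hi : i < n) (hj : j < n)
    {R : Set (ℤ × ℤ)} (hinj : ∀ k k' : ℕ, V q u k ∈ R → V q u k' ∈ R → V q u k = V q u k' →
      (k : ZMod n) = (k' : ZMod n)) (hiR : V q u i ∈ R) (hjR : V q u j ∈ R)
    (hnb : (NbR q u R i ∧ NbR q u R j) ∨ (NbL q u R i ∧ NbL q u R j) ∨
      (NbR q u R i ∧ NbL q u R j ∧ ((i + 1 : ℕ) : ZMod n) ≠ j) ∨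
      (NbL q u R i ∧ NbR q u R j ∧ ((j + 1 : ℕ) : ZMod n) ≠ i))
    (he1 : tlv e = V q u i) (he2 : P4 e = M4 (q (i : ZMod n) + vec (u i - 1)) (u i))
    (hf1 : hdv ((nx ω)^[m] e) = V q u j)
    (hf2 : P4 ((nx ω)^[m] e) = M4 (q (j : ZMod n) + vec (u j - 1)) (u j))
    (hk : ∀ k < m, hdv ((nx ω)^[k] e) ∉ D ∧ hdv ((nx ω)^[k] e) ∉ R) :
    ∃ (ω' : Cfg) (s : Ed) (φ : ℤ × ℤ → ℤ) (σ : ℤ), (∀ v ∉ R, ω' v = ω v) ∧
      (∀ k ≤ m, (nx ω')^[k + 2] s = (nx ω)^[k] e) ∧
      hdv s ∈ R ∧ hdv s ∉ D ∧ tlv s ∈ D ∧ Returns (nx ω') (bS D) s ∧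
      ret (nx ω') (bS D) s = m + 4 ∧
      QX.ExtPot D (QX.exc D ω' s) σ φ ∧
      ∑ k ∈ range m, trn ω ((nx ω)^[k] e) = u j - u i +
        (if i < j then (if σ = 1 then 2 else -6) else (if σ = 1 then 6 else -2)) := by
  have hn : 3 ≤ n := by have := hq.1; omega
  have he2' := hd_out he2 he1
  have hf2' := hd_in hf2 hf1
  have hpi := parI he1 he2'
  have hpj := parJ hf1 hf2'
  have hij : (i : ZMod n) ≠ j := by
    intro h
    rw [h] at hpi
    omega
  have hz1 : ∀ k : ℕ, (k : ZMod n) ≠ ((k + 1 : ℕ) : ZMod n) := by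
    intro k h
    have : Fact (1 < n) := ⟨by omega⟩
    push_cast at h
    have h2 : (1 : ZMod n) = 0 := by simp at h
    exact one_ne_zero h2
  -- it suffices to find the configuration
  suffices H : ∃ (ω' : Cfg) (a b : ℕ), (∀ v ∉ R, ω' v = ω v) ∧ V q u a ∈ R ∧
      EntF n q u ω' i a ∧ ExiF n q u ω' j b by
    obtain ⟨ω', a, b, h1, h2, h3, h4⟩ := H
    obtain ⟨g1, g2, g3, φ, σ, g4, g5⟩ := far hq hD hu hi hj h3 h4 he1 he2 hf1 hf2
      (fun k hk' => ⟨(hk k hk').1, h1 _ (hk k hk').2⟩)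
    have hodd : ¬ Even ((q (a : ZMod n)).1 + (q (a : ZMod n)).2) := by
      rw [Int.even_iff]
      rcases h3 with ⟨rfl, -⟩ | ⟨h5, -⟩
      · have := par_succ hu i
        omega
      · have := par_succ hu a
        rw [h5] at this
        simp only [Nat.cast_add, CharP.cast_eq_zero, add_zero] at this
        omega
    obtain ⟨k1, k2, -⟩ := be_out hq hD hu hodd
    exact ⟨ω', be q (a : ZMod n), φ, σ, h1, g1, by rw [k2]; exact h2,
      by rw [k2]; exact V_out hu a, k1, g2, g3, g4, g5⟩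
  rcases hnb with ⟨⟨a1, a2⟩, b1, b2⟩ | ⟨⟨a, a1, a2, a3⟩, b, b1, b2, b3⟩ |
    ⟨⟨a1, a2⟩, ⟨b, b1, b2, b3⟩, hne⟩ | ⟨⟨a, a1, a2, a3⟩, ⟨b1, b2⟩, hne⟩
  · -- `V i` closed, `V (i + 1)` open, `V j` open, `V (j + 1)` closed
    have c1 : V q u i ∉ ({V q u (i + 1), V q u j} : Set (ℤ × ℤ)) := by
      rintro (h | h)
      · exact hz1 i (hinj _ _ hiR a2 h)
      · exact hij (hinj _ _ hiR hjR h)
    have c2 : V q u (j + 1) ∉ ({V q u (i + 1), V q u j} : Set (ℤ × ℤ)) := by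
      rintro (h | h)
      · have := hinj _ _ b2 a2 h
        push_cast at this
        exact hij (add_right_cancel this).symm
      · exact hz1 j (hinj _ _ b2 hjR h).symm
    refine ⟨put {V q u (i + 1), V q u j} {V q u i, V q u (j + 1)} ω, i + 1, j + 1, ?_, a2,
      Or.inl ⟨rfl, a1, put_zero c1 (Or.inl rfl), put_one (Or.inl rfl)⟩,
      Or.inr ⟨rfl, b1, put_one (Or.inr rfl), put_zero c2 (Or.inr rfl)⟩⟩
    intro v hv
    refine put_out ?_ ?_
    · rintro (rfl | rfl)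
      · exact hv a2
      · exact hv hjR
    · rintro (rfl | rfl)
      · exact hv hiR
      · exact hv b2
  · -- `V i` open, `V (i - 1)` closed, `V j` closed, `V (j - 1)` open
    have hai : ((a + 1 : ℕ) : ZMod n) = i := by rw [a1]; simp
    have hbj : ((b + 1 : ℕ) : ZMod n) = j := by rw [b1]; simp
    have c1 : V q u a ∉ ({V q u i, V q u b} : Set (ℤ × ℤ)) := by
      rintro (h | h)
      · exact hz1 a (by rw [hai]; exact hinj _ _ a3 hiR h)
      · have := hinj _ _ a3 b3 h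
        refine hij ?_
        rw [← hai, ← hbj]
        push_cast
        rw [this]
    have c2 : V q u j ∉ ({V q u i, V q u b} : Set (ℤ × ℤ)) := by
      rintro (h | h)
      · exact hij (hinj _ _ hjR hiR h).symm
      · exact hz1 b (by rw [hbj]; exact (hinj _ _ hjR b3 h).symm)
    refine ⟨put {V q u i, V q u b} {V q u a, V q u j} ω, a, b, ?_, a3,
      Or.inr ⟨a1, a2, put_one (Or.inl rfl), put_zero c1 (Or.inl rfl)⟩,
      Or.inl ⟨b1, b2, put_zero c2 (Or.inr rfl), put_one (Or.inr rfl)⟩⟩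
    intro v hv
    refine put_out ?_ ?_
    · rintro (rfl | rfl)
      · exact hv hiR
      · exact hv b3
    · rintro (rfl | rfl)
      · exact hv a3
      · exact hv hjR
  · -- `V i` closed, `V (i + 1)` open, `V j` closed, `V (j - 1)` open
    have hbj : ((b + 1 : ℕ) : ZMod n) = j := by rw [b1]; simp
    have c1 : V q u i ∉ ({V q u (i + 1), V q u b} : Set (ℤ × ℤ)) := by
      rintro (h | h)
      · exact hz1 i (hinj _ _ hiR a2 h)
      · have := hinj _ _ hiR b3 h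
        refine hne ?_
        rw [← hbj]
        push_cast
        rw [this]
    have c2 : V q u j ∉ ({V q u (i + 1), V q u b} : Set (ℤ × ℤ)) := by
      rintro (h | h)
      · exact hne (hinj _ _ hjR a2 h).symm
      · exact hz1 b (by rw [hbj]; exact (hinj _ _ hjR b3 h).symm)
    refine ⟨put {V q u (i + 1), V q u b} {V q u i, V q u j} ω, i + 1, b, ?_, a2,
      Or.inl ⟨rfl, a1, put_zero c1 (Or.inl rfl), put_one (Or.inl rfl)⟩,
      Or.inl ⟨b1, b2, put_zero c2 (Or.inr rfl), put_one (Or.inr rfl)⟩⟩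
    intro v hv
    refine put_out ?_ ?_
    · rintro (rfl | rfl)
      · exact hv a2
      · exact hv b3
    · rintro (rfl | rfl)
      · exact hv hiR
      · exact hv hjR
  · -- `V i` open, `V (i - 1)` closed, `V j` open, `V (j + 1)` closed
    have hai : ((a + 1 : ℕ) : ZMod n) = i := by rw [a1]; simp
    have c1 : V q u a ∉ ({V q u i, V q u j} : Set (ℤ × ℤ)) := by
      rintro (h | h)
      · exact hz1 a (by rw [hai]; exact hinj _ _ a3 hiR h)
      · have := hinj _ _ a3 hjR h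
        refine hne ?_
        rw [← hai]
        push_cast
        rw [this]
    have c2 : V q u (j + 1) ∉ ({V q u i, V q u j} : Set (ℤ × ℤ)) := by
      rintro (h | h)
      · exact hne (hinj _ _ b2 hiR h)
      · exact hz1 j (hinj _ _ b2 hjR h).symm
    refine ⟨put {V q u i, V q u j} {V q u a, V q u (j + 1)} ω, a, j + 1, ?_, a3,
      Or.inr ⟨a1, a2, put_one (Or.inl rfl), put_zero c1 (Or.inl rfl)⟩,
      Or.inr ⟨rfl, b1, put_one (Or.inr rfl), put_zero c2 (Or.inr rfl)⟩⟩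
    intro v hv
    refine put_out ?_ ?_
    · rintro (rfl | rfl)
      · exact hv hiR
      · exact hv hjR
    · rintro (rfl | rfl)
      · exact hv a3
      · exact hv b2

end Vale.Agent.P167.H542.Q.Far
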