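import Vale.Agent.P167.QB.FDefs
import Vale.Agent.P167.H469.BArm

/-!
# P167, general `q`, block BRQ: `S_glu`, `S_har`

`glue_DA`: a dual arm of the half annulus, a dual half circuit and a dual path from the half box to `W` are
glued. `s_glu : S_glu θ`; `s_har : S_beta θ → S_har θ`.
-/

namespace Vale.Agent.P167.H542.Q.Glu

open Finset Relation Vale.Agent.P167 Vale.Agent.P167.BR Vale.Agent.P167.FK
open Vale.Agent.P145.FB (PStep PConn)
open Vale.Agent.P167.E6 (IsPolygon Encloses dir face)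
open Vale.Agent.P167.H632 (IncC cs pr nm_le le_nm cs_compl)
open Vale.Agent.P167.H704.Q (prC_inter prC_mono)
open Vale.Agent.P167.H192.TA (Xc Pw dq sr cut_dq arc_full)
open Vale.Agent.P167.H192.Q (SRSW)
open Vale.Agent.P167.H469 (hx Ks exists_Ks join_half FlF inc_Xc inc_nXc)
open Vale.Agent.P167.QB (HArm DAr Wa Geo2 S_glu S_har S_beta)
open Vale.Agent.P167.QM (HB)
open Vale.Agent.P167.H562.QM (FltQ)

variable {D : Finset (ℤ × ℤ)} {η ω : Cfg} {b : ℤ × ℤ} {r R m : ℤ} {W : Set (ℤ × ℤ)}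

/-! ### deterministic part -/

/-- The first exit. -/
theorem first_exit {F : Set (ℤ × ℤ)} {u t : ℤ × ℤ} (h : ReflTransGen (PStep F) u t)
    (ht : m ≤ nm (t - b)) : ∃ t', m ≤ nm (t' - b) ∧
      ReflTransGen (fun x y => PStep F x y ∧ nm (x - b) < m) u t' := by
  induction h using ReflTransGen.head_induction_on with
  | refl => exact ⟨t, ht, ReflTransGen.refl⟩
  | @head x y hxy _ ih =>
    by_cases hx : m ≤ nm (x - b)
    · exact ⟨x, hx, ReflTransGen.refl⟩
    · obtain ⟨t', h1, h2⟩ := ih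
      exact ⟨t', h1, ReflTransGen.head ⟨hxy, by omega⟩ h2⟩

theorem pw_of_step {F G : Set (ℤ × ℤ)} {u t : ℤ × ℤ}
    (h : ReflTransGen (fun x y => PStep F x y ∧ nm (x - b) < m) u t)
    (hG : ∀ x y : ℤ × ℤ, PStep F x y → nm (x - b) < m → (min x.1 y.1, min x.2 y.2) ∈ G) :
    Pw G u t := by
  induction h with
  | refl => exact ReflTransGen.refl
  | tail _ h ih =>
    obtain ⟨⟨p1, p2, p3⟩, h2⟩ := h
    exact ih.tail ⟨p1, p2, hG _ _ ⟨p1, p2, p3⟩ h2⟩

/-- **Gluing a dual arm to a dual path of the domain.** -/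
theorem glue_DA (hr0 : 1 ≤ r) (hrR : r ≤ R) (hRm : R ≤ m) (hF : Flt D b m)
    (hW : ∀ t ∈ W, m ≤ nm (t - b)) (hα : ω ∈ Xc false b r m) (hγ : ω ∉ Xc true b R m)
    (hβ : ω ∈ DAr D W b R) : ω ∈ DAr D W b r := by
  have hr : 1 ≤ R := by omega
  -- the half circuit
  have hcs : (cs true ω)ᶜ = cs false ω := by rw [cs_compl, Bool.not_true]
  have hp1 : (1 : ℤ) - pr true = pr false := by simp [pr]
  obtain ⟨x, x', x1, x2, x3, x4, x5, x6⟩ := arc_full (F := cs true ω) (b := b) (r := R) (R := m)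
    (e := pr true) (by simp [pr]) hr hRm (fun y y' hy hye hyr hyy' => by
      by_contra hc
      exact hγ ⟨y, y', hy, hye, hyr, hyy', by omega⟩)
  rw [hcs] at x6
  rw [hp1] at x5
  -- the arm
  obtain ⟨y, y', k1, k2, k3, k4, k5⟩ := hα
  have hy : b.2 ≤ y.2 := by
    simp only [sr, Set.mem_ofPred_eq] at k1
    omega
  obtain ⟨y0, y1, a1, a2, a3, a4, a5⟩ := cut_dq (G := cs false ω ∩ dq b r m) hRm hy
    (fun v hv => by have := hv.2; simp only [dq, Set.mem_ofPred_eq] at this; omega) k4 (k3.trans hrR)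
    k5
  -- the path of the domain
  obtain ⟨u, hu, t, ht, l1, l2⟩ := hβ
  rw [SetLike.mem_coe, mem_sites_hbox hr] at hu
  obtain ⟨t', t1, t2⟩ := first_exit (b := b) (m := m) l2 (hW t ht)
  set G : Set (ℤ × ℤ) := (cs false ω ∩ (↑(D \ hbox b R) : Set (ℤ × ℤ))) ∩ {v | b.2 ≤ v.2} with hG
  have h3 : Pw G u t' := pw_of_step t2 fun z w h hz => by
    obtain ⟨p1, p2, p3⟩ := h
    refine ⟨p3, ?_⟩
    have hD := (mem_sdiff.1 (mem_coe.1 p3.2)).1
    have hz' : ¬ m ≤ nm (z - b) := by omega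
    rw [le_nm] at hz'
    push Not at hz'
    simp only [Prod.fst_sub, Prod.snd_sub] at hz'
    exact (hF _ (by dsimp only; omega) (by dsimp only; omega) (by dsimp only; omega)
      (by dsimp only; omega)).1 hD
  have hu2 : nm (u - b) ≤ R := by
    rw [nm_le]
    simp only [Prod.fst_sub, Prod.snd_sub]
    omega
  obtain ⟨t0, t1', c1, c2, c3, c4, c5⟩ := cut_dq (G := G) hRm (by omega) (fun v hv => hv.2) h3 hu2 t1
  have hpsr : ((x, b.2) : ℤ × ℤ) ∈ sr b R m := by
    simp only [sr, Set.mem_ofPred_eq]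
    omega
  have he0 : pr false = 0 ∨ pr false = 1 := by simp [pr]
  have j1 := join_half (F := cs false ω) (e := pr false) he0 hr hRm (y := y0) (y' := y1)
    (p := (x, b.2)) (q := (x', b.2)) a2 a3 a5 (by rw [← a1.parity, k2])
    (a4.mono (Set.inter_subset_inter_left _ Set.inter_subset_left)) hpsr (by dsimp only; omega) rfl
    x5 (by dsimp only; omega) rfl x6
  have j2 := join_half (F := cs false ω) (e := pr false) he0 hr hRm (y := t0) (y' := t1')
    (p := (x, b.2)) (q := (x', b.2)) c2 c3 c5 (by rw [← c1.parity, l1])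
    (c4.mono (Set.inter_subset_inter_left _ (Set.inter_subset_left.trans Set.inter_subset_left)))
    hpsr (by dsimp only; omega) rfl
    x5 (by dsimp only; omega) rfl x6
  -- the squares
  set G' : Set (ℤ × ℤ) := cs false ω ∩ (↑(D \ hbox b r) : Set (ℤ × ℤ)) with hG'
  have s1 : dq b r m ⊆ (↑(D \ hbox b r) : Set (ℤ × ℤ)) := by
    intro v hv
    simp only [dq, Set.mem_ofPred_eq] at hv
    rw [mem_coe, mem_sdiff, mem_hbox]
    refine ⟨(hF v (by omega) (by omega) (by omega) (by omega)).2 (by omega), by omega⟩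
  have s3 : dq b R m ⊆ dq b r m := by
    intro v hv
    simp only [dq, Set.mem_ofPred_eq] at hv ⊢
    omega
  have s4 : (↑(D \ hbox b R) : Set (ℤ × ℤ)) ⊆ ↑(D \ hbox b r) := by
    intro v hv
    rw [mem_coe, mem_sdiff] at hv ⊢
    exact ⟨hv.1, fun h => hv.2 (hbox_mono hrR h)⟩
  have p1 : Pw G' y y0 := a1.mono (Set.inter_subset_inter_right _ s1)
  have p2 : Pw G' y0 t0 := Pw.mono (Set.inter_subset_inter_right _ (s3.trans s1)) (j1.trans j2.symm)
  have p3 : Pw G' t0 u := Pw.mono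
    (Set.inter_subset_left.trans (Set.inter_subset_inter_right _ s4)) c1.symm
  have p4 : Pw G' u t := Pw.mono (Set.inter_subset_inter_right _ s4) l2
  refine ⟨y, ?_, t, ht, k2, p1.trans (p2.trans (p3.trans p4))⟩
  rw [nm_le] at k3
  simp only [Prod.fst_sub, Prod.snd_sub] at k3
  rw [SetLike.mem_coe, mem_sites_hbox hr0]
  omega

theorem decDAr (D : Finset (ℤ × ℤ)) (W : Set (ℤ × ℤ)) (b : ℤ × ℤ) (r : ℤ) :
    IncC false (DAr D W b r) := by
  rintro ω ω' h ⟨u, hu, t, ht, h1, h2⟩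
  refine ⟨u, hu, t, ht, h1, Pw.mono ?_ h2⟩
  rintro v ⟨hv1, hv2⟩
  exact ⟨h v hv1, hv2⟩

/-! ### the sites of the polygon in the window -/

variable {n : ℕ} {q : ZMod n → ℤ × ℤ} {k l mm : ℕ} {Rc Rd : ℤ}

/-- The polygon in the window is on the line. -/
theorem on_line (hq : IsPolygon q) (hD : Encloses q D) (hF : Flt D b R) (i : ZMod n)
    (h : nm (q i - b) < R) : (q i).2 = b.2 := by
  have h' : ¬ R ≤ nm (q i - b) := by omega
  rw [le_nm] at h'
  push Not at h'
  simp only [Prod.fst_sub, Prod.snd_sub] at h'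
  have hs := be_sides hq i
  have hbd := be_bd hq hD i
  generalize be q i = e at hs hbd
  have c1 := corner_hd e
  have c2 := corner_tl e
  have key : ∀ v w : ℤ × ℤ, v ∈ D → w ∉ D → ((q i).1 = v.1 ∨ (q i).1 = v.1 + 1) →
      ((q i).2 = v.2 ∨ (q i).2 = v.2 + 1) → ((q i).1 = w.1 ∨ (q i).1 = w.1 + 1) →
      ((q i).2 = w.2 ∨ (q i).2 = w.2 + 1) → (q i).2 = b.2 := by
    intro v w hv hw v1 v2 w1 w2
    have g1 := (hF v (by omega) (by omega) (by omega) (by omega)).1 hv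
    have g2 : ¬ b.2 ≤ w.2 := fun g =>
      hw ((hF w (by omega) (by omega) (by omega) (by omega)).2 g)
    omega
  rcases hs with ⟨s1, -⟩ | ⟨s1, -⟩ <;> rw [s1] at c1 c2 <;> rcases hbd with ⟨d1, d2⟩ | ⟨d1, d2⟩
  · exact key _ _ d1 d2 c1.1 c1.2.1 c2.1 c2.2.1
  · exact key _ _ d1 d2 c2.1 c2.2.1 c1.1 c1.2.1
  · exact key _ _ d1 d2 c1.2.2.1 c1.2.2.2 c2.2.2.1 c2.2.2.2
  · exact key _ _ d1 d2 c2.2.2.1 c2.2.2.2 c1.2.2.1 c1.2.2.2

theorem flt_of' {pl pr : Bool} (h : FltQ D η b R pl pr) : Flt D b R := by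
  intro v h1 h2 h3 h4
  refine h.dom v ?_
  rw [nm_le]
  simp only [Prod.fst_sub, Prod.snd_sub]
  omega

/-- The sites of the arc from `c` to `a` are far from `d`. -/
theorem wa_far (hG : Geo2 q D η k l mm Rc Rd) (t : ℤ × ℤ) (ht : t ∈ Wa q k l) :
    Rd ≤ nm (t - q mm) := by
  obtain ⟨j, hj1, hj2, rfl⟩ := ht
  by_contra hcon
  push Not at hcon
  have hq := hG.poly
  have hD := hG.enc
  have hF := flt_of' hG.fd
  have hR := hG.pd
  have h1 := hG.mR
  have h2 := hG.lR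
  have h3 := hG.kn
  have hc := hG.pc
  have hm : mm < n := by omega
  obtain ⟨r1, r2⟩ := flat_range hq hD hF hR hm hG.od
  have h4 := on_line hq hD hF (j : ZMod n) hcon
  have hcon' : ¬ Rd ≤ nm (q j - q mm) := by omega
  rw [le_nm] at hcon'
  push Not at hcon'
  simp only [Prod.fst_sub, Prod.snd_sub] at hcon'
  -- the index of the site
  obtain ⟨a, ha1, ha2, ha3⟩ : ∃ a : ℕ, 0 < a ∧ (a : ℤ) < mm + Rd ∧ q a = q j := by
    rcases le_total (q mm).1 (q j).1 with h5 | h5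
    · obtain ⟨x, hx⟩ : ∃ x : ℕ, (x : ℤ) = (q j).1 - (q mm).1 :=
        ⟨((q j).1 - (q mm).1).toNat, by omega⟩
      have h6 := (walk hq hD (i := (mm : ZMod n)) hF x (by omega)).1
      refine ⟨mm + x, by omega, by push_cast; omega, ?_⟩
      rw [Nat.cast_add, h6]
      ext
      · simp only [Prod.fst_add]; omega
      · simp only [Prod.snd_add]; omega
    · obtain ⟨x, hx⟩ : ∃ x : ℕ, (x : ℤ) = (q mm).1 - (q j).1 :=
        ⟨((q mm).1 - (q j).1).toNat, by omega⟩
      have h6 := (walk hq hD (i := (mm : ZMod n)) hF x (by omega)).2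
      refine ⟨mm - x, by omega, by omega, ?_⟩
      rw [Nat.cast_sub (by omega), h6]
      ext
      · simp only [Prod.fst_sub]; omega
      · simp only [Prod.snd_sub]; omega
  have h7 := hq.2.1 ha3
  rw [ZMod.natCast_eq_natCast_iff] at h7
  have h8 := (Nat.modEq_iff_dvd' (by omega)).1 h7
  have h9 := Nat.le_of_dvd (by omega) h8
  omega

/-! ### probabilities -/

theorem HB_eq (b : ℤ × ℤ) (N : ℤ) : HB b N = hbox b N := by
  ext v
  rw [QM.mem_HB, H469.mem_Bq', mem_hbox]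
  constructor
  · rintro ⟨h1, h2⟩
    omega
  · intro h
    omega

theorem flF_of {pl : Bool} (h : FltQ D η b R pl false) (hp : pl = false) : FlF D η b R := by
  have key : ∀ v ∈ Bq b R, nm (v - b) ≤ R := fun v hv => by
    rw [H469.mem_Bq'] at hv
    rw [nm_le]
    simp only [Prod.fst_sub, Prod.snd_sub]
    omega
  refine ⟨fun v hv => h.dom v (key v hv), fun v hv hvD => ?_⟩
  have h1 : v.2 < b.2 := by
    by_contra h2
    exact hvD ((h.dom v (key v hv)).2 (by omega))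
  rw [h.out v (key v hv) h1, hp]
  simp

theorem cn_of {pl pr : Bool} (h : FltQ D η b R pl pr) : H469.Cn D b R := by
  intro v h1 h2 h3 h4
  refine (h.dom v ?_).2 h3
  rw [nm_le]
  simp only [Prod.fst_sub, Prod.snd_sub]
  omega

theorem fltQ_mn' {pl pr : Bool} (h : FltQ D η b R pl pr) (hr : r ≤ R) : FltQ D η b r pl pr :=
  ⟨fun v hv => h.dom v (by omega), fun v hv => h.out v (by omega)⟩

variable {θ : ℝ}

/-- **(GLU)** Gluing of the dual arms of the domain. -/
theorem s_glu (hQ : 1 ≤ 2 * Real.cos θ) (hR0 : RSW (2 * Real.cos θ)) (hS : SRSW (2 * Real.cos θ)) :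
    S_glu θ := by
  obtain ⟨C⟩ := exists_Ks hQ hR0 hS
  have hQ0 := C.hQ0
  have hΛ := C.hΛ
  have hc0 := C.hc0
  obtain ⟨c, s0, hc, hs0, hext⟩ := C.ext_out (M := C.Λ) (by omega)
  obtain ⟨C7, K7, hC7, hK7, h7⟩ := C.a7
  refine ⟨C7 / (c * C.c0), max (2 * C.Λ) K7, s0, by positivity, by omega, hs0,
    fun n q D η k l m Rc Rd N hG r R hr hrR hKR hKN => ?_⟩
  have hR1 : 1 ≤ R := by omega
  have a1 : 2 * C.Λ * R ≤ Rd := le_trans (mul_le_mul_of_nonneg_right (le_max_left _ _) (by omega)) hKR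
  have a2 : K7 * R ≤ Rd := le_trans (mul_le_mul_of_nonneg_right (le_max_right _ _) (by omega)) hKR
  have a3 : K7 * R ≤ N := le_trans (mul_le_mul_of_nonneg_right (le_max_right _ _) (by omega)) hKN
  have a4 : R ≤ C.Λ * R := by nlinarith
  have hη := hG.good
  have hcn : H469.Cn D (q m) Rd := cn_of hG.fd
  have hF := flt_of' hG.fd
  have k1 : hx (2 * Real.cos θ) false (q m) r R N ≤
      C7 * Pr (2 * Real.cos θ) D η (Xc false (q m) r R) :=
    (h7 false (q m) r R N D η (by omega) hrR a3 hη (flF_of (fltQ_mn' hG.fd a2) rfl)).2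
  have k2 : c * Pr (2 * Real.cos θ) D η (Xc false (q m) r R) ≤
      Pr (2 * Real.cos θ) D η (Xc false (q m) r (C.Λ * R)) :=
    hext false (q m) r R (C.Λ * R) D η hr hrR a4 le_rfl hη (hcn.mono (by linarith))
  have k3 : C.c0 ≤ Pr (2 * Real.cos θ) D η (Xc true (q m) R (C.Λ * R))ᶜ :=
    C.half_ge (e := false) hR1 le_rfl hη (hcn.mono (by linarith))
  have i1 := inc_nXc false (q m) R (C.Λ * R)
  rw [Bool.not_false] at i1
  have k4 := prC_inter (D := D) (Q := 2 * Real.cos θ) hQ hη i1 (decDAr D (Wa q k l) (q m) R)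
  have k5 := prC_inter (D := D) (Q := 2 * Real.cos θ) hQ hη (inc_Xc false (q m) r (C.Λ * R))
    (i1.inter (decDAr D (Wa q k l) (q m) R))
  have k6 : Pr (2 * Real.cos θ) D η (Xc false (q m) r (C.Λ * R) ∩
      ((Xc true (q m) R (C.Λ * R))ᶜ ∩ DAr D (Wa q k l) (q m) R)) ≤
        Pr (2 * Real.cos θ) D η (DAr D (Wa q k l) (q m) r) := by
    refine FKA.Pr_mono hQ0 ?_
    rintro ω ⟨w1, w2, w3⟩
    exact glue_DA (by omega) hrR a4 (hF.mono (by linarith)) (fun t ht => le_trans (by linarith)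
      (wa_far hG t ht)) w1 w2 w3
  have hh : Pr (2 * Real.cos θ) (hbox (q m) N) eta0 (Xc false (q m) r R) =
      hx (2 * Real.cos θ) false (q m) r R N := by
    unfold hx
    rw [HB_eq]
  rw [hh]
  have p1 : 0 ≤ Pr (2 * Real.cos θ) D η (DAr D (Wa q k l) (q m) R) := FKA.Pr_nonneg hQ0 _
  have p2 : 0 ≤ Pr (2 * Real.cos θ) D η (Xc false (q m) r R) := FKA.Pr_nonneg hQ0 _
  have p3 : 0 ≤ Pr (2 * Real.cos θ) D η (Xc false (q m) r (C.Λ * R)) := FKA.Pr_nonneg hQ0 _
  generalize hx (2 * Real.cos θ) false (q m) r R N = z1 at *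
  generalize Pr (2 * Real.cos θ) D η (Xc false (q m) r R) = z2 at *
  generalize Pr (2 * Real.cos θ) D η (Xc false (q m) r (C.Λ * R)) = z3 at *
  generalize Pr (2 * Real.cos θ) D η (DAr D (Wa q k l) (q m) R) = z4 at *
  generalize Pr (2 * Real.cos θ) D η (DAr D (Wa q k l) (q m) r) = z5 at *
  generalize Pr (2 * Real.cos θ) D η (Xc true (q m) R (C.Λ * R))ᶜ = z6 at *
  have m1 : c * z2 * (C.c0 * z4) ≤ z5 := by
    refine le_trans (mul_le_mul k2 ?_ (by positivity) p3) (k5.trans k6)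
    exact (mul_le_mul_of_nonneg_right k3 p1).trans k4
  rw [div_mul_eq_mul_div, le_div_iff₀ (by positivity)]
  calc z1 * z4 * (c * C.c0) ≤ C7 * z2 * z4 * (c * C.c0) := by
        refine mul_le_mul_of_nonneg_right (mul_le_mul_of_nonneg_right k1 p1) (by positivity)
    _ = C7 * (c * z2 * (C.c0 * z4)) := by ring
    _ ≤ C7 * z5 := mul_le_mul_of_nonneg_left m1 hC7.le

/-- An open arm of the half annulus, the two forms. -/
theorem Xc_of_harm (hrR : r < R) (h : HArm b r R ω) : ω ∈ Xc true b r R := by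
  obtain ⟨u, v, h1, h2, h3, h4⟩ := h
  have hsub : QB.ha b r R ω ⊆ cs true ω ∩ dq b r R := by
    rintro w ⟨w1, w2, w3⟩
    rw [mem_hbox] at w1 w2
    refine ⟨w3, ?_⟩
    simp only [dq, Set.mem_ofPred_eq]
    omega
  have h5 : Pw (cs true ω ∩ dq b r R) u v := Pw.mono hsub h4
  refine ⟨u, v, ?_, ?_, h2, h5, h3⟩
  · rcases ReflTransGen.cases_head h5 with h6 | ⟨w, ⟨p1, p2, p3⟩, -⟩
    · rw [h6] at h2
      omega
    · have p4 := p3.2
      simp only [dq, Set.mem_ofPred_eq] at p4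
      rw [nm_le] at h2
      simp only [Prod.fst_sub, Prod.snd_sub] at h2
      simp only [sr, Set.mem_ofPred_eq]
      omega
  · simp only [pr, if_true]
    rw [Int.even_iff] at h1
    exact h1

/-- **(HAR)** The primal arm of the domain relative to the dual arm. -/
theorem s_har (hQ : 1 ≤ 2 * Real.cos θ) (hR0 : RSW (2 * Real.cos θ)) (hS : SRSW (2 * Real.cos θ))
    (hβ : S_beta θ) (hg : S_glu θ) : S_har θ := by
  obtain ⟨C⟩ := exists_Ks hQ hR0 hS
  have hQ0 := C.hQ0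
  obtain ⟨C7, K7, hC7, hK7, h7⟩ := C.a7
  obtain ⟨α, Cb, Kb, sb, hα, hCb, hKb, hsb, hb⟩ := hβ
  obtain ⟨Cg, Kg, sg, hCg, hKg, hsg, hg⟩ := hg
  refine ⟨α, C7 * Cb * Cg + 1, max (max Kb Kg) K7, max sb sg, hα, by positivity, by omega, by omega,
    fun n q D η k l m Rc Rd hG r R hr hrR hKR => ?_⟩
  have hR1 : 1 ≤ R := by omega
  have p1 : 0 ≤ Pr (2 * Real.cos θ) D η (DAr D (Wa q k l) (q m) R) := FKA.Pr_nonneg hQ0 _
  have p5 : 0 ≤ Pr (2 * Real.cos θ) D η (DAr D (Wa q k l) (q m) r) := FKA.Pr_nonneg hQ0 _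
  have hr0 : (0 : ℝ) < r := by exact_mod_cast (by omega : 0 < r)
  have hR0' : (0 : ℝ) < R := by exact_mod_cast (by omega : 0 < R)
  have hx0 : (0 : ℝ) ≤ ((r : ℝ) / R) ^ α := Real.rpow_nonneg (by positivity) _
  rcases hrR.eq_or_lt with he | hlt
  · -- the trivial case
    subst he
    rw [div_self hr0.ne', Real.one_rpow, mul_one]
    have h1 : Pr (2 * Real.cos θ) D η {ω | HArm (q m) r r ω} ≤ 1 := FKA.Pr_le_one hQ0 _
    have h2 := mul_le_mul_of_nonneg_right h1 p1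
    have h3 : 0 ≤ C7 * Cb * Cg * Pr (2 * Real.cos θ) D η (DAr D (Wa q k l) (q m) r) := by positivity
    linarith
  set N : ℤ := max (max Kb Kg) K7 * R with hN
  have a1 : Kb * R ≤ N := mul_le_mul_of_nonneg_right (by omega) (by omega)
  have a2 : Kg * R ≤ N := mul_le_mul_of_nonneg_right (by omega) (by omega)
  have a3 : K7 * R ≤ N := mul_le_mul_of_nonneg_right (by omega) (by omega)
  have k1 : Pr (2 * Real.cos θ) D η {ω | HArm (q m) r R ω} ≤
      Pr (2 * Real.cos θ) D η (Xc true (q m) r R) :=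
    FKA.Pr_mono hQ0 fun ω hω => Xc_of_harm hlt hω
  have k2 : Pr (2 * Real.cos θ) D η (Xc true (q m) r R) ≤
      C7 * hx (2 * Real.cos θ) true (q m) r R N :=
    (h7 true (q m) r R N D η (by omega) hrR a3 hG.good
      (flF_of (fltQ_mn' hG.fd (a3.trans hKR)) rfl)).1
  have k3 := hb (q m) r R N (by omega) hrR a1
  have k4 := hg n q D η k l m Rc Rd N hG r R (by omega) hrR (a2.trans hKR) a2
  have e1 : hx (2 * Real.cos θ) true (q m) r R N =
      Pr (2 * Real.cos θ) (hbox (q m) N) eta0 (Xc true (q m) r R) := by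
    unfold hx
    rw [HB_eq]
  rw [e1] at k2
  generalize Pr (2 * Real.cos θ) D η {ω | HArm (q m) r R ω} = z0 at *
  generalize Pr (2 * Real.cos θ) D η (Xc true (q m) r R) = z1 at *
  generalize Pr (2 * Real.cos θ) (hbox (q m) N) eta0 (Xc true (q m) r R) = z2 at *
  generalize Pr (2 * Real.cos θ) (hbox (q m) N) eta0 (Xc false (q m) r R) = z3 at *
  generalize Pr (2 * Real.cos θ) D η (DAr D (Wa q k l) (q m) R) = z4 at *
  generalize Pr (2 * Real.cos θ) D η (DAr D (Wa q k l) (q m) r) = z5 at *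
  generalize ((r : ℝ) / R) ^ α = x at *
  have m1 : z0 ≤ C7 * (Cb * x * z3) := (k1.trans k2).trans (mul_le_mul_of_nonneg_left k3 hC7.le)
  calc z0 * z4 ≤ C7 * (Cb * x * z3) * z4 := mul_le_mul_of_nonneg_right m1 p1
    _ = C7 * Cb * x * (z3 * z4) := by ring
    _ ≤ C7 * Cb * x * (Cg * z5) := mul_le_mul_of_nonneg_left k4 (by positivity)
    _ = C7 * Cb * Cg * x * z5 := by ring
    _ ≤ (C7 * Cb * Cg + 1) * x * z5 := by
      have : 0 ≤ x * z5 := mul_nonneg hx0 p5
      nlinarith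

end Vale.Agent.P167.H542.Q.Glu
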