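import Vale.Agent.P167.H192.Q.Fresh

/-!
# P167, general `q`, block Q-CONT, law part: freezing squares

`CT c U T ω`: the union of the clusters of the colour `c` of the sites of `T` in the squares `U`.
`B ⊆ D` gets the colour `!c` (frozen). `inf_up`: a function which is increasing in the colour `c`
gets a smaller expectation. `inf_lo`: conversely, the part of the expectation on the event that the
clusters of `B` have the property `P` is smaller than the expectation after freezing, if the function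
does not see these clusters. `inf_box_lo`, `inf_box_up`: the same for functions which are increasing
only outside of a set `V` of squares, the laws in `V` are compared separately.
-/

namespace Vale.Agent.P167.H542.Q.Inf

open Finset Relation Vale.Agent.P167 Vale.Agent.P167.FK Vale.Agent.P167.FKA Vale.Agent.P167.H192.TA
  Vale.Agent.P167.H632 Vale.Agent.P167.H192.Q
open Vale.Agent.P145.FB (PStep PConn step_of_corners)
open Vale.Agent.P167.H259 (f_markov Ex_out)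

variable {Q : ℝ} {D A B V : Finset (ℤ × ℤ)} {η ζ : Cfg} {F H : Cfg → ℝ} {c : Bool}
  {T K : Set (ℤ × ℤ)} {P : Set (ℤ × ℤ) → Prop}

/-- The squares of `U` of colour `c`. -/
def Oc (c : Bool) (U : Finset (ℤ × ℤ)) (ω : Cfg) : Set (ℤ × ℤ) := {v | v ∈ U ∧ ω v = c}

/-- The union of the clusters of colour `c` in `U` of the sites of `T`. -/
def CT (c : Bool) (U : Finset (ℤ × ℤ)) (T : Set (ℤ × ℤ)) (ω : Cfg) : Set (ℤ × ℤ) :=
  {t | ∃ s ∈ T, Pw (Oc c U ω) s t}

/-- Sites of colour `c`. -/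
def Par (c : Bool) (T : Set (ℤ × ℤ)) : Prop := ∀ t ∈ T, (t.1 + t.2) % 2 = pr c

/-- The site `y` is a corner of a square of colour `c` outside of `D`. -/
def Bd (c : Bool) (D : Finset (ℤ × ℤ)) (η : Cfg) (y : ℤ × ℤ) : Prop :=
  ∃ o, o ∉ D ∧ η o = c ∧ Cor o y

/-- The squares of colour `c` outside of `D`. -/
def Ou (c : Bool) (D : Finset (ℤ × ℤ)) (η : Cfg) : Set (ℤ × ℤ) := {v | v ∉ D ∧ η v = c}

theorem step_pr {F : Set (ℤ × ℤ)} {v u w : ℤ × ℤ} (hv : v ∈ F) (hu : Cor v u) (hw : Cor v w)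
    (h1 : (u.1 + u.2) % 2 = pr c) (h2 : (w.1 + w.2) % 2 = pr c) (hne : u ≠ w) : PStep F u w :=
  step_of_corners (m := v.1) (n := v.2) (e := pr c) hv hu.1 hu.2 hw.1 hw.2 h1 h2 hne

theorem par_CT {U : Finset (ℤ × ℤ)} {ω : Cfg} (hT : Par c T) : Par c (CT c U T ω) := by
  rintro t ⟨s, hs, hst⟩
  rw [← hT s hs]
  exact hst.parity.symm

/-- The cluster set is closed under steps. -/
theorem CT_closed {U : Finset (ℤ × ℤ)} {ω : Cfg} (hT : Par c T) {v k u : ℤ × ℤ} (hv : v ∈ U)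
    (hvc : ω v = c) (hk : k ∈ CT c U T ω) (hkv : Cor v k) (hu : Cor v u)
    (hup : (u.1 + u.2) % 2 = pr c) : u ∈ CT c U T ω := by
  by_cases hne : k = u
  · exact hne ▸ hk
  · obtain ⟨s, hs, hsk⟩ := id hk
    exact ⟨s, hs, hsk.tail (step_pr (F := Oc c U ω) ⟨hv, hvc⟩ hkv hu (par_CT hT k hk) hup hne)⟩

theorem CT_congr {U : Finset (ℤ × ℤ)} {ω ω' : Cfg}
    (h : ∀ v, v ∉ rest U (CT c U T ω) → ω v = ω' v) : CT c U T ω' = CT c U T ω := by
  have key : ∀ v, v ∈ U → (∃ u ∈ CT c U T ω, Cor v u) → ω v = ω' v := by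
    intro v hv ⟨u, hu, hc⟩
    exact h v fun h2 => (mem_rest.1 h2).2 u hu hc
  apply Set.Subset.antisymm
  · rintro t ⟨s, hs, hst⟩
    refine ⟨s, hs, ?_⟩
    induction hst with
    | refl => exact ReflTransGen.refl
    | @tail a b _ hab ih =>
      have h3 := hab.2.2
      have h4 := key _ h3.1 ⟨a, ⟨s, hs, ih⟩, (cor_of_step hab).1⟩
      exact ih.tail ⟨hab.1, hab.2.1, h3.1, by rw [h4]; exact h3.2⟩
  · rintro t ⟨s, hs, hst⟩
    refine ⟨s, hs, ?_⟩
    induction hst with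
    | refl => exact ReflTransGen.refl
    | @tail a b hsa hab ih =>
      have h3 := hab.2.2
      have h4 := key _ h3.1 ⟨a, ⟨s, hs, hsa⟩, (cor_of_step hab).1⟩
      exact ih.tail ⟨hab.1, hab.2.1, h3.1, by rw [← h4]; exact h3.2⟩

theorem ind_CT {U : Finset (ℤ × ℤ)} (K : Set (ℤ × ℤ)) :
    Ind (rest U K) ({ω | CT c U T ω = K}.indicator 1) := by
  have key : ∀ ω ω' : Cfg, (∀ v, v ∉ rest U K → ω v = ω' v) → CT c U T ω = K → CT c U T ω' = K := by
    intro ω ω' h h1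
    rw [CT_congr (c := c) (U := U) (T := T) (ω := ω) (ω' := ω') (by rw [h1]; exact h), h1]
  intro ω ω' h
  by_cases h1 : CT c U T ω = K
  · have h2 := key ω ω' h h1
    rw [Set.indicator_of_mem (show ω ∈ {ω | CT c U T ω = K} from h1),
      Set.indicator_of_mem (show ω' ∈ {ω | CT c U T ω = K} from h2)]
    rfl
  · have h2 : ¬ CT c U T ω' = K := fun h2 => h1 (key ω' ω (fun v hv => (h v hv).symm) h2)
    rw [Set.indicator_of_notMem (show ω ∉ {ω | CT c U T ω = K} from h1),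
      Set.indicator_of_notMem (show ω' ∉ {ω | CT c U T ω = K} from h2)]

/-! ### Painting -/

theorem kill_eq (c : Bool) (B : Finset (ℤ × ℤ)) (ω : Cfg) :
    kill c B ω = cf B ω (if c = true then ∅ else B) := by
  funext v
  by_cases hv : v ∈ B
  · rw [kill_in hv]
    cases c <;> simp [cf, hv]
  · rw [kill_out hv, cf_out hv]

theorem good_kill {ω : Cfg} (h : Good ω) : Good (kill c B ω) := by
  rw [kill_eq]
  exact f_good.1 _ _ _ h

theorem kill_ne {ω : Cfg} {v : ℤ × ℤ} (h : kill c B ω v = c) : v ∉ B ∧ ω v = c := by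
  by_cases hv : v ∈ B
  · rw [kill_in hv] at h
    cases c <;> simp at h
  · rw [kill_out hv] at h
    exact ⟨hv, h⟩

open Classical in
/-- The function `F` of the squares of `A`, the other squares as in `ζ`. -/
noncomputable def plug (A : Finset (ℤ × ℤ)) (ζ : Cfg) (F : Cfg → ℝ) : Cfg → ℝ :=
  fun ω => F fun v => if v ∈ A then ω v else ζ v

theorem plug_mon (hF : MonC c F) : MonC c (plug A ζ F) := by
  intro ω ω' h
  refine hF _ _ fun v hv => ?_
  by_cases hvA : v ∈ A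
  · simp only [hvA, if_true] at hv ⊢
    exact h v hv
  · simp only [hvA, if_false] at hv ⊢
    exact hv

theorem plug_loc : Loc A (plug A ζ F) := by
  intro ω ω' h
  unfold plug
  congr 1
  funext v
  by_cases hvA : v ∈ A
  · simp only [hvA, if_true]
    exact h v hvA
  · simp only [hvA, if_false]

theorem plug_eq (S : Finset (ℤ × ℤ)) : plug A ζ F (cf A ζ S) = F (cf A ζ S) := by
  unfold plug
  congr 1
  funext v
  by_cases hvA : v ∈ A
  · simp only [hvA, if_true]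
  · simp only [hvA, if_false, cf_out hvA]

/-- **Comparison, colour `c`**: only the outside counts. -/
theorem comp_c (hQ : 1 ≤ Q) (hζ : Good ζ) (hη : Good η) (h : ∀ v, v ∉ A → ζ v = c → η v = c)
    (hF : MonC c F) : Ex Q A ζ F ≤ Ex Q A η F := by
  have hQ0 : 0 < Q := by linarith
  have h1 : Ex Q A ζ F = Ex Q A ζ (plug A ζ F) := Ex_congr fun S _ => (plug_eq S).symm
  rw [h1]
  refine (comp2c hQ c hζ hη ?_ (plug_mon hF) plug_loc).trans ?_
  · intro S a u v _ _ _ _ _ hp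
    refine hp.mono fun q hq => ?_
    have hq' : cf A ζ S q = c := hq
    show cf A η S q = c
    by_cases hqA : q ∈ A
    · rw [H519.cf_in hqA] at hq' ⊢
      exact hq'
    · rw [cf_out hqA] at hq' ⊢
      exact h q hqA hq'
  · refine Ex_mono hQ0 fun S _ => ?_
    refine hF _ _ fun v hv => ?_
    by_cases hvA : v ∈ A
    · simp only [hvA, if_true] at hv
      exact hv
    · simp only [hvA, if_false] at hv
      rw [cf_out hvA]
      exact h v hvA hv

/-! ### The path lemma -/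

theorem path_rest {ω : Cfg} (hT : Par c T) (hω : ∀ v, v ∉ D → ω v = η v)
    (hW : ∀ y ∈ CT c D T ω, ∀ z ∈ CT c D T ω, Bd c D η y → Bd c D η z → Pw (Ou c D η) y z)
    (S : Finset (ℤ × ℤ)) {u : ℤ × ℤ} (hu : u ∉ CT c D T ω) (hup : (u.1 + u.2) % 2 = pr c)
    {w : ℤ × ℤ} (h : Pw (cs c (cf (rest D (CT c D T ω)) ω S)) u w) :
    (w ∉ CT c D T ω ∧
      Pw (cs c (cf (rest D (CT c D T ω)) (kill c (FKA.nb D (CT c D T ω)) η) S)) u w) ∨
    (w ∈ CT c D T ω ∧ ∃ y ∈ CT c D T ω, Bd c D η y ∧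
      Pw (cs c (cf (rest D (CT c D T ω)) (kill c (FKA.nb D (CT c D T ω)) η) S)) u y) := by
  set K := CT c D T ω with hK
  set A := rest D K with hA
  set ζ := kill c (FKA.nb D K) η with hζ
  have hAD : ∀ v, v ∈ A → v ∈ D := fun v hv => (mem_rest.1 hv).1
  have hout : ∀ v, v ∉ D → cf A ζ S v = η v := by
    intro v hv
    rw [cf_out fun h => hv (hAD v h), hζ, kill_out fun h => hv (mem_nb.1 h).1]
  have hlift : ∀ y z, Pw (Ou c D η) y z → Pw (cs c (cf A ζ S)) y z := by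
    intro y z h
    refine h.mono ?_
    rintro q ⟨hq, hqc⟩
    show cf A ζ S q = c
    rw [hout q hq, hqc]
  induction h with
  | refl => exact Or.inl ⟨hu, ReflTransGen.refl⟩
  | @tail x y hx hxy ih =>
    obtain ⟨q, hq⟩ : ∃ q : ℤ × ℤ, q = (min x.1 y.1, min x.2 y.2) := ⟨_, rfl⟩
    have hcor := cor_of_step hxy
    have hcol : cf A ω S q = c := by rw [hq]; exact hxy.2.2
    rw [← hq] at hcor
    have hxp : (x.1 + x.2) % 2 = pr c := by rw [← hup]; exact (Pw.parity hx).symm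
    have hyp : (y.1 + y.2) % 2 = pr c := by rw [← hup]; exact (Pw.parity (hx.tail hxy)).symm
    have hstep : cf A ζ S q = c → PStep (cs c (cf A ζ S)) x y := by
      intro h
      refine ⟨hxy.1, hxy.2.1, ?_⟩
      rw [← hq]
      exact h
    by_cases hqD : q ∈ D
    · by_cases hqA : q ∈ A
      · -- a square of the rest
        have hyK : y ∉ K := fun h => (mem_rest.1 hqA).2 y h hcor.2
        have hxK : x ∉ K := fun h => (mem_rest.1 hqA).2 x h hcor.1
        rcases ih with ⟨_, h1⟩ | ⟨h1, _⟩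
        · refine Or.inl ⟨hyK, h1.tail (hstep ?_)⟩
          rw [H519.cf_in hqA] at hcol ⊢
          exact hcol
        · exact absurd h1 hxK
      · -- an explored square
        rw [cf_out hqA] at hcol
        have hnb : ∃ k ∈ K, Cor q k := by
          by_contra h
          push Not at h
          exact hqA (mem_rest.2 ⟨hqD, h⟩)
        obtain ⟨k, hk, hkq⟩ := hnb
        have hxK : x ∈ K := CT_closed hT hqD hcol hk hkq hcor.1 hxp
        have hyK : y ∈ K := CT_closed hT hqD hcol hk hkq hcor.2 hyp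
        rcases ih with ⟨h1, _⟩ | ⟨_, h1⟩
        · exact absurd hxK h1
        · exact Or.inr ⟨hyK, h1⟩
    · -- an outside square
      have hqA : q ∉ A := fun h => hqD (hAD q h)
      rw [cf_out hqA, hω q hqD] at hcol
      have hst := hstep (by rw [hout q hqD]; exact hcol)
      have hbx : Bd c D η x := ⟨q, hqD, hcol, hcor.1⟩
      have hby : Bd c D η y := ⟨q, hqD, hcol, hcor.2⟩
      have hpath : Pw (cs c (cf A ζ S)) u y := by
        rcases ih with ⟨_, h1⟩ | ⟨hxK, z, hz, hbz, h1⟩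
        · exact h1.tail hst
        · exact (h1.trans (hlift z x (hW z hz x hxK hbz hbx))).tail hst
      by_cases hyK : y ∈ K
      · exact Or.inr ⟨hyK, y, hyK, hby, hpath⟩
      · exact Or.inl ⟨hyK, hpath⟩

/-! ### Freezing -/

theorem ind_eq_zero {ω : Cfg} {E : Set Cfg} (h : ω ∉ E) (x : ℝ) : E.indicator 1 ω * x = 0 := by
  rw [Set.indicator_of_notMem h, zero_mul]

theorem ind_mul_le {ω : Cfg} {E : Set Cfg} {x y : ℝ} (h : ω ∈ E → x ≤ y) :
    E.indicator 1 ω * x ≤ E.indicator 1 ω * y := by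
  by_cases hE : ω ∈ E
  · exact mul_le_mul_of_nonneg_left (h hE) (ind_nonneg _ _)
  · rw [ind_eq_zero hE, ind_eq_zero hE]

/-- Freezing squares with the colour `!c` decreases the functions which are increasing in the colour
`c`. -/
theorem inf_up (hQ : 1 ≤ Q) (hη : Good η) (hF : MonC c F) :
    Ex Q (D \ B) (kill c B η) F ≤ Ex Q D η F := by
  have hQ0 : 0 < Q := by linarith
  rw [f_markov Q (D \ B) D η F hQ0 Finset.sdiff_subset hη,
    ← Ex_const (Q := Q) (D := D) (η := η) hQ0 (Ex Q (D \ B) (kill c B η) F)]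
  refine Ex_mono hQ0 fun S _ => comp_c hQ (good_kill hη) (f_good.1 D η S hη) (fun v hv hvc => ?_) hF
  obtain ⟨hvB, h1⟩ := kill_ne hvc
  rw [cf_out fun h => hv (Finset.mem_sdiff.2 ⟨h, hvB⟩)]
  exact h1

/-- **Freezing squares with the colour `!c`, lower bound.** -/
theorem inf_lo (hQ : 1 ≤ Q) (hη : Good η) (hT : Par c T) (hBD : B ⊆ D)
    (hBT : ∀ v ∈ B, ∀ u : ℤ × ℤ, (u.1 + u.2) % 2 = pr c → Cor v u → u ∈ T)
    (hW : ∀ K, P K → ∀ y ∈ K, ∀ z ∈ K, Bd c D η y → Bd c D η z → Pw (Ou c D η) y z)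
    (hF : MonC c F) (hP : ∀ ω, (∀ v, v ∉ D → ω v = η v) → P (CT c D T ω) →
      F ω ≤ F (kill c (FKA.nb D (CT c D T ω)) ω)) :
    Ex Q D η (fun ω => {ω | P (CT c D T ω)}.indicator 1 ω * F ω) ≤
      Ex Q D η (fun ω => {ω | P (CT c D T ω)}.indicator 1 ω * Ex Q (D \ B) (kill c B η) F) := by
  classical
  have hQ0 : 0 < Q := by linarith
  rw [Ex_split (α := Set (ℤ × ℤ)) (CT c D T)
      (fun ω => {ω | P (CT c D T ω)}.indicator 1 ω * F ω),
    Ex_split (α := Set (ℤ × ℤ)) (CT c D T)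
      (fun ω => {ω | P (CT c D T ω)}.indicator 1 ω * Ex Q (D \ B) (kill c B η) F)]
  refine Finset.sum_le_sum fun K _ => ?_
  by_cases hPK : P K
  · have hc : ∀ (G : Cfg → ℝ), Ex Q D η (fun ω => {ω | CT c D T ω = K}.indicator 1 ω *
        ({ω | P (CT c D T ω)}.indicator 1 ω * G ω)) =
        Ex Q D η (fun ω => {ω | CT c D T ω = K}.indicator 1 ω * G ω) := by
      intro G
      refine Ex_congr fun S _ => ?_
      by_cases hk : CT c D T (cf D η S) = K
      · have : cf D η S ∈ {ω | P (CT c D T ω)} := by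
          show P (CT c D T (cf D η S))
          rw [hk]
          exact hPK
        rw [Set.indicator_of_mem this, Pi.one_apply, one_mul]
      · rw [ind_eq_zero hk, ind_eq_zero hk]
    rw [hc F, hc fun _ => Ex Q (D \ B) (kill c B η) F]
    have hrD : rest D K ⊆ D := fun v hv => (mem_rest.1 hv).1
    rw [markov f_markov hQ0 hrD hη (F := F) (ind_CT K)]
    refine Ex_mono hQ0 fun S _ => ind_mul_le fun hk => ?_
    replace hk : CT c D T (cf D η S) = K := hk
    set ω := cf D η S with hω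
    have hgood : Good ω := f_good.1 D η S hη
    have hωη : ∀ v, v ∉ D → ω v = η v := fun v hv => cf_out hv
    set A := rest D K with hA
    set ζ := kill c (FKA.nb D K) η with hζ
    have hgζ : Good ζ := good_kill hη
    have hTK : T ⊆ K := by
      intro t ht
      rw [← hk]
      exact ⟨t, ht, ReflTransGen.refl⟩
    -- the function does not see the explored squares
    have h1 : Ex Q A ω F ≤ Ex Q A ω (plug A ζ F) := by
      refine Ex_mono hQ0 fun S' _ => ?_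
      have h2 : CT c D T (cf A ω S') = K := by
        rw [CT_congr (ω := ω) (fun v hv => ?_), hk]
        rw [hk] at hv
        rw [cf_out hv]
      have h3 := hP (cf A ω S') (fun v hv => by
        rw [cf_out fun h => hv (hrD h)]; exact hωη v hv) (by rw [h2]; exact hPK)
      rw [h2] at h3
      refine h3.trans (le_of_eq ?_)
      unfold plug
      congr 1
      funext v
      by_cases hvA : v ∈ A
      · simp only [hvA, if_true]
        exact kill_out fun h => (mem_rest.1 hvA).2 _ (mem_nb.1 h).2.choose_spec.1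
          (mem_nb.1 h).2.choose_spec.2
      · simp only [hvA, if_false]
        by_cases hvN : v ∈ FKA.nb D K
        · rw [kill_in hvN, hζ, kill_in hvN]
        · rw [kill_out hvN, cf_out hvA, hζ, kill_out hvN]
          refine hωη v fun hvD => hvA (mem_rest.2 ⟨hvD, fun u hu hc' => hvN ?_⟩)
          exact mem_nb.2 ⟨hvD, u, hu, hc'⟩
    -- the explored squares get the colour `!c`
    have h2 : Ex Q A ω (plug A ζ F) ≤ Ex Q A ζ (plug A ζ F) := by
      refine comp2c hQ c hgood hgζ ?_ (plug_mon hF) plug_loc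
      intro S' a u v ha hau hav hu hv hp
      have huK : u ∉ CT c D T ω := by
        rw [hk]
        exact fun h => (mem_rest.1 ha).2 u h hau
      have hvK : v ∉ CT c D T ω := by
        rw [hk]
        exact fun h => (mem_rest.1 ha).2 v h hav
      have h3 := path_rest (ω := ω) hT hωη (by rw [hk]; exact hW K hPK) S' huK hu
        (w := v) (by rw [hk]; exact hp)
      rw [hk] at h3 hvK
      rcases h3 with ⟨_, h3⟩ | ⟨h3, _⟩
      · exact h3
      · exact absurd h3 hvK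
    have h3 : Ex Q A ζ (plug A ζ F) = Ex Q A ζ F := Ex_congr fun S' _ => plug_eq S'
    -- comparison with the domain without `B`
    have hAB : A ⊆ D \ B := by
      intro v hv
      refine Finset.mem_sdiff.2 ⟨hrD hv, fun hvB => ?_⟩
      obtain ⟨u, hu, hvu⟩ : ∃ u : ℤ × ℤ, (u.1 + u.2) % 2 = pr c ∧ Cor v u := by
        rcases Int.emod_two_eq (v.1 + v.2) with h | h <;> rcases pr_or c with h' | h'
        · exact ⟨v, by rw [h, h'], Or.inl rfl, Or.inl rfl⟩
        · exact ⟨(v.1 + 1, v.2), by rw [h']; dsimp only; omega, Or.inr rfl, Or.inl rfl⟩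
        · exact ⟨(v.1 + 1, v.2), by rw [h']; dsimp only; omega, Or.inr rfl, Or.inl rfl⟩
        · exact ⟨v, by rw [h, h'], Or.inl rfl, Or.inl rfl⟩
      exact (mem_rest.1 hv).2 u (hTK (hBT v hvB u hu hvu)) hvu
    have h4 : Ex Q A ζ F ≤ Ex Q (D \ B) (kill c B η) F := by
      rw [f_markov Q A (D \ B) (kill c B η) F hQ0 hAB (good_kill hη),
        ← Ex_const (Q := Q) (D := D \ B) (η := kill c B η) hQ0 (Ex Q A ζ F)]
      refine Ex_mono hQ0 fun S' _ => comp_c hQ hgζ (f_good.1 _ _ S' (good_kill hη))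
        (fun v hv hvc => ?_) hF
      obtain ⟨hvN, hvη⟩ := kill_ne hvc
      have hvD : v ∉ D := fun hvD => hv (mem_rest.2 ⟨hvD, fun u hu hc' => hvN
        (mem_nb.2 ⟨hvD, u, hu, hc'⟩)⟩)
      rw [cf_out fun h => hvD (Finset.mem_sdiff.1 h).1, kill_out fun h => hvD (hBD h)]
      exact hvη
    calc Ex Q A ω F ≤ Ex Q A ω (plug A ζ F) := h1
      _ ≤ Ex Q A ζ (plug A ζ F) := h2
      _ = Ex Q A ζ F := h3
      _ ≤ _ := h4
  · have hz : ∀ (G : Cfg → ℝ), Ex Q D η (fun ω => {ω | CT c D T ω = K}.indicator 1 ω *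
        ({ω | P (CT c D T ω)}.indicator 1 ω * G ω)) = 0 := by
      intro G
      rw [Ex_congr (G := fun _ => 0), Ex_const hQ0]
      intro S _
      by_cases hk : CT c D T (cf D η S) = K
      · have : cf D η S ∉ {ω | P (CT c D T ω)} := by
          show ¬ P (CT c D T (cf D η S))
          rw [hk]
          exact hPK
        rw [ind_eq_zero this, mul_zero]
      · rw [ind_eq_zero hk]
    rw [hz F, hz fun _ => Ex Q (D \ B) (kill c B η) F]

/-! ### Functions which are increasing outside of a set of squares -/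

/-- Increasing in the colour `c` off the squares `V`. -/
def MonOff (c : Bool) (V : Finset (ℤ × ℤ)) (H : Cfg → ℝ) : Prop :=
  ∀ ω ω' : Cfg, (∀ v ∈ V, ω v = ω' v) → (∀ v, ω v = c → ω' v = c) → H ω ≤ H ω'

open Classical in
/-- The configuration `ω` in `V`, and `τ` outside. -/
noncomputable def ov (V : Finset (ℤ × ℤ)) (ω τ : Cfg) : Cfg := fun v => if v ∈ V then ω v else τ v

theorem ov_in {ω τ : Cfg} {v : ℤ × ℤ} (h : v ∈ V) : ov V ω τ v = ω v := by
  unfold ov; exact if_pos h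

theorem ov_out {ω τ : Cfg} {v : ℤ × ℤ} (h : v ∉ V) : ov V ω τ v = τ v := by
  unfold ov; exact if_neg h

theorem ov_eq {ω τ : Cfg} (h : ∀ v ∈ V, τ v = ω v) : ov V ω τ = τ := by
  funext v
  by_cases hv : v ∈ V
  · rw [ov_in hv, h v hv]
  · rw [ov_out hv]

theorem mon_ov (hH : MonOff c V H) (ω : Cfg) : MonC c (fun τ => H (ov V ω τ)) := by
  intro τ τ' h
  refine hH _ _ (fun v hv => by rw [ov_in hv, ov_in hv]) fun v hvc => ?_
  by_cases hv : v ∈ V
  · rw [ov_in hv] at hvc ⊢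
    exact hvc
  · rw [ov_out hv] at hvc ⊢
    exact h v hvc

/-- The conditional expectation, with the squares `V` fixed, after freezing. -/
noncomputable def cond (Q : ℝ) (c : Bool) (D B V : Finset (ℤ × ℤ)) (η : Cfg) (H : Cfg → ℝ) :
    Cfg → ℝ := fun τ => Ex Q ((D \ V) \ B) (ov V τ (kill c B η)) H

theorem cond_loc : Loc V (cond Q c D B V η H) := by
  intro τ τ' h
  unfold cond
  congr 1
  funext v
  by_cases hv : v ∈ V
  · rw [ov_in hv, ov_in hv, h v hv]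
  · rw [ov_out hv, ov_out hv]

theorem cond_nonneg (hQ : 0 < Q) (hH0 : ∀ ω, 0 ≤ H ω) (τ : Cfg) : 0 ≤ cond Q c D B V η H τ :=
  Ex_nonneg hQ fun _ _ => hH0 _

/-- The expectation after freezing. -/
theorem ex_cond (hQ : 0 < Q) (hη : Good η) :
    Ex Q (D \ B) (kill c B η) (cond Q c D B V η H) = Ex Q (D \ B) (kill c B η) H := by
  rw [f_markov Q ((D \ V) \ B) (D \ B) (kill c B η) H hQ (fun v hv => Finset.mem_sdiff.2
    ⟨(Finset.mem_sdiff.1 (Finset.mem_sdiff.1 hv).1).1, (Finset.mem_sdiff.1 hv).2⟩) (good_kill hη)]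
  refine Ex_congr fun S _ => ?_
  refine Ex_out (fun v hv => ?_) _
  by_cases hvV : v ∈ V
  · rw [ov_in hvV]
  · rw [ov_out hvV]
    refine (cf_out fun h => hv ?_).symm
    obtain ⟨h1, h2⟩ := Finset.mem_sdiff.1 h
    exact Finset.mem_sdiff.2 ⟨Finset.mem_sdiff.2 ⟨h1, hvV⟩, h2⟩

theorem cond_eq (hVB : Disjoint V B) {ω : Cfg} (hω : ∀ v, v ∉ D → ω v = η v) :
    cond Q c D B V η H ω = Ex Q ((D \ V) \ B) (kill c B ω) (fun τ => H (ov V ω τ)) := by
  have h1 : ∀ v, v ∉ (D \ V) \ B → ov V ω (kill c B η) v = kill c B ω v := by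
    intro v hv
    by_cases hvV : v ∈ V
    · rw [ov_in hvV, kill_out (Finset.disjoint_left.1 hVB hvV)]
    · rw [ov_out hvV]
      by_cases hvB : v ∈ B
      · rw [kill_in hvB, kill_in hvB]
      · rw [kill_out hvB, kill_out hvB]
        refine (hω v fun h => hv ?_).symm
        exact Finset.mem_sdiff.2 ⟨Finset.mem_sdiff.2 ⟨h, hvV⟩, hvB⟩
  unfold cond
  rw [Ex_out h1]
  refine Ex_congr fun S _ => ?_
  rw [ov_eq]
  intro v hv
  rw [cf_out fun h => (Finset.mem_sdiff.1 (Finset.mem_sdiff.1 h).1).2 hv,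
    kill_out (Finset.disjoint_left.1 hVB hv)]

theorem ex_ov {ω : Cfg} (E : Cfg → ℝ) :
    Ex Q (D \ V) ω (fun τ => E τ * H τ) = Ex Q (D \ V) ω (fun τ => E τ * H (ov V ω τ)) := by
  refine Ex_congr fun S _ => ?_
  rw [ov_eq]
  intro v hv
  rw [cf_out fun h => (Finset.mem_sdiff.1 h).2 hv]

/-- **Freezing, functions increasing outside of `V`, lower bound.** -/
theorem inf_box_lo (hQ : 1 ≤ Q) (hη : Good η) (hT : Par c T) (hBD : B ⊆ D) (hVB : Disjoint V B)
    (hBT : ∀ v ∈ B, ∀ u : ℤ × ℤ, (u.1 + u.2) % 2 = pr c → Cor v u → u ∈ T)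
    (hPV : ∀ K, P K → ∀ y ∈ K, ∀ v ∈ V, ¬ Cor v y)
    (hW : ∀ K, P K → ∀ y ∈ K, ∀ z ∈ K, Bd c D η y → Bd c D η z → Pw (Ou c D η) y z)
    (hH0 : ∀ ω, 0 ≤ H ω) (hH : MonOff c V H)
    (hP : ∀ ω, (∀ v, v ∉ D → ω v = η v) → P (CT c (D \ V) T ω) →
      H ω ≤ H (kill c (FKA.nb (D \ V) (CT c (D \ V) T ω)) ω)) {ε : ℝ}
    (hmix : ∀ G : Cfg → ℝ, (∀ ω, 0 ≤ G ω) → Loc V G →
      Ex Q D η G ≤ (1 + ε) * Ex Q (D \ B) (kill c B η) G) :
    Ex Q D η (fun ω => {ω | P (CT c (D \ V) T ω)}.indicator 1 ω * H ω) ≤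
      (1 + ε) * Ex Q (D \ B) (kill c B η) H := by
  have hQ0 : 0 < Q := by linarith
  have h1 := hmix (cond Q c D B V η H) (cond_nonneg hQ0 hH0) cond_loc
  rw [ex_cond hQ0 hη] at h1
  refine le_trans ?_ h1
  rw [f_markov Q (D \ V) D η _ hQ0 Finset.sdiff_subset hη]
  refine Ex_mono hQ0 fun S _ => ?_
  set ω := cf D η S with hωd
  have hgood : Good ω := f_good.1 D η S hη
  have hω : ∀ v, v ∉ D → ω v = η v := fun v hv => cf_out hv
  have hBV : B ⊆ D \ V := fun v hv =>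
    Finset.mem_sdiff.2 ⟨hBD hv, fun h => Finset.disjoint_left.1 hVB h hv⟩
  rw [ex_ov (fun τ => {ω | P (CT c (D \ V) T ω)}.indicator 1 τ), cond_eq hVB hω]
  refine (inf_lo (P := P) hQ hgood hT hBV hBT ?_ (mon_ov hH ω) ?_).trans ?_
  · intro K hK y hy z hz hby hbz
    have hbd : ∀ y ∈ K, Bd c (D \ V) ω y → Bd c D η y := by
      rintro y hy ⟨o, ho, hoc, hoy⟩
      have hoV : o ∉ V := fun h => hPV K hK y hy o h hoy
      have hoD : o ∉ D := fun h => ho (Finset.mem_sdiff.2 ⟨h, hoV⟩)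
      exact ⟨o, hoD, by rw [← hω o hoD]; exact hoc, hoy⟩
    refine (hW K hK y hy z hz (hbd y hy hby) (hbd z hz hbz)).mono ?_
    rintro v ⟨hv, hvc⟩
    exact ⟨fun h => hv (Finset.mem_sdiff.1 h).1, by rw [hω v hv]; exact hvc⟩
  · intro τ hτ hPτ
    have h2 : ∀ v ∈ V, τ v = ω v := fun v hv => hτ v fun h => (Finset.mem_sdiff.1 h).2 hv
    have h3 := hP τ (fun v hv => by
      rw [hτ v fun h => hv (Finset.mem_sdiff.1 h).1]; exact hω v hv) hPτ
    show H (ov V ω τ) ≤ H (ov V ω (kill c _ τ))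
    rw [ov_eq h2, ov_eq fun v hv => ?_]
    · exact h3
    · rw [kill_out fun h => (Finset.mem_sdiff.1 (mem_nb.1 h).1).2 hv]
      exact h2 v hv
  · rw [← Ex_const (Q := Q) (D := D \ V) (η := ω) hQ0
      (Ex Q ((D \ V) \ B) (kill c B ω) fun τ => H (ov V ω τ))]
    refine Ex_mono hQ0 fun S' _ => ?_
    rw [Ex_const hQ0]
    exact mul_le_of_le_one_left (Ex_nonneg hQ0 fun S'' _ => hH0 _) (ind_le_one _ _)

/-- **Freezing, functions increasing outside of `V`, upper bound.** -/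
theorem inf_box_up (hQ : 1 ≤ Q) (hη : Good η) (hVB : Disjoint V B)
    (hH0 : ∀ ω, 0 ≤ H ω) (hH : MonOff c V H) {ε : ℝ} (hε : 0 ≤ 1 + ε)
    (hmix : ∀ G : Cfg → ℝ, (∀ ω, 0 ≤ G ω) → Loc V G →
      Ex Q (D \ B) (kill c B η) G ≤ (1 + ε) * Ex Q D η G) :
    Ex Q (D \ B) (kill c B η) H ≤ (1 + ε) * Ex Q D η H := by
  have hQ0 : 0 < Q := by linarith
  have h1 := hmix (cond Q c D B V η H) (cond_nonneg hQ0 hH0) cond_loc
  rw [ex_cond hQ0 hη] at h1
  refine h1.trans (mul_le_mul_of_nonneg_left ?_ hε)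
  rw [f_markov Q (D \ V) D η H hQ0 Finset.sdiff_subset hη]
  refine Ex_mono hQ0 fun S _ => ?_
  have hω : ∀ v, v ∉ D → cf D η S v = η v := fun v hv => cf_out hv
  rw [cond_eq hVB hω]
  refine (inf_up hQ (f_good.1 D η S hη) (mon_ov hH _)).trans (le_of_eq ?_)
  have h2 := ex_ov (Q := Q) (D := D) (V := V) (H := H) (ω := cf D η S) (fun _ => 1)
  simp only [one_mul] at h2
  exact h2.symm

/-! ### Connections -/

/-- There is a path of colour `c` in the squares of `G` from `X` to `Y`. -/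
def Cn (c : Bool) (G X Y : Set (ℤ × ℤ)) : Set Cfg :=
  {ω | ∃ x ∈ X, ∃ y ∈ Y, Pw (cs c ω ∩ G) x y}

/-- The set of sites `K` avoids `Z`. -/
def Av (Z K : Set (ℤ × ℤ)) : Prop := ∀ y ∈ K, y ∉ Z

theorem not_av_iff {U : Finset (ℤ × ℤ)} {Z : Set (ℤ × ℤ)} {ω : Cfg} :
    ¬ Av Z (CT c U T ω) ↔ ∃ s ∈ T, ∃ z ∈ Z, Pw (Oc c U ω) s z := by
  unfold Av
  push Not
  constructor
  · rintro ⟨z, ⟨s, hs, h⟩, hz⟩
    exact ⟨s, hs, z, hz, h⟩
  · rintro ⟨s, hs, z, hz, h⟩
    exact ⟨z, ⟨s, hs, h⟩, hz⟩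

theorem cn_mono {G X Y : Set (ℤ × ℤ)} {ω ω' : Cfg} (h : ∀ v, ω v = c → ω' v = c)
    (h1 : ω ∈ Cn c G X Y) : ω' ∈ Cn c G X Y := by
  obtain ⟨x, hx, y, hy, h2⟩ := h1
  refine ⟨x, hx, y, hy, h2.mono ?_⟩
  rintro v ⟨hv, hvG⟩
  exact ⟨h v hv, hvG⟩

/-- The connections of `X` do not see the clusters which they avoid. -/
theorem cn_kill {U : Finset (ℤ × ℤ)} {G X Y : Set (ℤ × ℤ)} {ω : Cfg} (hT : Par c T)
    (hXp : Par c X) (hG : ∀ v ∈ G, v ∉ U → ∀ u ∈ CT c U T ω, ¬ Cor v u)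
    (hX : ∀ x ∈ X, x ∉ CT c U T ω) (h : ω ∈ Cn c G X Y) :
    kill c (FKA.nb U (CT c U T ω)) ω ∈ Cn c G X Y := by
  obtain ⟨x, hx, y, hy, hp⟩ := h
  have key : ∀ w, Pw (cs c ω ∩ G) x w →
      w ∉ CT c U T ω ∧ Pw (cs c (kill c (FKA.nb U (CT c U T ω)) ω) ∩ G) x w := by
    intro w hw
    induction hw with
    | refl => exact ⟨hX x hx, ReflTransGen.refl⟩
    | @tail a b ha hab ih =>
      obtain ⟨q, hq⟩ : ∃ q : ℤ × ℤ, q = (min a.1 b.1, min a.2 b.2) := ⟨_, rfl⟩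
      have hcor := cor_of_step hab
      have hcol : ω q = c := by rw [hq]; exact hab.2.2.1
      have hqG : q ∈ G := by rw [hq]; exact hab.2.2.2
      rw [← hq] at hcor
      have hap : (a.1 + a.2) % 2 = pr c := by rw [← hXp x hx]; exact (Pw.parity ha).symm
      have hqn : q ∉ FKA.nb U (CT c U T ω) := by
        intro h
        obtain ⟨hqU, k, hk, hkq⟩ := mem_nb.1 h
        exact ih.1 (CT_closed hT hqU hcol hk hkq hcor.1 hap)
      refine ⟨fun hb => ?_, ih.2.tail ⟨hab.1, hab.2.1, ?_⟩⟩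
      · by_cases hqU : q ∈ U
        · exact hqn (mem_nb.2 ⟨hqU, b, hb, hcor.2⟩)
        · exact hG q hqG hqU b hb hcor.2
      · rw [← hq]
        refine ⟨?_, hqG⟩
        show kill c _ ω q = c
        rw [kill_out hqn]
        exact hcol
  exact ⟨x, hx, y, hy, (key y hp).2⟩

/-- A nonnegative function of the squares `V` times a connection event with the source `X ω` which
depends on the squares `V`. -/
noncomputable def fcn (c : Bool) (f : Cfg → ℝ) (G : Set (ℤ × ℤ)) (X : Cfg → Set (ℤ × ℤ))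
    (Y : Set (ℤ × ℤ)) : Cfg → ℝ := fun ω => f ω * (Cn c G (X ω) Y).indicator 1 ω

variable {f : Cfg → ℝ} {G Y Z : Set (ℤ × ℤ)} {X : Cfg → Set (ℤ × ℤ)}

theorem fcn_nonneg (hf0 : ∀ ω, 0 ≤ f ω) (ω : Cfg) : 0 ≤ fcn c f G X Y ω :=
  mul_nonneg (hf0 ω) (ind_nonneg _ _)

theorem fcn_monOff (hf0 : ∀ ω, 0 ≤ f ω) (hf : Loc V f)
    (hX : ∀ ω ω' : Cfg, (∀ v ∈ V, ω v = ω' v) → X ω = X ω') : MonOff c V (fcn c f G X Y) := by
  intro ω ω' h1 h2
  unfold fcn
  rw [hf ω ω' h1, hX ω ω' h1]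
  exact mul_le_mul_of_nonneg_left (ind_imp (cn_mono h2)) (hf0 _)

/-- **Freezing and connections, lower bound.** `Z` contains the corners of the squares of `V` and
the sources; on the event that the clusters of `B` avoid `Z`. -/
theorem cn_lo (hQ : 1 ≤ Q) (hη : Good η) (hT : Par c T) (hBD : B ⊆ D) (hVB : Disjoint V B)
    (hBT : ∀ v ∈ B, ∀ u : ℤ × ℤ, (u.1 + u.2) % 2 = pr c → Cor v u → u ∈ T)
    (hVZ : ∀ v ∈ V, ∀ y : ℤ × ℤ, (y.1 + y.2) % 2 = pr c → Cor v y → y ∈ Z)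
    (hXZ : ∀ ω, X ω ⊆ Z) (hXp : ∀ ω, Par c (X ω)) (hGD : G ⊆ ↑D)
    (hW : ∀ K : Set (ℤ × ℤ), Par c K → Av Z K → ∀ y ∈ K, ∀ z ∈ K, Bd c D η y → Bd c D η z →
      Pw (Ou c D η) y z)
    (hf0 : ∀ ω, 0 ≤ f ω) (hf : Loc V f)
    (hX : ∀ ω ω' : Cfg, (∀ v ∈ V, ω v = ω' v) → X ω = X ω') {ε : ℝ}
    (hmix : ∀ G : Cfg → ℝ, (∀ ω, 0 ≤ G ω) → Loc V G →
      Ex Q D η G ≤ (1 + ε) * Ex Q (D \ B) (kill c B η) G) :
    Ex Q D η (fun ω => {ω | Av Z (CT c (D \ V) T ω)}.indicator 1 ω * fcn c f G X Y ω) ≤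
      (1 + ε) * Ex Q (D \ B) (kill c B η) (fcn c f G X Y) := by
  have e : ∀ ω, ω ∈ {ω | Av Z (CT c (D \ V) T ω)} ↔
      ω ∈ {ω | Par c (CT c (D \ V) T ω) ∧ Av Z (CT c (D \ V) T ω)} :=
    fun ω => ⟨fun h => ⟨par_CT hT, h⟩, fun h => h.2⟩
  have e2 : {ω | Av Z (CT c (D \ V) T ω)} =
      {ω | Par c (CT c (D \ V) T ω) ∧ Av Z (CT c (D \ V) T ω)} := Set.ext e
  rw [e2]
  refine inf_box_lo (P := fun K => Par c K ∧ Av Z K) hQ hη hT hBD hVB hBT ?_ ?_
    (fcn_nonneg hf0) (fcn_monOff hf0 hf hX) ?_ hmix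
  · intro K hK y hy v hv hc
    exact hK.2 y hy (hVZ v hv y (hK.1 y hy) hc)
  · exact fun K hK => hW K hK.1 hK.2
  · intro ω hω hPω
    unfold fcn
    have h1 : ∀ v ∈ V, ω v = kill c (FKA.nb (D \ V) (CT c (D \ V) T ω)) ω v := fun v hv =>
      (kill_out fun h => (Finset.mem_sdiff.1 (mem_nb.1 h).1).2 hv).symm
    rw [← hf _ _ h1, ← hX _ _ h1]
    refine mul_le_mul_of_nonneg_left (ind_imp fun h => ?_) (hf0 _)
    refine cn_kill hT (hXp ω) (fun v hv hvU u hu hc => ?_)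
      (fun x hx hxK => hPω.2 x hxK (hXZ ω hx)) h
    have hvV : v ∈ V := by
      by_contra hvV
      exact hvU (Finset.mem_sdiff.2 ⟨Finset.mem_coe.1 (hGD hv), hvV⟩)
    exact hPω.2 u hu (hVZ v hvV u (hPω.1 u hu) hc)

/-- **Freezing and connections, upper bound.** -/
theorem cn_up (hQ : 1 ≤ Q) (hη : Good η) (hVB : Disjoint V B) (hf0 : ∀ ω, 0 ≤ f ω)
    (hf : Loc V f) (hX : ∀ ω ω' : Cfg, (∀ v ∈ V, ω v = ω' v) → X ω = X ω') {ε : ℝ}
    (hε : 0 ≤ 1 + ε) (hmix : ∀ G : Cfg → ℝ, (∀ ω, 0 ≤ G ω) → Loc V G →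
      Ex Q (D \ B) (kill c B η) G ≤ (1 + ε) * Ex Q D η G) :
    Ex Q (D \ B) (kill c B η) (fcn c f G X Y) ≤ (1 + ε) * Ex Q D η (fcn c f G X Y) :=
  inf_box_up hQ hη hVB (fcn_nonneg hf0) (fcn_monOff hf0 hf hX) hε hmix

/-- **Closing form**: the loss is the expectation on the event that a path of colour `c` in `D \ V`
leads from `B` to `Z`. -/
theorem cn_close (hQ : 1 ≤ Q) (hη : Good η) (hT : Par c T) (hBD : B ⊆ D) (hVB : Disjoint V B)
    (hBT : ∀ v ∈ B, ∀ u : ℤ × ℤ, (u.1 + u.2) % 2 = pr c → Cor v u → u ∈ T)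
    (hVZ : ∀ v ∈ V, ∀ y : ℤ × ℤ, (y.1 + y.2) % 2 = pr c → Cor v y → y ∈ Z)
    (hXZ : ∀ ω, X ω ⊆ Z) (hXp : ∀ ω, Par c (X ω)) (hGD : G ⊆ ↑D)
    (hW : ∀ K : Set (ℤ × ℤ), Par c K → Av Z K → ∀ y ∈ K, ∀ z ∈ K, Bd c D η y → Bd c D η z →
      Pw (Ou c D η) y z)
    (hf0 : ∀ ω, 0 ≤ f ω) (hf : Loc V f)
    (hX : ∀ ω ω' : Cfg, (∀ v ∈ V, ω v = ω' v) → X ω = X ω') {ε : ℝ}
    (hmix : ∀ G : Cfg → ℝ, (∀ ω, 0 ≤ G ω) → Loc V G →
      Ex Q D η G ≤ (1 + ε) * Ex Q (D \ B) (kill c B η) G) :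
    Ex Q D η (fcn c f G X Y) ≤ (1 + ε) * Ex Q (D \ B) (kill c B η) (fcn c f G X Y) +
      Ex Q D η (fun ω => {ω | ∃ s ∈ T, ∃ z ∈ Z, Pw (Oc c (D \ V) ω) s z}.indicator 1 ω *
        fcn c f G X Y ω) := by
  have h1 := cn_lo (Y := Y) hQ hη hT hBD hVB hBT hVZ hXZ hXp hGD hW hf0 hf hX hmix
  have h2 : Ex Q D η (fcn c f G X Y) =
      Ex Q D η (fun ω => {ω | Av Z (CT c (D \ V) T ω)}.indicator 1 ω * fcn c f G X Y ω +
        {ω | ∃ s ∈ T, ∃ z ∈ Z, Pw (Oc c (D \ V) ω) s z}.indicator 1 ω * fcn c f G X Y ω) := by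
    refine Ex_congr fun S _ => ?_
    have h3 : {ω | ∃ s ∈ T, ∃ z ∈ Z, Pw (Oc c (D \ V) ω) s z} =
        {ω | Av Z (CT c (D \ V) T ω)}ᶜ := Set.ext fun ω => not_av_iff.symm
    rw [h3, ind_compl]
    ring
  rw [h2, Ex_add]
  linarith

end Vale.Agent.P167.H542.Q.Inf
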