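import Vale.Agent.P167.H562.Q.SM3
import Vale.Agent.P167.H542.Sm3
import Vale.Agent.P167.FK.Sym

/-!
# P167, general `q`, block Q-M2: the plane measure is invariant under translations (odd ones with a
colour flip), means of the sums over the small loops
-/

open Finset MeasureTheory Filter Topology

namespace Vale.Agent.P167.H542.Q

open Vale.Agent.P167 Vale.Agent.P167.FK Vale.Agent.P167.H542
open Vale.Agent.P167.H519 (IsLim loc_cont Bq_mono exists_Bq)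
open Vale.Agent.P167.FKA (Loc)
open Vale.Agent.P167.H562.GL (loc_integrable Loc.meas)
open Vale.Agent.P167.H562.SML (smf mem_smf)
open Vale.Agent.P167.H45 (vs_nonempty box_fin nm_add_le)

variable {Q : ℝ} {P : Measure Cfg}

/-- Two finite-volume limits of the same quantity agree. -/
theorem lim_eq (hP : IsLim Q P) {B B' : Finset (ℤ × ℤ)} {F F' : Cfg → ℝ} (hF : Loc B F)
    (hF' : Loc B' F')
    (h : ∀ R : ℤ, ∃ (D D' : Finset (ℤ × ℤ)) (η η' : Cfg), Bq 0 R ⊆ D ∧ Bq 0 R ⊆ D' ∧ Good η ∧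
      Good η' ∧ Ex Q D η F = Ex Q D' η' F') :
    ∫ ω, F ω ∂P = ∫ ω, F' ω ∂P := by
  refine eq_of_forall_dist_le fun ε hε => ?_
  obtain ⟨R1, h1⟩ := hP.2 B F hF (ε / 2) (by positivity)
  obtain ⟨R2, h2⟩ := hP.2 B' F' hF' (ε / 2) (by positivity)
  obtain ⟨D, D', η, η', hD, hD', hη, hη', he⟩ := h (max R1 R2)
  have h3 := h1 D η ((Bq_mono (le_max_left _ _)).trans hD) hη
  have h4 := h2 D' η' ((Bq_mono (le_max_right _ _)).trans hD') hη'
  rw [he] at h3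
  rw [Real.dist_eq]
  rw [abs_le] at h3 h4 ⊢
  constructor <;> linarith [h3.1, h3.2, h4.1, h4.2]

theorem mem_Bq0 {R : ℤ} {v : ℤ × ℤ} : v ∈ Bq 0 R ↔ (-R ≤ v.1 ∧ v.1 < R) ∧ -R ≤ v.2 ∧ v.2 < R := by
  simp only [Bq, Finset.mem_product, Finset.mem_Ico, Prod.fst_zero, Prod.snd_zero, zero_sub,
    zero_add]

/-- Invariance under the odd translation `(1, 0)` with a colour flip. -/
theorem inv_du (hQ : 0 < Q) (hP : IsLim Q P) {B : Finset (ℤ × ℤ)} {F : Cfg → ℝ} (hF : Loc B F) :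
    ∫ ω, F (du ω) ∂P = ∫ ω, F ω ∂P := by
  have hloc : Loc (B.image (fun v => (v.1 - 1, v.2))) (fun ω => F (du ω)) := fun ω ω' h => by
    refine hF _ _ fun v hv => ?_
    show (!(ω (v.1 - 1, v.2))) = (!(ω' (v.1 - 1, v.2)))
    rw [h _ (Finset.mem_image_of_mem _ hv)]
  refine lim_eq hP hloc hF fun R => ?_
  refine ⟨Bq 0 (|R| + 1), (Bq 0 (|R| + 1)).image (fun v => (v.1 + 1, v.2)), eta0, du eta0, ?_, ?_,
    f_good.2.1, f_dual.1 _ f_good.2.1, ?_⟩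
  · exact Bq_mono (by linarith [le_abs_self R])
  · intro v hv
    rw [mem_Bq0] at hv
    rw [Finset.mem_image]
    have := le_abs_self R
    refine ⟨(v.1 - 1, v.2), mem_Bq0.2 ?_, by simp⟩
    dsimp only
    omega
  · exact (f_dual.2 Q _ eta0 F hQ f_good.2.1).symm

/-- Invariance under the even translation `(1, 1)`. -/
theorem inv_sh (hQ : 0 < Q) (hP : IsLim Q P) {B : Finset (ℤ × ℤ)} {F : Cfg → ℝ} (hF : Loc B F) :
    ∫ ω, F (ω ∘ fun v => (v.1 + 1, v.2 + 1)) ∂P = ∫ ω, F ω ∂P := by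
  have hs := f_sym (fun v => (v.1 + 1, v.2 + 1)) (by simp [syms])
  have hloc : Loc (B.image (fun v => (v.1 + 1, v.2 + 1)))
      (fun ω => F (ω ∘ fun v => (v.1 + 1, v.2 + 1))) := fun ω ω' h => by
    refine hF _ _ fun v hv => ?_
    exact h _ (Finset.mem_image_of_mem _ hv)
  refine lim_eq hP hloc hF fun R => ?_
  refine ⟨(Bq 0 (|R| + 1)).image (fun v => (v.1 + 1, v.2 + 1)), Bq 0 (|R| + 1), eta0,
    eta0 ∘ (fun v => (v.1 + 1, v.2 + 1)), ?_, ?_, f_good.2.1, hs.1 _ f_good.2.1, ?_⟩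
  · intro v hv
    rw [mem_Bq0] at hv
    rw [Finset.mem_image]
    have := le_abs_self R
    refine ⟨(v.1 - 1, v.2 - 1), mem_Bq0.2 ?_, by simp⟩
    dsimp only
    omega
  · exact Bq_mono (by linarith [le_abs_self R])
  · exact (hs.2 Q _ eta0 F hQ f_good.2.1).symm

/-- The mean number of the small loops around a site. -/
noncomputable def NbP (P : Measure Cfg) (d : ℝ) (z : ℤ × ℤ) : ℝ := ∫ ω, (Nl d z ω : ℝ) ∂P

theorem NbP_du (hQ : 0 < Q) (hP : IsLim Q P) (d : ℝ) (z : ℤ × ℤ) :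
    NbP P d (z.1 + 1, z.2) = NbP P d z := by
  obtain ⟨F, hF⟩ := Nl_loc d (z.1 + 1, z.2)
  have h1 := inv_du hQ hP (F := fun ω => (Nl d (z.1 + 1, z.2) ω : ℝ)) (B := F)
    (fun ω ω' hw => congrArg (fun n : ℕ => (n : ℝ)) (hF ω ω' hw))
  unfold NbP
  rw [← h1]
  refine integral_congr_ae (Eventually.of_forall fun ω => ?_)
  have h2 := Nl_tC d z (1, 0) ω
  have e1 : z + (1, 0) = ((z.1 + 1, z.2) : ℤ × ℤ) := by ext <;> simp
  have e2 : tC (1, 0) ω = du ω := by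
    funext v
    simp only [tC, du]
    rw [if_neg (by simp)]
    congr 2
    ext <;> simp
  rw [e1, e2] at h2
  simp only [h2]

theorem NbP_sh (hQ : 0 < Q) (hP : IsLim Q P) (d : ℝ) (z : ℤ × ℤ) :
    NbP P d (z.1 + 1, z.2 + 1) = NbP P d z := by
  obtain ⟨F, hF⟩ := Nl_loc d z
  have h1 := inv_sh hQ hP (F := fun ω => (Nl d z ω : ℝ)) (B := F)
    (fun ω ω' hw => congrArg (fun n : ℕ => (n : ℝ)) (hF ω ω' hw))
  unfold NbP
  rw [← h1]
  refine integral_congr_ae (Eventually.of_forall fun ω => ?_)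
  have h2 := Nl_tC d (z.1 + 1, z.2 + 1) (-1, -1) ω
  have e1 : ((z.1 + 1, z.2 + 1) : ℤ × ℤ) + (-1, -1) = z := by ext <;> simp
  have e2 : tC (-1, -1) ω = ω ∘ (fun v => (v.1 + 1, v.2 + 1)) := by
    funext v
    simp only [tC, Function.comp]
    rw [if_pos (by decide)]
    congr 1
  rw [e1, e2] at h2
  simp only [h2]

theorem NbP_const (hQ : 0 < Q) (hP : IsLim Q P) (d : ℝ) (z : ℤ × ℤ) :
    NbP P d z = NbP P d 0 := by
  have key : ∀ x : ℤ, NbP P d (x, 0) = NbP P d 0 := by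
    intro x
    induction x using Int.induction_on with
    | zero => rfl
    | succ n ih => rw [← ih]; exact NbP_du hQ hP d (n, 0)
    | pred n ih =>
      rw [← ih]
      have := NbP_du hQ hP d (-(n : ℤ) - 1, 0)
      dsimp only at this
      rw [sub_add_cancel] at this
      exact this.symm
  have key2 : ∀ y x : ℤ, NbP P d (x, y) = NbP P d 0 := by
    intro y
    induction y using Int.induction_on with
    | zero => exact key
    | succ n ih =>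
      intro x
      rw [← ih (x - 1)]
      have := NbP_sh hQ hP d (x - 1, n)
      dsimp only at this
      rw [sub_add_cancel] at this
      exact this
    | pred n ih =>
      intro x
      rw [← ih (x + 1)]
      have := NbP_sh hQ hP d (x, -(n : ℤ) - 1)
      dsimp only at this
      rw [sub_add_cancel] at this
      exact this.symm
  exact key2 z.2 z.1

/-- The sum over the small loops which visit `A` as a sum over the box. -/
theorem smf_eq {B d : ℝ} {S A : Finset (ℤ × ℤ)} {g : ℤ × ℤ → ℝ} (hg : ∀ z ∉ S, g z = 0)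
    (hS : ∀ z ∈ S, (nm z : ℝ) + d ≤ B) (hA : ∀ z ∈ S, ∀ v, (nm (v - z) : ℝ) < d → v ∈ A)
    (ω : Cfg) : ∑ ℓ ∈ smf A d ω, G g ℓ = ∑ ℓ ∈ sb B d ω, G g ℓ := by
  classical
  have h0 : ∀ ℓ, (∀ z ∈ S, z ∉ ins ℓ) → G g ℓ = 0 := by
    intro ℓ h
    unfold G
    refine finsum_mem_eq_zero_of_forall_eq_zero fun z hz => ?_
    by_contra hne
    exact h z (by by_contra hcon; exact hne (hg z hcon)) hz
  have key : ∀ T : Finset (Finset Ed), (∀ ℓ, IsLoop ω ℓ → Small d ℓ → (∃ z ∈ S, z ∈ ins ℓ) →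
      ℓ ∈ T) → (∀ ℓ ∈ T, IsLoop ω ℓ ∧ Small d ℓ) →
      ∑ ℓ ∈ T, G g ℓ = ∑ ℓ ∈ T.filter (fun ℓ => ∃ z ∈ S, z ∈ ins ℓ), G g ℓ := by
    intro T _ _
    refine (Finset.sum_filter_of_ne fun ℓ _ hne => ?_).symm
    by_contra hcon
    push Not at hcon
    exact hne (h0 ℓ hcon)
  have hin1 : ∀ ℓ, IsLoop ω ℓ → Small d ℓ → (∃ z ∈ S, z ∈ ins ℓ) → ℓ ∈ smf A d ω := by
    rintro ℓ h1 h2 ⟨z, hz, hzi⟩
    obtain ⟨v, hv⟩ := vs_nonempty h1
    exact mem_smf.2 ⟨h1, ⟨v, hv, hA z hz v (near_of_ins h1 h2 hzi hv)⟩, h2⟩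
  have hin2 : ∀ ℓ, IsLoop ω ℓ → Small d ℓ → (∃ z ∈ S, z ∈ ins ℓ) → ℓ ∈ sb B d ω := by
    rintro ℓ h1 h2 ⟨z, hz, hzi⟩
    obtain ⟨v, hv⟩ := vs_nonempty h1
    refine mem_sb.2 ⟨h1, ⟨v, hv, ?_⟩, h2⟩
    have h3 := near_of_ins h1 h2 hzi hv
    have h5 : nm v ≤ nm (v - z) + nm z := by simpa using nm_add_le (v - z) z
    have h6 : (nm v : ℝ) ≤ nm (v - z) + nm z := by exact_mod_cast h5
    have := hS z hz
    linarith
  rw [key _ hin1 fun ℓ h => ⟨(mem_smf.1 h).1, (mem_smf.1 h).2.2⟩,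
    key _ hin2 fun ℓ h => ⟨(mem_sb.1 h).1, (mem_sb.1 h).2.2⟩]
  refine Finset.sum_congr ?_ fun _ _ => rfl
  ext ℓ
  rw [Finset.mem_filter, Finset.mem_filter]
  constructor
  · rintro ⟨h1, h2⟩
    exact ⟨hin2 ℓ (mem_smf.1 h1).1 (mem_smf.1 h1).2.2 h2, h2⟩
  · rintro ⟨h1, h2⟩
    exact ⟨hin1 ℓ (mem_sb.1 h1).1 (mem_sb.1 h1).2.2 h2, h2⟩

/-- The mean. -/
theorem mean_GP (hQ : 0 < Q) (hP : IsLim Q P) {B d : ℝ} {S : Finset (ℤ × ℤ)} {g : ℤ × ℤ → ℝ}
    (hg : ∀ z ∉ S, g z = 0) (hS : ∀ z ∈ S, (nm z : ℝ) + d ≤ B) :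
    ∫ ω, ∑ ℓ ∈ sb B d ω, G g ℓ ∂P = (∑ z ∈ S, g z) * NbP P d 0 := by
  have hPp : IsProbabilityMeasure P := hP.1
  simp only [sum_G_eq hg hS]
  have hint : ∀ z, Integrable (fun ω => (Nl d z ω : ℝ)) P := fun z => by
    obtain ⟨F, hF⟩ := Nl_loc d z
    exact loc_integrable (B := F) fun ω ω' hw => by
      show ((Nl d z ω : ℕ) : ℝ) = (Nl d z ω' : ℕ)
      rw [hF ω ω' hw]
  rw [integral_finsetSum _ fun z _ => (hint z).const_mul _, Finset.sum_mul]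
  refine Finset.sum_congr rfl fun z _ => ?_
  rw [integral_const_mul]
  congr 1
  exact NbP_const hQ hP d z

end Vale.Agent.P167.H542.Q
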