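import Vale.Agent.P167.H542.Wt

/-!
# P167, general `q`, block Q-M2: weights `cos (θ + t) / cos θ` with complex masses `t`
-/

namespace Vale.Agent.P167.H542.Q

open Vale.Agent.P167 Vale.Agent.P167.BR Vale.Agent.P167.H542

/-- The weight of a piece with phase `θ` and mass `t`. -/
noncomputable def wC (θ : ℝ) (t : ℂ) : ℂ := Complex.cos ((θ : ℂ) + t) / Complex.cos (θ : ℂ)

/-- Minus its derivative. -/
noncomputable def wC' (θ : ℝ) (t : ℂ) : ℂ := Complex.sin ((θ : ℂ) + t) / Complex.cos (θ : ℂ)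

theorem cos_pos_of {m : ℝ} (h0 : 0 ≤ m) (h1 : m ≤ Real.pi / 3) : 0 < Real.cos m :=
  Real.cos_pos_of_mem_Ioo ⟨by linarith [Real.pi_pos], by linarith [Real.pi_pos]⟩

theorem hasDerivAt_wC (θ : ℝ) (t : ℂ) : HasDerivAt (wC θ) (-wC' θ t) t := by
  have h : HasDerivAt (fun t : ℂ => (θ : ℂ) + t) 1 t := (hasDerivAt_id t).const_add _
  have := ((Complex.hasDerivAt_cos _).comp t h).div_const (Complex.cos (θ : ℂ))
  refine this.congr_deriv ?_
  unfold wC'
  ring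

theorem wC_zero {θ : ℝ} (h : Real.cos θ ≠ 0) : wC θ 0 = 1 := by
  unfold wC
  rw [add_zero, ← Complex.ofReal_cos]
  refine div_self ?_
  exact_mod_cast h

theorem norm_wC_le {θ c : ℝ} (hc : 0 < c) (h : c ≤ Real.cos θ) (t : ℂ) :
    ‖wC θ t‖ ≤ c⁻¹ * Real.exp |t.im| := by
  unfold wC
  rw [norm_div, ← Complex.ofReal_cos, Complex.norm_real, Real.norm_of_nonneg (hc.le.trans h)]
  have h1 := norm_cos_le ((θ : ℂ) + t)
  have e : ((θ : ℂ) + t).im = t.im := by simp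
  rw [e] at h1
  rw [div_eq_inv_mul]
  exact mul_le_mul (inv_anti₀ hc h) h1 (norm_nonneg _) (inv_nonneg.2 hc.le)

theorem norm_sin_le (z : ℂ) : ‖Complex.sin z‖ ≤ Real.exp |z.im| := by
  have h := norm_cos_le ((Real.pi / 2 : ℝ) - z)
  have e : ((Real.pi / 2 : ℝ) - z : ℂ).im = -z.im := by simp
  rw [e, abs_neg] at h
  have e2 : Complex.cos ((Real.pi / 2 : ℝ) - z) = Complex.sin z := by
    have := Complex.cos_pi_div_two_sub z
    rw [← this]
    congr 1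
    push_cast
    ring
  rwa [e2] at h

theorem norm_wC'_le {θ c : ℝ} (hc : 0 < c) (h : c ≤ Real.cos θ) (t : ℂ) :
    ‖wC' θ t‖ ≤ c⁻¹ * Real.exp |t.im| := by
  unfold wC'
  rw [norm_div, ← Complex.ofReal_cos, Complex.norm_real, Real.norm_of_nonneg (hc.le.trans h)]
  have h1 := norm_sin_le ((θ : ℂ) + t)
  have e : ((θ : ℂ) + t).im = t.im := by simp
  rw [e] at h1
  rw [div_eq_inv_mul]
  exact mul_le_mul (inv_anti₀ hc h) h1 (norm_nonneg _) (inv_nonneg.2 hc.le)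

theorem tan_nonneg {m : ℝ} (h0 : 0 ≤ m) (h1 : m ≤ Real.pi / 3) : 0 ≤ Real.tan m :=
  Real.tan_nonneg_of_nonneg_of_le_pi_div_two h0 (by linarith [Real.pi_pos])

theorem tan_le {m : ℝ} (h0 : 0 ≤ m) (h1 : m ≤ Real.pi / 3) : Real.tan m ≤ √3 := by
  rw [← Real.tan_pi_div_three]
  rcases eq_or_lt_of_le h1 with h | h
  · rw [h]
  · exact (Real.strictMonoOn_tan ⟨by linarith [Real.pi_pos], by linarith [Real.pi_pos]⟩
      ⟨by linarith [Real.pi_pos], by linarith [Real.pi_pos]⟩ h).le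

theorem sqrt3_le : √3 ≤ 2 := by
  rw [Real.sqrt_le_left (by norm_num)]; norm_num

theorem wC_eq {m : ℝ} (h : Real.cos m ≠ 0) (t : ℂ) :
    wC m t = Complex.cos t - (Real.tan m : ℝ) * Complex.sin t := by
  have hc : Complex.cos (m : ℂ) ≠ 0 := by
    rw [← Complex.ofReal_cos]; exact_mod_cast h
  unfold wC
  rw [Complex.cos_add, Complex.ofReal_tan, Complex.tan_eq_sin_div_cos]
  field_simp

theorem wC_sub {m : ℝ} (h0 : 0 ≤ m) (h1 : m ≤ Real.pi / 3) {t : ℂ} (ht : ‖t‖ ≤ 1) :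
    ‖wC m t - (1 - (Real.tan m : ℝ) * t)‖ ≤ 3 * ‖t‖ ^ 2 := by
  have h3 : Real.tan m ≤ 2 := (tan_le h0 h1).trans sqrt3_le
  have h30 := tan_nonneg h0 h1
  set τ := Real.tan m with hτ
  have e1 : ‖t * Complex.I‖ = ‖t‖ := by simp
  have e2 : ‖-t * Complex.I‖ = ‖t‖ := by simp
  have h1 := Complex.norm_exp_sub_one_sub_id_le (x := t * Complex.I) (by rw [e1]; exact ht)
  have h2 := Complex.norm_exp_sub_one_sub_id_le (x := -t * Complex.I) (by rw [e2]; exact ht)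
  rw [e1] at h1
  rw [e2] at h2
  have hI : Complex.I * Complex.I = -1 := Complex.I_mul_I
  set r1 := Complex.exp (t * Complex.I) - 1 - t * Complex.I with hr1
  set r2 := Complex.exp (-t * Complex.I) - 1 - -t * Complex.I with hr2
  have e : wC m t - (1 - (τ : ℝ) * t) = (r1 + r2) / 2 - (τ : ℝ) * ((r2 - r1) * Complex.I / 2) := by
    rw [wC_eq (cos_pos_of h0 (by assumption)).ne', Complex.cos, Complex.sin, hr1, hr2]
    linear_combination (τ : ℝ) * t * hI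
  rw [e]
  have g1 : ‖(r1 + r2) / 2‖ ≤ ‖t‖ ^ 2 := by
    rw [norm_div, Complex.norm_ofNat, div_le_iff₀ (by norm_num)]
    refine (norm_add_le _ _).trans ?_
    linarith
  have g2 : ‖((τ : ℝ) : ℂ) * ((r2 - r1) * Complex.I / 2)‖ ≤ τ * ‖t‖ ^ 2 := by
    rw [norm_mul, Complex.norm_real, Real.norm_of_nonneg h30, norm_div, norm_mul, Complex.norm_I,
      mul_one, Complex.norm_ofNat]
    refine mul_le_mul_of_nonneg_left ?_ h30
    rw [div_le_iff₀ (by norm_num)]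
    refine (norm_sub_le _ _).trans ?_
    linarith
  refine (norm_sub_le _ _).trans ?_
  nlinarith [sq_nonneg ‖t‖]

theorem wC_near {m : ℝ} (h0 : 0 ≤ m) (h1 : m ≤ Real.pi / 3) {t : ℂ} (ht : ‖t‖ ≤ 1) :
    ‖wC m t‖ ≤ Real.exp (-Real.tan m * t.re + 26 * ‖t‖ ^ 2) := by
  have h3 : Real.tan m ≤ 2 := (tan_le h0 h1).trans sqrt3_le
  have h30 := tan_nonneg h0 h1
  have hsq : Real.tan m ^ 2 ≤ 3 := by
    have h4 := tan_le h0 h1
    have h5 : √3 ^ 2 = 3 := Real.sq_sqrt (by norm_num)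
    nlinarith [Real.sqrt_nonneg 3]
  have h := wC_sub h0 h1 ht
  set τ := Real.tan m with hτ
  have hre : |t.re| ≤ 1 := (Complex.abs_re_le_norm t).trans ht
  rw [abs_le] at hre
  set x := t.re with hx
  set q := ‖t‖ ^ 2 with hq
  have hq0 : 0 ≤ q := sq_nonneg _
  have h1 : ‖1 - (τ : ℝ) * t‖ ^ 2 ≤ 1 - 2 * τ * x + 3 * q := by
    have e : ‖1 - (τ : ℝ) * t‖ ^ 2 = 1 - 2 * τ * x + τ ^ 2 * q := by
      rw [hq, ← Complex.normSq_eq_norm_sq, ← Complex.normSq_eq_norm_sq, Complex.normSq_apply,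
        Complex.normSq_apply]
      simp only [Complex.sub_re, Complex.one_re, Complex.mul_re, Complex.ofReal_re,
        Complex.ofReal_im, zero_mul, sub_zero, Complex.sub_im, Complex.one_im, Complex.mul_im,
        add_zero, zero_sub]
      rw [← hx]
      ring
    rw [e]
    nlinarith
  have h2 : ‖1 - (τ : ℝ) * t‖ ≤ Real.exp (-τ * x + 3 / 2 * q) := by
    refine abs_le_of_sq_le_sq' ?_ (Real.exp_pos _).le |>.2
    refine h1.trans ?_
    rw [← Real.exp_nat_mul]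
    have := Real.add_one_le_exp (((2 : ℕ) : ℝ) * (-τ * x + 3 / 2 * q))
    push_cast at this ⊢
    linarith
  have h4 : (1 : ℝ) / 8 ≤ Real.exp (-τ * x + 3 / 2 * q) := by
    have h5 : (-2 : ℝ) ≤ -τ * x + 3 / 2 * q := by nlinarith
    have h6 : Real.exp (-2) ≤ Real.exp (-τ * x + 3 / 2 * q) := Real.exp_le_exp.2 h5
    have h7 : (1 : ℝ) / 8 ≤ Real.exp (-2) := by
      rw [Real.exp_neg, one_div]
      refine inv_anti₀ (Real.exp_pos _) ?_
      have h8 := Real.exp_one_lt_d9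
      have h9 : Real.exp 2 = Real.exp 1 * Real.exp 1 := by rw [← Real.exp_add]; norm_num
      rw [h9]
      nlinarith [Real.exp_pos 1]
    linarith
  have h10 : ‖wC m t‖ ≤ Real.exp (-τ * x + 3 / 2 * q) + 3 * q := by
    have e : wC m t = (1 - (τ : ℝ) * t) + (wC m t - (1 - (τ : ℝ) * t)) := by ring
    rw [e]
    exact (norm_add_le _ _).trans (add_le_add h2 h)
  have h11 : (1 : ℝ) + 24 * q ≤ Real.exp (24 * q) := by
    have := Real.add_one_le_exp (24 * q); linarith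
  calc ‖wC m t‖ ≤ Real.exp (-τ * x + 3 / 2 * q) + 3 * q := h10
    _ ≤ Real.exp (-τ * x + 3 / 2 * q) * (1 + 24 * q) := by nlinarith
    _ ≤ Real.exp (-τ * x + 3 / 2 * q) * Real.exp (24 * q) :=
        mul_le_mul_of_nonneg_left h11 (Real.exp_pos _).le
    _ = Real.exp (-τ * x + 51 / 2 * q) := by rw [← Real.exp_add]; congr 1; ring
    _ ≤ _ := Real.exp_le_exp.2 (by linarith)

theorem wC_lower {m : ℝ} (h0 : 0 ≤ m) (h1 : m ≤ Real.pi / 3) {t : ℂ} (ht : ‖t‖ ≤ 1 / 10) :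
    1 / 2 ≤ ‖wC m t‖ := by
  have h3 : Real.tan m ≤ 2 := (tan_le h0 h1).trans sqrt3_le
  have h30 := tan_nonneg h0 h1
  have h := wC_sub h0 h1 (t := t) (by linarith)
  have h0 := norm_nonneg t
  set τ := Real.tan m with hτ
  have h1 : ‖(1 : ℂ)‖ - ‖((τ : ℝ) : ℂ) * t‖ ≤ ‖1 - (τ : ℝ) * t‖ := norm_sub_norm_le _ _
  rw [norm_one, norm_mul, Complex.norm_real, Real.norm_of_nonneg h30] at h1
  have h2 : ‖1 - (τ : ℝ) * t‖ ≤ ‖wC m t‖ + ‖wC m t - (1 - (τ : ℝ) * t)‖ := by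
    have e : 1 - (τ : ℝ) * t = wC m t - (wC m t - (1 - (τ : ℝ) * t)) := by ring
    conv_lhs => rw [e]
    exact norm_sub_le _ _
  have h4 : ‖t‖ ^ 2 ≤ 1 / 100 := by nlinarith
  nlinarith

end Vale.Agent.P167.H542.Q
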