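import Vale.Agent.P167.H542.Pc2
import Vale.Agent.P167.H542.Q.Wt

/-!
# P167, general `q`, block Q-M2: products over the pieces of a domain

Every piece `A` has a phase `th A`, which is `m` for the loops; the weight of a piece is
`cos (th A + mass) / cos (th A)`.
-/

open Finset

namespace Vale.Agent.P167.H542.Q

open Vale.Agent.P167 Vale.Agent.P167.BR Vale.Agent.P167.H542
open Vale.Agent.P167.H45 (vs_nonempty)

/-- Phases of the pieces of `D`: `m` for the loops, cosines at least `c`. -/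
structure Phs (m c : ℝ) (D : Finset (ℤ × ℤ)) (th : Finset Ed → ℝ) : Prop where
  m0 : 0 ≤ m
  m1 : m ≤ Real.pi / 3
  c0 : 0 < c
  lp : ∀ A, IsLp D A → th A = m
  cs : ∀ A, c ≤ Real.cos (th A)

/-- The functional with phases. -/
noncomputable def XQ (th : Finset Ed → ℝ) (D : Finset (ℤ × ℤ)) (p : ℤ × ℤ) (f : ℤ × ℤ → ℂ)
    (ω : Cfg) : ℂ :=
  ∏ A ∈ pcs ω D, wC (th A) (massC D p f A)

variable {D : Finset (ℤ × ℤ)} {p : ℤ × ℤ} {K : Set (ℤ × ℤ)} {δ d B m c : ℝ} {ω : Cfg}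
  {A : Finset Ed} {th : Finset Ed → ℝ}

open Classical in
/-- The pieces of diameter at least `d` which come near `K`. -/
noncomputable def mak (K : Set (ℤ × ℤ)) (d : ℝ) (D : Finset (ℤ × ℤ)) (ω : Cfg) :
    Finset (Finset Ed) :=
  (pcs ω D).filter fun A => ¬ Small d A ∧ Nr K A

theorem norm_w_le (h : Phs m c D th) (f : ℤ × ℤ → ℂ) (A : Finset Ed) {M : ℝ}
    (hM : c⁻¹ * Real.exp (imn D f) ≤ M) : ‖wC (th A) (massC D p f A)‖ ≤ M :=
  (norm_wC_le h.c0 (h.cs A) _).trans (le_trans (mul_le_mul_of_nonneg_left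
    (Real.exp_le_exp.2 (massC_im_le f A)) (inv_nonneg.2 h.c0.le)) hM)

/-- The weight of a piece far from `K` is `1`. -/
theorem w_far (h : Phs m c D th) (hG : Geo D p K δ) {f : ℤ × ℤ → ℂ} (hf : ∀ z ∉ K, f z = 0)
    (h0 : ∑ z ∈ sites D, f z = 0) (hn : ¬ Nr K A) : wC (th A) (massC D p f A) = 1 := by
  have h1 : massC D p f A = 0 := by
    rcases mass_far (p := p) hG hn hf with h2 | ⟨h2, -⟩
    · exact h2
    · rw [h2, h0]
  rw [h1]
  exact wC_zero (lt_of_lt_of_le h.c0 (h.cs A)).ne'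

open Classical in
/-- **The product over a family of pieces.** -/
theorem prod_le (h : Phs m c D th) (hG : Geo D p K δ) (hd0 : 0 ≤ d) (hd : d + 1 ≤ δ)
    {f : ℤ × ℤ → ℂ} (hf : Chc D K d B f) (h0 : ∑ z ∈ sites D, f z = 0) {M : ℝ}
    (hM1 : 1 ≤ M) (hM : c⁻¹ * Real.exp (imn D f) ≤ M)
    (hsm : ∀ ℓ, IsLoop ω ℓ → Small d ℓ → ‖GC f ℓ‖ ≤ 1 / 10)
    {S : Finset (Finset Ed)} (hS : S ⊆ pcs ω D) :
    ∏ A ∈ S, ‖wC (th A) (massC D p f A)‖ ≤
      2 ^ ((pcs ω D) \ S).card * (M ^ (mak K d D ω).card * ∏ ℓ ∈ sb B d ω, ‖wC m (GC f ℓ)‖) := by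
  have hδ : 0 ≤ δ := by linarith
  set b : Finset Ed → ℝ := fun A =>
    if ¬ Small d A ∧ Nr K A then M else if Nr K A then ‖wC m (GC f A)‖ else 1 with hb
  -- near small pieces are loops
  have hns : ∀ A ∈ pcs ω D, Small d A → Nr K A → IsLoop ω A ∧ (∀ v ∈ vs A, v ∈ D) ∧
      wC (th A) (massC D p f A) = wC m (GC f A) := by
    intro A hA hs hn
    have hl : IsLp D A := small_near hG hd hn hs
    have hloop := IsLp.isLoop hA hl
    have hD : ∀ v ∈ vs A, v ∈ D := by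
      intro v hv
      obtain ⟨e, he, rfl⟩ := Finset.mem_image.1 hv
      exact hl e he
    refine ⟨hloop, hD, ?_⟩
    rw [mass_near hG hδ hloop hD hf.off, h.lp A hl]
  have hwb : ∀ A ∈ pcs ω D, ‖wC (th A) (massC D p f A)‖ ≤ b A := by
    intro A hA
    simp only [hb]
    by_cases hn : Nr K A
    · by_cases hs : Small d A
      · rw [if_neg (fun h3 => h3.1 hs), if_pos hn, (hns A hA hs hn).2.2]
      · rw [if_pos ⟨hs, hn⟩]
        exact norm_w_le h f A hM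
    · rw [if_neg (fun h3 => hn h3.2), if_neg hn, w_far h hG hf.off h0 hn, norm_one]
  have hb12 : ∀ A ∈ pcs ω D, 1 / 2 ≤ b A := by
    intro A hA
    simp only [hb]
    by_cases hn : Nr K A
    · by_cases hs : Small d A
      · rw [if_neg (fun h3 => h3.1 hs), if_pos hn]
        exact wC_lower h.m0 h.m1 (hsm A (hns A hA hs hn).1 hs)
      · rw [if_pos ⟨hs, hn⟩]; linarith
    · rw [if_neg (fun h3 => hn h3.2), if_neg hn]; norm_num
  have h1 : ∏ A ∈ S, ‖wC (th A) (massC D p f A)‖ ≤ ∏ A ∈ S, b A :=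
    Finset.prod_le_prod (fun _ _ => norm_nonneg _) fun A hA => hwb A (hS hA)
  have h2 : ∏ A ∈ pcs ω D, b A = (∏ A ∈ pcs ω D \ S, b A) * ∏ A ∈ S, b A :=
    (Finset.prod_sdiff hS).symm
  have hbS : 0 ≤ ∏ A ∈ S, b A := Finset.prod_nonneg fun A hA =>
    le_trans (by norm_num) (hb12 A (hS hA))
  have h3 : (1 / 2 : ℝ) ^ (pcs ω D \ S).card ≤ ∏ A ∈ pcs ω D \ S, b A := by
    rw [← Finset.prod_const]
    exact Finset.prod_le_prod (fun _ _ => by norm_num) fun A hA =>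
      hb12 A (Finset.mem_sdiff.1 hA).1
  have h4 : ∏ A ∈ S, b A ≤ 2 ^ (pcs ω D \ S).card * ∏ A ∈ pcs ω D, b A := by
    rw [h2]
    have h5 : (2 : ℝ) ^ (pcs ω D \ S).card * (1 / 2) ^ (pcs ω D \ S).card = 1 := by
      rw [← mul_pow]; norm_num
    calc ∏ A ∈ S, b A = (2 : ℝ) ^ (pcs ω D \ S).card * ((1 / 2) ^ (pcs ω D \ S).card *
          ∏ A ∈ S, b A) := by rw [← mul_assoc, h5, one_mul]
      _ ≤ _ := by gcongr
  have h6 : ∏ A ∈ pcs ω D, b A =
      M ^ (mak K d D ω).card * ∏ ℓ ∈ sb B d ω, ‖wC m (GC f ℓ)‖ := by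
    simp only [hb]
    rw [Finset.prod_ite, Finset.prod_const]
    congr 1
    rw [← Finset.prod_filter]
    refine Finset.prod_subset ?_ ?_
    · intro A hA
      rw [Finset.mem_filter, Finset.mem_filter] at hA
      obtain ⟨⟨hA1, hs'⟩, hn⟩ := hA
      have hs : Small d A := by
        by_contra hcon
        exact hs' ⟨hcon, hn⟩
      obtain ⟨hloop, hD, -⟩ := hns A hA1 hs hn
      rw [mem_sb]
      refine ⟨hloop, ?_, hs⟩
      obtain ⟨e, he, he1, -⟩ := hn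
      refine ⟨hdv e, Finset.mem_image_of_mem _ he, ?_⟩
      have h5 : nm (hdv e) ≤ nm (hdv e - ls e) + nm (ls e) := by
        simpa using H45.nm_add_le (hdv e - ls e) (ls e)
      have h7 : (nm (hdv e) : ℝ) ≤ nm (hdv e - ls e) + nm (ls e) := by exact_mod_cast h5
      have h8 : (nm (hdv e - ls e) : ℝ) ≤ 1 := by exact_mod_cast nm_hdv_ls e
      linarith [hf.box _ he1]
    · intro A hA hA'
      rw [mem_sb] at hA
      obtain ⟨hloop, -, hs⟩ := hA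
      by_cases hn : Nr K A
      · exfalso
        apply hA'
        have hl : ∀ e ∈ A, hdv e ∈ D := small_near hG hd hn hs
        have hD : ∀ v ∈ vs A, v ∈ D := by
          intro v hv
          obtain ⟨e, he, rfl⟩ := Finset.mem_image.1 hv
          exact hl e he
        rw [Finset.mem_filter, Finset.mem_filter]
        exact ⟨⟨loop_mem_pcs hloop hD, fun h9 => h9.1 hs⟩, hn⟩
      · rw [GC_far hG hf hloop hs hn, wC_zero (cos_pos_of h.m0 h.m1).ne', norm_one]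
  rw [← h6]
  exact h1.trans h4

/-- The majorant of the functional. -/
noncomputable def Ym (m : ℝ) (K : Set (ℤ × ℤ)) (D : Finset (ℤ × ℤ)) (M d B : ℝ) (f : ℤ × ℤ → ℂ)
    (ω : Cfg) : ℝ :=
  M ^ (mak K d D ω).card * ∏ ℓ ∈ sb B d ω, ‖wC m (GC f ℓ)‖

theorem Ym_nonneg {M : ℝ} (hM : 0 ≤ M) (f : ℤ × ℤ → ℂ) (ω : Cfg) : 0 ≤ Ym m K D M d B f ω :=
  mul_nonneg (pow_nonneg hM _) (Finset.prod_nonneg fun _ _ => norm_nonneg _)

/-- **The functional is bounded by the majorant.** -/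
theorem norm_XQ_le (h : Phs m c D th) (hG : Geo D p K δ) (hd0 : 0 ≤ d) (hd : d + 1 ≤ δ)
    {f : ℤ × ℤ → ℂ} (hf : Chc D K d B f) (h0 : ∑ z ∈ sites D, f z = 0) {M : ℝ}
    (hM1 : 1 ≤ M) (hM : c⁻¹ * Real.exp (imn D f) ≤ M)
    (hsm : ∀ ℓ, IsLoop ω ℓ → Small d ℓ → ‖GC f ℓ‖ ≤ 1 / 10) :
    ‖XQ th D p f ω‖ ≤ Ym m K D M d B f ω := by
  classical
  have h1 := prod_le h hG hd0 hd hf h0 hM1 hM hsm (S := pcs ω D) (Finset.Subset.refl _)
  rw [Finset.sdiff_self, Finset.card_empty, pow_zero, one_mul] at h1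
  unfold XQ
  rwa [norm_prod]

/-- The majorant in exponential form. -/
theorem Ym_le (hm0 : 0 ≤ m) (hm1 : m ≤ Real.pi / 3) {M : ℝ} (hM : 1 ≤ M) {f : ℤ × ℤ → ℂ}
    (hsm : ∀ ℓ, IsLoop ω ℓ → Small d ℓ → ‖GC f ℓ‖ ≤ 1) {N : ℕ} (hN : (mak K d D ω).card ≤ N) :
    Ym m K D M d B f ω ≤ Real.exp (Real.log M * N +
      (-Real.tan m * ∑ ℓ ∈ sb B d ω, G (fun z => (f z).re) ℓ +
        (26 * ∑ ℓ ∈ sb B d ω, (G (fun z => (f z).re) ℓ) ^ 2 +
          26 * ∑ ℓ ∈ sb B d ω, (G (fun z => (f z).im) ℓ) ^ 2))) := by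
  unfold Ym
  have h1 : ∏ ℓ ∈ sb B d ω, ‖wC m (GC f ℓ)‖ ≤
      ∏ ℓ ∈ sb B d ω, Real.exp (-Real.tan m * (G (fun z => (f z).re) ℓ) +
        (26 * (G (fun z => (f z).re) ℓ) ^ 2 + 26 * (G (fun z => (f z).im) ℓ) ^ 2)) := by
    refine Finset.prod_le_prod (fun _ _ => norm_nonneg _) fun ℓ hℓ => ?_
    rw [mem_sb] at hℓ
    refine (wC_near hm0 hm1 (hsm ℓ hℓ.1 hℓ.2.2)).trans (le_of_eq ?_)
    rw [← GC_re, ← GC_im, ← Complex.sq_norm_sub_sq_re (GC f ℓ)]
    congr 1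
    ring
  rw [← Real.exp_sum, Finset.sum_add_distrib, Finset.sum_add_distrib, ← Finset.mul_sum,
    ← Finset.mul_sum, ← Finset.mul_sum] at h1
  have h2 : M ^ (mak K d D ω).card ≤ Real.exp (Real.log M * N) := by
    have hM0 : 0 < M := by linarith
    calc M ^ (mak K d D ω).card ≤ M ^ N := pow_le_pow_right₀ hM hN
      _ = Real.exp (Real.log M * N) := by
          rw [mul_comm, Real.exp_nat_mul, Real.exp_log hM0]
  rw [Real.exp_add]
  exact mul_le_mul h2 h1 (Finset.prod_nonneg fun _ _ => norm_nonneg _) (Real.exp_pos _).le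

end Vale.Agent.P167.H542.Q
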