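import Vale.Agent.P167.H562.Q.SM4
import Vale.Agent.P167.H542.Q.Pc
import Vale.Agent.P167.H542.Q.Mean
import Vale.Agent.P167.H542.Mm

/-!
# P167, general `q`, block Q-M2: moments of the majorant, uniformly in the domain, the boundary
condition and the charge
-/

open Finset MeasureTheory Filter Topology

namespace Vale.Agent.P167.H542.Q

open Vale.Agent.P167 Vale.Agent.P167.BR Vale.Agent.P167.H542 Vale.Agent.P167.FK
open Vale.Agent.P167.H562 (Em Em_mono Em_holder)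
open Vale.Agent.P167.H562.QM (MajA lin_UA quad_UA macro_UA crossSP exists_nuEx)
open Vale.Agent.P167.H562.SML (smf mem_smf Bd)
open Vale.Agent.P167.H562.GL (Nu crossP)
open Vale.Agent.P167.H519 (IsLim)
open Vale.Agent.P167.FKA (Loc)
open Vale.Agent.P167.H45 (vs_nonempty box_fin meas_locfun)

/-- The sum over the small loops which visit `A` as a sum over the box, general form. -/
theorem smf_eqF {B d : ℝ} {S A : Finset (ℤ × ℤ)} {F : Finset Ed → ℝ}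
    (h0 : ∀ ℓ, (∀ z ∈ S, z ∉ ins ℓ) → F ℓ = 0)
    (hS : ∀ z ∈ S, (nm z : ℝ) + d ≤ B) (hA : ∀ z ∈ S, ∀ v, (nm (v - z) : ℝ) < d → v ∈ A)
    (ω : Cfg) : ∑ ℓ ∈ smf A d ω, F ℓ = ∑ ℓ ∈ sb B d ω, F ℓ := by
  classical
  have key : ∀ T : Finset (Finset Ed), ∑ ℓ ∈ T, F ℓ =
      ∑ ℓ ∈ T.filter (fun ℓ => ∃ z ∈ S, z ∈ ins ℓ), F ℓ := by
    intro T
    refine (Finset.sum_filter_of_ne fun ℓ _ hne => ?_).symm
    by_contra hcon
    push Not at hcon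
    exact hne (h0 ℓ hcon)
  rw [key, key (sb B d ω)]
  refine Finset.sum_congr ?_ fun _ _ => rfl
  ext ℓ
  rw [Finset.mem_filter, Finset.mem_filter]
  constructor
  · rintro ⟨h1, z, hz, hzi⟩
    obtain ⟨h1, -, h2⟩ := mem_smf.1 h1
    obtain ⟨v, hv⟩ := vs_nonempty h1
    refine ⟨mem_sb.2 ⟨h1, ⟨v, hv, ?_⟩, h2⟩, z, hz, hzi⟩
    have h3 := near_of_ins h1 h2 hzi hv
    have h5 : nm v ≤ nm (v - z) + nm z := by simpa using H45.nm_add_le (v - z) z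
    have h6 : (nm v : ℝ) ≤ nm (v - z) + nm z := by exact_mod_cast h5
    have := hS z hz
    linarith
  · rintro ⟨h1, z, hz, hzi⟩
    obtain ⟨h1, -, h2⟩ := mem_sb.1 h1
    obtain ⟨v, hv⟩ := vs_nonempty h1
    exact ⟨mem_smf.2 ⟨h1, ⟨v, hv, hA z hz v (near_of_ins h1 h2 hzi hv)⟩, h2⟩, z, hz, hzi⟩

theorem G_out {S : Finset (ℤ × ℤ)} {g : ℤ × ℤ → ℝ} (hg : ∀ z ∉ S, g z = 0) (ℓ : Finset Ed)
    (h : ∀ z ∈ S, z ∉ ins ℓ) : G g ℓ = 0 := by
  unfold G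
  refine finsum_mem_eq_zero_of_forall_eq_zero fun z hz => ?_
  by_contra hne
  exact h z (by by_contra hcon; exact hne (hg z hcon)) hz

theorem mak_loc (K : Set (ℤ × ℤ)) (d : ℝ) (D : Finset (ℤ × ℤ)) {ω ω' : Cfg}
    (h : ∀ v ∈ D, ω v = ω' v) : mak K d D ω = mak K d D ω' := by
  unfold mak
  rw [BR.pcs_congr h]

theorem Ym_loc (m : ℝ) (K : Set (ℤ × ℤ)) (D : Finset (ℤ × ℤ)) (M d B : ℝ) (f : ℤ × ℤ → ℂ) :
    ∃ F : Finset (ℤ × ℤ), ∀ ω ω' : Cfg, (∀ v ∈ F, ω v = ω' v) →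
      Ym m K D M d B f ω = Ym m K D M d B f ω' := by
  classical
  obtain ⟨F, hF⟩ := sb_loc (B := B) (d := d)
  refine ⟨F ∪ D, fun ω ω' hw => ?_⟩
  unfold Ym
  rw [mak_loc K d D fun v hv => hw v (Finset.mem_union_right _ hv),
    hF ω ω' fun v hv => hw v (Finset.mem_union_left _ hv)]

/-- The number of the macroscopic pieces near `K`. -/
theorem card_mak_le {K : Set (ℤ × ℤ)} {d : ℝ} {D A : Finset (ℤ × ℤ)} {ω : Cfg}
    (hA : ∀ z ∈ K, ∀ v, nm (v - z) ≤ 1 → v ∈ A) {N : ℕ} (hN : MajA A d ω N) :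
    (mak K d D ω).card ≤ N := by
  classical
  refine hN _ (fun γ hγ => isSeg_piece (Finset.mem_filter.1 hγ).1) ?_ ?_
  · intro γ hγ γ' hγ' hne
    rw [Finset.disjoint_left]
    intro e he he'
    exact hne (eq_of_mem_pcs (Finset.mem_filter.1 hγ).1 (Finset.mem_filter.1 hγ').1 he he')
  · intro γ hγ
    obtain ⟨-, h2, e, he, h3, -⟩ := Finset.mem_filter.1 hγ
    refine ⟨⟨e, he, hA _ h3 _ (nm_hdv_ls e)⟩, ?_⟩
    unfold Small at h2
    push Not at h2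
    obtain ⟨u, hu, v, hv, h4⟩ := h2
    obtain ⟨e1, he1, rfl⟩ := Finset.mem_image.1 hu
    obtain ⟨e2, he2, rfl⟩ := Finset.mem_image.1 hv
    exact ⟨e1, he1, e2, he2, h4⟩

theorem int_le_of_lintN {ν : Measure Cfg} {F : Cfg → ℝ} (hF : ∀ ω, 0 ≤ F ω) (hm : Measurable F)
    {C : ℝ} (hC : 0 ≤ C) (h : ∫⁻ ω, ENNReal.ofReal (F ω) ∂ν ≤ ENNReal.ofReal C) :
    ∫ ω, F ω ∂ν ≤ C := by
  rw [integral_eq_lintegral_of_nonneg_ae (Eventually.of_forall hF) hm.aestronglyMeasurable]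
  exact ENNReal.toReal_le_of_le_ofReal hC h

/-- Four exponential moments. -/
theorem Em4 {ν : Measure Cfg} [IsProbabilityMeasure ν] {T : Fin 4 → Cfg → ℝ}
    (hT : ∀ i, Measurable (T i)) {b : Fin 4 → ℝ}
    (h : ∀ i, Em ν (fun ω => 4 * T i ω) ≤ ENNReal.ofReal (Real.exp (b i))) :
    Em ν (fun ω => ∑ i, T i ω) ≤ ENNReal.ofReal (Real.exp (∑ i, 1 / 4 * b i)) := by
  refine Em_holder (μ := ν) (Finset.univ : Finset (Fin 4)) (Y := T) (θ := fun _ => 1 / 4) (B := b)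
    (fun i _ => hT i) (fun _ _ => by norm_num) (by simp) fun i _ => ?_
  have e : ((1 : ℝ) / 4)⁻¹ = 4 := by norm_num
  rw [e]
  exact h i

/-- **Moments of the majorant.** -/
theorem Ym_mom {Q m : ℝ} (hQ1 : 1 ≤ Q) (hRSW : RSW Q) (hm0 : 0 ≤ m) (hm1 : m ≤ Real.pi / 3)
    {Cm κ R q M : ℝ} (hCm : 0 < Cm) (hκ : 0 < κ) (hC : 2 * (Cm * κ ^ 2) ≤ 1) (hR : 0 ≤ R)
    (hq : 0 ≤ q) (hM : 1 ≤ M) :
    ∃ C ρ0 : ℝ, 0 < C ∧ 0 < ρ0 ∧ ∀ ρ : ℝ, ρ0 ≤ ρ → ∀ (D : Finset (ℤ × ℤ)) (η : Cfg), Good η →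
      ∀ K : Set (ℤ × ℤ), (∀ z ∈ K, (nm z : ℝ) + κ * ρ ≤ R * ρ) →
      (∀ z ∈ K, ∀ v : ℤ × ℤ, (nm (v - z) : ℝ) ≤ 34 * κ * ρ → v ∈ D) →
      ∀ f : ℤ × ℤ → ℂ, (∀ z, ‖f z‖ ≤ Cm / ρ ^ 2) →
      ∀ S : Finset (ℤ × ℤ), (∀ z ∉ S, f z = 0) → (∀ z ∈ S, z ∈ K) → ∑ z ∈ S, (f z).re = 0 →
      Ex Q D η (fun ω => Ym m K D M (κ * ρ) (R * ρ) f ω ^ q) ≤ C := by
  classical
  have hQ0 : 0 < Q := by linarith
  obtain ⟨al, Ca, hal, hCa, hArm, -⟩ := FKA.arm_fk hQ1 hRSW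
  obtain ⟨P, hP⟩ := H519.exists_lim hQ1 hal hArm
  have hPp : IsProbabilityMeasure P := hP.1
  have hX : H562.GL.CrossP P := crossP hP (FKA.crossFK hQ1 hRSW)
  have hXS := crossSP hQ1 hRSW hP
  have ht0 := tan_nonneg hm0 hm1
  set τ : ℝ := Real.tan m with hτ
  obtain ⟨C1, hC1, h1⟩ := lin_UA hQ1 hal hCa hArm hP hX (R := R) (κ := κ) (4 * (τ * q) * Cm) hR hκ
  obtain ⟨C2, hC2, h2⟩ := quad_UA hX (R := R) (κ := κ) (4 * (q * 26) * Cm ^ 2) hR hκ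
  obtain ⟨ε, C3, ρ1, hε, hC3, hρ1, h3⟩ := macro_UA hXS κ R (4 * (q * Real.log M)) 0 hκ hR
  -- constants
  set b1 : ℝ := C1 * (Cm * (4 * (τ * q)) + Cm ^ 2 * (4 * (τ * q)) ^ 2) with hb1
  set b2 : ℝ := C2 * (4 * (q * 26) * Cm ^ 2) with hb2
  set b : Fin 4 → ℝ := ![Real.log C3, b1, b2, b2] with hb
  refine ⟨Real.exp (∑ i, 1 / 4 * b i), max ρ1 (max 1 (2 / κ)), Real.exp_pos _, by positivity,
    fun ρ hρ D η hη K hKR hKD f hf S hS hSK hsum => ?_⟩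
  have hρ1' : ρ1 ≤ ρ := (le_max_left _ _).trans hρ
  have hρone : 1 ≤ ρ := (le_max_left _ _).trans ((le_max_right _ _).trans hρ)
  have hρκ : 2 / κ ≤ ρ := (le_max_right _ _).trans ((le_max_right _ _).trans hρ)
  have hρ0 : 0 < ρ := by linarith
  have hκρ : 2 ≤ κ * ρ := by
    rw [div_le_iff₀ hκ] at hρκ; linarith
  set d : ℝ := κ * ρ with hd
  set B : ℝ := R * ρ with hB
  -- the squares near `K`
  obtain ⟨F0, hF0⟩ := box_fin 0 ⌊B⌋
  set A : Finset (ℤ × ℤ) := F0.filter (fun v => ∃ z ∈ K, (nm (v - z) : ℝ) ≤ d) with hA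
  have hmemA : ∀ v, v ∈ A ↔ ∃ z ∈ K, (nm (v - z) : ℝ) ≤ d := by
    intro v
    rw [hA, Finset.mem_filter]
    constructor
    · exact fun h => h.2
    · intro h
      refine ⟨?_, h⟩
      obtain ⟨z, hz, hvz⟩ := h
      rw [hF0, Int.le_floor, sub_zero]
      have h5 : nm v ≤ nm (v - z) + nm z := by simpa using H45.nm_add_le (v - z) z
      have h6 : (nm v : ℝ) ≤ nm (v - z) + nm z := by exact_mod_cast h5
      have := hKR z hz
      linarith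
  have hAR : ∀ v ∈ A, (nm (v - 0) : ℝ) ≤ R * ρ := by
    intro v hv
    rw [hA, Finset.mem_filter, hF0, Int.le_floor] at hv
    exact hv.1
  have hAD : ∀ c : ℝ, c ≤ 32 → ∀ u ∈ A, ∀ v, (nm (v - u) : ℝ) ≤ c * κ * ρ → v ∈ D := by
    intro c hc u hu v hv
    obtain ⟨z, hz, hzu⟩ := (hmemA u).1 hu
    refine hKD z hz v ?_
    have h5 : nm (v - z) ≤ nm (v - u) + nm (u - z) := by
      simpa using H45.nm_add_le (v - u) (u - z)
    have h6 : (nm (v - z) : ℝ) ≤ nm (v - u) + nm (u - z) := by exact_mod_cast h5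
    have h7 : c * κ * ρ ≤ 32 * (κ * ρ) := by
      have : 0 ≤ κ * ρ := by positivity
      nlinarith
    have h8 : 34 * κ * ρ = 34 * (κ * ρ) := by ring
    rw [h8]
    linarith
  have hA1 : ∀ z ∈ K, ∀ v, nm (v - z) ≤ 1 → v ∈ A := by
    intro z hz v hv
    refine (hmemA v).2 ⟨z, hz, ?_⟩
    have : (nm (v - z) : ℝ) ≤ 1 := by exact_mod_cast hv
    linarith
  have hSA : ∀ z ∈ S, ∀ v, (nm (v - z) : ℝ) < d → v ∈ A := fun z hz v hv =>
    (hmemA v).2 ⟨z, hSK z hz, hv.le⟩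
  have hSB : ∀ z ∈ S, (nm z : ℝ) + d ≤ B := fun z hz => hKR z (hSK z hz)
  -- the conditioned measure
  obtain ⟨F, hF⟩ := Ym_loc m K D M d B f
  have hLoc : Loc F (fun ω => Ym m K D M d B f ω ^ q) := fun ω ω' hw => by
    show Ym m K D M d B f ω ^ q = Ym m K D M d B f ω' ^ q
    rw [hF ω ω' hw]
  obtain ⟨ν, hν, hex⟩ := exists_nuEx hQ1 hP hη D F
  have hνp : IsProbabilityMeasure ν := hν.prob
  rw [← hex _ hLoc]
  set gr : ℤ × ℤ → ℝ := fun z => (f z).re with hgr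
  set gi : ℤ × ℤ → ℝ := fun z => (f z).im with hgi
  have hgr0 : ∀ z ∉ S, gr z = 0 := fun z hz => by simp only [hgr, hS z hz, Complex.zero_re]
  have hgi0 : ∀ z ∉ S, gi z = 0 := fun z hz => by simp only [hgi, hS z hz, Complex.zero_im]
  have hgrb : ∀ z, |gr z| ≤ Cm / ρ ^ 2 := fun z => (Complex.abs_re_le_norm _).trans (hf z)
  have hgib : ∀ z, |gi z| ≤ Cm / ρ ^ 2 := fun z => (Complex.abs_im_le_norm _).trans (hf z)
  have hBd : ∀ g : ℤ × ℤ → ℝ, (∀ z, |g z| ≤ Cm / ρ ^ 2) → Bd κ ρ Cm (G g) := by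
    intro g hg ω ℓ d' hl _ hs
    refine (G_bound' (by positivity) hg hl hs).trans (le_of_eq ?_)
    field_simp
  obtain ⟨N, hN1, hN2, hN3⟩ := h3 ρ hρ1' 0 A hAR (fun i => i.elim0)
  -- the mean vanishes
  have hmean : ∫ ω', ∑ ℓ ∈ smf A (κ * ρ) ω', G gr ℓ ∂P = 0 := by
    have e1 : ∀ ω', ∑ ℓ ∈ smf A (κ * ρ) ω', G gr ℓ = ∑ ℓ ∈ sb B d ω', G gr ℓ := fun ω' =>
      smf_eqF (fun ℓ h => G_out hgr0 ℓ h) hSB hSA ω'
    simp only [e1]
    rw [mean_GP hQ0 hP hgr0 hSB]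
    rw [hsum, zero_mul]
  -- measurability
  obtain ⟨F1, hF1⟩ := sb_loc (B := B) (d := d)
  have hms : ∀ φ : Finset Ed → ℝ, Measurable (fun ω => ∑ ℓ ∈ sb B d ω, φ ℓ) := fun φ =>
    meas_locfun F1 fun ω ω' hw => by rw [hF1 ω ω' hw]
  obtain ⟨F', hF'⟩ := box_fin 0 ⌊(R + κ) * ρ⌋
  have hmN : Measurable (fun ω => (N ω : ℝ)) := meas_locfun F' fun ω ω' hw => by
    rw [hN1 ω ω' (fun v hv _ => hw v ((hF' v).2 (by
      obtain ⟨u, hu, huv⟩ := hv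
      have h4 := hAR u hu
      rw [sub_zero] at h4
      rw [Int.le_floor, sub_zero]
      have h5 : nm v ≤ nm (v - u) + nm u := by simpa using H45.nm_add_le (v - u) u
      have h6 : (nm v : ℝ) ≤ nm (v - u) + nm u := by exact_mod_cast h5
      nlinarith)))]
  -- the four terms
  set T : Fin 4 → Cfg → ℝ := ![fun ω => q * Real.log M * (N ω : ℝ),
    fun ω => -(τ * q) * ∑ ℓ ∈ sb B d ω, G gr ℓ,
    fun ω => q * 26 * ∑ ℓ ∈ sb B d ω, (G gr ℓ) ^ 2,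
    fun ω => q * 26 * ∑ ℓ ∈ sb B d ω, (G gi ℓ) ^ 2] with hT
  have hTm : ∀ i, Measurable (T i) := by
    intro i
    fin_cases i
    · exact hmN.const_mul _
    · exact (hms (G gr)).const_mul _
    · exact (hms fun ℓ => (G gr ℓ) ^ 2).const_mul _
    · exact (hms fun ℓ => (G gi ℓ) ^ 2).const_mul _
  have hquad : ∀ g : ℤ × ℤ → ℝ, (∀ z, |g z| ≤ Cm / ρ ^ 2) → (∀ z ∉ S, g z = 0) →
      Em ν (fun ω => 4 * (q * 26 * ∑ ℓ ∈ sb B d ω, (G g ℓ) ^ 2)) ≤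
        ENNReal.ofReal (Real.exp b2) := by
    intro g hg hg0
    have h4 := h2 ρ hρone 0 A hAR D ν (hAD 32 le_rfl) hν (G g) Cm hCm.le (hBd g hg) (4 * (q * 26))
      (by positivity) (le_refl _)
    refine le_trans (le_of_eq ?_) h4
    congr 1
    funext ω
    rw [smf_eqF (B := B) (F := fun ℓ => (G g ℓ) ^ 2) (fun ℓ h => by rw [G_out hg0 ℓ h]; ring) hSB
      hSA ω]
    ring
  have hEm : ∀ i, Em ν (fun ω => 4 * T i ω) ≤ ENNReal.ofReal (Real.exp (b i)) := by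
    intro i
    fin_cases i
    · have h4 := hN3 D ν (fun u hu v hv => hAD 1 (by norm_num) u hu v (by rwa [one_mul])) hν
      show Em ν (fun ω => 4 * (q * Real.log M * (N ω : ℝ))) ≤
        ENNReal.ofReal (Real.exp (Real.log C3))
      rw [Real.exp_log hC3]
      refine le_trans (le_of_eq ?_) h4
      congr 1
      funext ω
      ring
    · have h4 := h1 ρ hρone 0 A hAR D ν (hAD 32 le_rfl) hν (G gr) Cm hCm (hBd gr hgrb)
        (-(4 * (τ * q))) (by rw [abs_neg, abs_of_nonneg (by positivity)])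
      rw [hmean] at h4
      show Em ν (fun ω => 4 * (-(τ * q) * ∑ ℓ ∈ sb B d ω, G gr ℓ)) ≤
        ENNReal.ofReal (Real.exp b1)
      refine le_trans (le_of_eq ?_) (h4.trans (le_of_eq ?_))
      · congr 1
        funext ω
        rw [smf_eqF (B := B) (F := fun ℓ => G gr ℓ) (fun ℓ h => G_out hgr0 ℓ h) hSB hSA ω]
        ring
      · rw [hb1, abs_neg, abs_of_nonneg (by positivity : 0 ≤ 4 * (τ * q))]
        congr 2
        ring
    · exact hquad gr hgrb hgr0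
    · exact hquad gi hgib hgi0
  have hfin := Em4 hTm hEm
  -- conclusion
  have hsm : ∀ (ω : Cfg) (ℓ : Finset Ed), IsLoop ω ℓ → Small d ℓ → ‖GC f ℓ‖ ≤ 1 := by
    intro ω ℓ h4 h5
    refine (norm_GC_le (by positivity) hf h4 h5).trans ?_
    have e : Cm / ρ ^ 2 * d ^ 2 = Cm * κ ^ 2 := by
      rw [hd]; field_simp
    rw [e]; exact hC
  have hYm0 : ∀ ω, 0 ≤ Ym m K D M d B f ω := fun ω => Ym_nonneg (by linarith) f ω
  have hle : ∀ ω, Ym m K D M d B f ω ^ q ≤ Real.exp (∑ i, T i ω) := by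
    intro ω
    have h6 := Ym_le (K := K) (D := D) (d := d) (B := B) (f := f) (ω := ω) hm0 hm1 hM (hsm ω)
      (card_mak_le (K := K) (D := D) (d := d) (ω := ω) hA1 (hN2 ω))
    calc Ym m K D M d B f ω ^ q ≤ (Real.exp _) ^ q := Real.rpow_le_rpow (hYm0 ω) h6 hq
      _ = _ := by
          rw [← Real.exp_mul]
          congr 1
          simp only [hT, Fin.sum_univ_four, Matrix.cons_val_zero, Matrix.cons_val_one,
            Matrix.cons_val]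
          ring
  have hYloc : ∀ ω ω' : Cfg, (∀ v ∈ F, ω v = ω' v) →
      Ym m K D M d B f ω ^ q = Ym m K D M d B f ω' ^ q := hLoc
  refine int_le_of_lintN (fun ω => Real.rpow_nonneg (hYm0 ω) q) (meas_locfun F hYloc)
    (Real.exp_pos _).le (le_trans (lintegral_mono fun ω => ?_) hfin)
  exact ENNReal.ofReal_le_ofReal (hle ω)

end Vale.Agent.P167.H542.Q
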