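import Vale.Agent.P167.H662.L.LDefs2
import Vale.Agent.P167.H542.Q.FamB
import Vale.Agent.P167.H542.Q.Mm

/-!
# P167, general `q`, block Q-LAYER: (L-MEAN) and the laws of the family `famB`
-/

open Finset MeasureTheory Filter Topology

namespace Vale.Agent.P167.H542.Q

open Vale.Agent.P167 Vale.Agent.P167.BR Vale.Agent.P167.H542 Vale.Agent.P167.FK
open Vale.Agent.P167.H519 (IsLim)
open Vale.Agent.P167.H562.SML (smf mem_smf)
open Vale.Agent.P167.H562.GL (Nu)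
open Vale.Agent.P167.H562.QM (exists_nuEx)
open Vale.Agent.P167.H45 (vs_nonempty)
open Vale.Agent.P167.H662.L (S_mean LawV)

/-- **(L-MEAN)** -/
theorem s_mean {q : ℝ} {P : Measure Cfg} (hQ : 0 < q) (hP : IsLim q P) : S_mean P := by
  classical
  intro T S η d h0 hsum hT
  obtain ⟨B, hB⟩ : ∃ B : ℝ, ∀ z ∈ S, (nm z : ℝ) + d ≤ B :=
    ⟨∑ z ∈ S, |(nm z : ℝ) + d|, fun z hz => (le_abs_self _).trans
      (Finset.single_le_sum (f := fun z => |(nm z : ℝ) + d|) (fun _ _ => abs_nonneg _) hz)⟩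
  have key : ∀ U : Finset (Finset Ed), ∑ ℓ ∈ U, G η ℓ =
      ∑ ℓ ∈ U.filter (fun ℓ => G η ℓ ≠ 0), G η ℓ := fun U =>
    (Finset.sum_filter_of_ne (p := fun ℓ => G η ℓ ≠ 0) fun ℓ _ hne => hne).symm
  have e : ∀ ω, ∑ ℓ ∈ smf T d ω, G η ℓ = ∑ ℓ ∈ sb B d ω, G η ℓ := by
    intro ω
    rw [key, key (sb B d ω)]
    refine Finset.sum_congr ?_ fun _ _ => rfl
    ext ℓ
    rw [Finset.mem_filter, Finset.mem_filter]
    constructor
    · rintro ⟨h1, h2⟩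
      obtain ⟨h3, -, h4⟩ := mem_smf.1 h1
      have hex : ∃ z ∈ S, z ∈ ins ℓ := by
        by_contra hcon
        push Not at hcon
        exact h2 (G_out h0 ℓ hcon)
      obtain ⟨z, hz, hzi⟩ := hex
      obtain ⟨v, hv⟩ := vs_nonempty h3
      refine ⟨mem_sb.2 ⟨h3, ⟨v, hv, ?_⟩, h4⟩, h2⟩
      have h5 := near_of_ins h3 h4 hzi hv
      have h6 : nm v ≤ nm (v - z) + nm z := by simpa using H45.nm_add_le (v - z) z
      have h7 : (nm v : ℝ) ≤ nm (v - z) + nm z := by exact_mod_cast h6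
      have := hB z hz
      linarith
    · rintro ⟨h1, h2⟩
      obtain ⟨h3, -, h4⟩ := mem_sb.1 h1
      exact ⟨mem_smf.2 ⟨h3, hT ω ℓ h3 h4 h2, h4⟩, h2⟩
  simp only [e]
  rw [mean_GP hQ hP h0 hB, hsum, zero_mul]

theorem loc_XR (th : Finset Ed → ℝ) (D : Finset (ℤ × ℤ)) (p : ℤ × ℤ) (f : ℤ × ℤ → ℝ) :
    FKA.Loc D (XR th D p f) := by
  intro ω ω' h
  unfold XR
  rw [pcs_congr h]

/-- The laws of the family of the functionals. -/
theorem lawV {S : CA.Dat} {Q m c : ℝ} {P : Measure Cfg} (hQ : 0 < Q) (hQ1 : 1 ≤ Q)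
    (hP : IsLim Q P) (hm0 : 0 ≤ m) (hm1 : m ≤ Real.pi / 3) (hc : 0 < c) (X : FD S Q m c)
    (s : ℝ) (hp : ∀ᶠ n in X.L, X.p n = S.b n) :
    LawV S P X.L (fun n f => ((fam hQ X s).Vc n fun z => (f z : ℂ)).re) := by
  refine ⟨m, c, hm0, hm1, hc, ?_⟩
  filter_upwards [X.good, X.phs, hp] with n h1 h2 h3
  obtain ⟨ν, hν, h4⟩ := exists_nuEx hQ1 hP h1 (S.D n) (S.D n)
  refine ⟨X.th n, ν, h2, hν, fun f => ?_⟩
  have h5 := h4 _ (loc_XR (X.th n) (S.D n) (S.b n) f)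
  show (VQ Q (S.D n) (X.η n) (X.th n) (X.p n) fun z => (f z : ℂ)).re = _
  rw [VQ_ofReal, Complex.ofReal_re, h3, ← h5]
  rfl

/-- **The laws of the family of the Dobrushin functionals.** -/
theorem BD.lawV {S : CA.Dat} {θ β : ℝ} (X : BD S θ β) (h0 : 0 < θ) (h1 : θ ≤ Real.pi / 3)
    (hβ : Real.cos (θ / 2 + β) = Real.sin θ) {P : Measure Cfg}
    (hP : IsLim (2 * Real.cos θ) P) (hp : ∀ᶠ n in X.L, X.q n 0 = S.b n) :
    LawV S P (X.famB h0 h1 hβ).L (fun n f => ((X.famB h0 h1 hβ).Vc n fun z => (f z : ℂ)).re) :=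
  Q.lawV (BD.cos_pos h0 h1) (BD.one_le h0 h1) hP h0.le h1 (cB_pos h0 h1) (X.fd h0 h1 hβ) _ hp

end Vale.Agent.P167.H542.Q
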