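import Vale.Agent.P167.QB.Uns
import Vale.Agent.P167.H640.ND.SymX
import Vale.Agent.P167.H135.RotEnv

/-!
# P167, general `q`, block Q-ND (CONT): a flat window in another direction, transport

`M` is a movement of the medial lattice (for the distances: `M = rk i`). Transport of `Vz`, `Small`,
`bigs`, `ECon`, `W`, `Cn`, `Sm`, `finsum`.
-/

namespace Vale.Agent.P167.H542.Q.Um

open Finset Relation Vale.Agent.P167 Vale.Agent.P167.BR Vale.Agent.P167.FK
open Vale.Agent.P167.H135 (Mov Cor rk Cn CS)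
open Vale.Agent.P167.H562.MAJ (bigs Sm core Sc)
open Vale.Agent.P167.E6 (dir)

variable {ω : Cfg} {D Z Z' : Finset (ℤ × ℤ)} {A ℓ : Finset Ed} {d : ℝ} {f : ℤ × ℤ → ℝ}

/-! ### any movement -/

section

variable (M : Mov)

theorem vz_mov : Vz (M.S Z) (M.E A) ↔ Vz Z A := by
  constructor
  · rintro ⟨e, he, h⟩
    obtain ⟨e, rfl⟩ := M.k.surjective e
    exact ⟨e, M.mem_E.1 he, M.mem_eds_k.1 h⟩
  · rintro ⟨e, he, h⟩
    exact ⟨M.k e, M.mem_E.2 he, M.mem_eds_k.2 h⟩

theorem S_mono (h : Z ⊆ Z') : M.S Z ⊆ M.S Z' := image_subset_image h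

theorem S_sub : M.S Z ⊆ M.S Z' ↔ Z ⊆ Z' :=
  ⟨fun h => by rw [← M.symm_S_S Z, ← M.symm_S_S Z']; exact S_mono M.symm h, S_mono M⟩

theorem S_disj : Disjoint (M.S Z) (M.S Z') ↔ Disjoint Z Z' := by
  unfold Mov.S
  exact disjoint_image M.s.injective

theorem ec_mov {s t : ℤ × ℤ} (h : Ec Z s t) : Ec (M.S Z) (M.t s) (M.t t) := by
  obtain ⟨e, he, h⟩ := h
  refine ⟨M.k e, M.mem_eds_k.2 he, ?_⟩
  rw [M.lf, M.rt]
  rcases h with ⟨h1, h2⟩ | ⟨h1, h2⟩
  · exact Or.inl ⟨by rw [h1], by rw [h2]⟩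
  · exact Or.inr ⟨by rw [h1], by rw [h2]⟩

theorem econ_mov (h : ECon Z) : ECon (M.S Z) := by
  intro s hs t ht
  obtain ⟨s, rfl⟩ := M.t.surjective s
  obtain ⟨t, rfl⟩ := M.t.surjective t
  have h1 := h s (M.mem_sites_t.1 hs) t (M.mem_sites_t.1 ht)
  exact h1.lift M.t fun _ _ h => ec_mov M h

theorem fs_mov (f : ℤ × ℤ → ℝ) : ∑ᶠ z, M.F f z = ∑ᶠ z, f z := by
  unfold Mov.F
  exact finsum_comp_equiv M.t.symm

theorem loop_mov (h : IsLoop ω ℓ) : IsLoop (M.c ω) (M.E ℓ) ∧ vs (M.E ℓ) = (vs ℓ).image M.s :=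
  (H640.ND.syP_mov M ω).loop h

theorem loop_mov' (h : IsLoop (M.c ω) ℓ) : IsLoop ω (M.symm.E ℓ) := by
  have := (loop_mov M.symm h).1
  rwa [M.symm_c_c] at this

theorem vs_mov (ℓ : Finset Ed) : vs (M.E ℓ) = (vs ℓ).image M.s := by
  unfold vs Mov.E
  rw [image_image, image_image]
  exact image_congr fun e _ => M.hd e

/-- A function which does not change along the unit steps is constant. -/
theorem const_dir {u : ℤ × ℤ → ℤ} (h : ∀ (v : ℤ × ℤ) (r : Fin 4), u (v + dir r) = u v)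
    (v w : ℤ × ℤ) : u v = u w := by
  have hx : ∀ a b : ℤ, u (a + 1, b) = u (a, b) := fun a b => by
    have := h (a, b) 0
    simpa [dir] using this
  have hy : ∀ a b : ℤ, u (a, b + 1) = u (a, b) := fun a b => by
    have := h (a, b) 1
    simpa [dir] using this
  have h1 : ∀ a b : ℤ, u (a, b) = u (0, b) := by
    intro a b
    induction a using Int.induction_on with
    | zero => rfl
    | succ a ih => rw [hx, ih]
    | pred a ih =>
      have := hx (-(a : ℤ) - 1) b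
      rw [sub_add_cancel] at this
      rw [← this, ih]
  have h2 : ∀ b : ℤ, u (0, b) = u (0, 0) := by
    intro b
    induction b using Int.induction_on with
    | zero => rfl
    | succ a ih => rw [hy, ih]
    | pred a ih =>
      have := hy 0 (-(a : ℤ) - 1)
      rw [sub_add_cancel] at this
      rw [← this, ih]
  rw [show v = (v.1, v.2) from rfl, show w = (w.1, w.2) from rfl, h1, h2, h1 w.1, h2 w.2]

/-- The winding number of the moved loop. -/
theorem W_mov (h : IsLoop ω ℓ) (z : ℤ × ℤ) : W (M.E ℓ) (M.t z) = W ℓ z := by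
  have hM := (loop_mov M h).1
  set u : ℤ × ℤ → ℤ := fun z => W (M.E ℓ) (M.t z) - W ℓ z with hu
  have hed : ∀ e : Ed, u (ls e) = u (rs e) := by
    intro e
    have h1 := s_jump ω ℓ h e
    have h2 := s_jump (M.c ω) (M.E ℓ) hM (M.k e)
    rw [M.lf, M.rt] at h2
    simp only [hu, M.mem_E] at h2 ⊢
    omega
  have hdir : ∀ (v : ℤ × ℤ) (r : Fin 4), u (v + dir r) = u v := by
    intro v r
    have h1 := hed (ce v r)
    by_cases hv : Even (v.1 + v.2)
    · obtain ⟨h2, h3, -, -⟩ := ce_even hv r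
      rw [h2, h3] at h1
      exact h1.symm
    · obtain ⟨h2, h3, -, -⟩ := ce_odd hv r
      rw [h2, h3] at h1
      exact h1
  -- a site which is far away
  obtain ⟨z0, h0⟩ : ∃ z0 : ℤ × ℤ, z0 ∉ ins ℓ ∪ M.t ⁻¹' (ins (M.E ℓ)) := by
    have hf : (ins ℓ ∪ M.t ⁻¹' (ins (M.E ℓ))).Finite :=
      (H45.ins_fin s_out h).union ((H45.ins_fin s_out hM).preimage M.t.injective.injOn)
    exact hf.exists_notMem
  simp only [Set.mem_union, Set.mem_preimage, ins, Set.mem_ofPred_eq, not_or, not_not] at h0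
  have h1 := const_dir hdir z z0
  simp only [hu, h0.1, h0.2] at h1
  omega

theorem ins_mov (h : IsLoop ω ℓ) {z : ℤ × ℤ} : M.t z ∈ ins (M.E ℓ) ↔ z ∈ ins ℓ := by
  show W _ _ ≠ 0 ↔ W ℓ z ≠ 0
  rw [W_mov M h]

end

/-! ### the movements `rk i` -/

section

variable (i : Fin 4)

theorem rk_ss (v w : ℤ × ℤ) : nm ((rk i).s v - (rk i).s w) = nm (v - w) := by
  have h : (rk i).s v - (rk i).s w = (rk i).t (v - w) := by
    fin_cases i
    · show (rk 0).s v - (rk 0).s w = (rk 0).t (v - w)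
      rw [H135.rk0_s, H135.rk0_s, H135.rk0_t]
    · show (rk 1).s v - (rk 1).s w = (rk 1).t (v - w)
      rw [H135.rk1_s, H135.rk1_s, H135.rk1_t]
      ext <;> simp <;> ring
    · show (rk 2).s v - (rk 2).s w = (rk 2).t (v - w)
      rw [H135.rk2_s, H135.rk2_s, H135.rk2_t]
      ext <;> simp <;> ring
    · show (rk 3).s v - (rk 3).s w = (rk 3).t (v - w)
      rw [H135.rk3_s, H135.rk3_s, H135.rk3_t]
      ext <;> simp <;> ring
  rw [h, H135.nm_rk]

theorem rk_tt (v w : ℤ × ℤ) : nm ((rk i).t v - (rk i).t w) = nm (v - w) := by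
  rw [← H135.rk_sub, H135.nm_rk]

theorem small_mov : Small d ((rk i).E A) ↔ Small d A := by
  unfold Small
  rw [vs_mov]
  simp only [forall_mem_image, rk_ss]

theorem bigs_mov : (bigs ((rk i).S D) ((rk i).S Z) d ((rk i).c ω)).card = (bigs D Z d ω).card := by
  classical
  have e : bigs ((rk i).S D) ((rk i).S Z) d ((rk i).c ω) = (bigs D Z d ω).image (rk i).E := by
    unfold bigs
    rw [(rk i).pcs_c, filter_image]
    congr 1
    refine filter_congr fun A _ => ?_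
    rw [vz_mov, small_mov]
  rw [e, card_image_of_injective _ (rk i).E_inj]

theorem Cn_mov (z : ℤ × ℤ) : Cn d ((rk i).t z) ((rk i).c ω) = Cn d z ω := by
  classical
  unfold Cn
  have e : CS d ((rk i).t z) ((rk i).c ω) = (rk i).E '' CS d z ω := by
    ext ℓ
    constructor
    · rintro ⟨h1, h2, h3⟩
      have h4 := loop_mov' (rk i) h1
      have e1 := (rk i).E_symm_E ℓ
      refine ⟨(rk i).symm.E ℓ, ⟨h4, ?_, ?_⟩, e1⟩
      · rw [← small_mov i, e1]; exact h2
      · rw [← ins_mov (rk i) h4, e1]; exact h3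
    · rintro ⟨ℓ', ⟨h1, h2, h3⟩, rfl⟩
      exact ⟨(loop_mov (rk i) h1).1, (small_mov i).2 h2, (ins_mov (rk i) h1).2 h3⟩
  rw [e, Set.ncard_image_of_injective _ (rk i).E_inj]

theorem Sm_mov : Sm ((rk i).F f) d ((rk i).c ω) = Sm f d ω := by
  unfold Sm
  rw [← finsum_comp_equiv (rk i).t]
  refine finsum_congr fun z => ?_
  rw [Cn_mov]
  unfold Mov.F
  rw [Equiv.symm_apply_apply]

end

end Vale.Agent.P167.H542.Q.Um
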