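import Vale.Agent.P167.H542.Q.Um1

/-!
# P167, general `q`, block Q-ND (CONT): a flat window in another direction, majorants

The window at `q m` is above `(rk i).t (q m)` after the movement `rk i`, the window at `q l` is above
`q l`. `Zo i b r`: the rotated half box. `maj4M`, `maj5M`: the majorants of `QB.maj4`, `QB.maj5`.
-/

namespace Vale.Agent.P167.H542.Q.Um

open Finset Relation Vale.Agent.P167 Vale.Agent.P167.BR Vale.Agent.P167.FK
open Vale.Agent.P167.H135 (Mov Cor rk)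
open Vale.Agent.P167.H562.MAJ (bigs Sm core Sc mem_core G_small W_zone W_poly conn_poly
  exists_ins_of_G mass_sum nb1 sum_nb1 nm_comm')
open Vale.Agent.P167.E6 (IsPolygon Encloses dir face)
open Vale.Agent.P167.QX (lo hi exists_xy lo_xy hi_xy wB)
open Vale.Agent.P167.H562.QM (BumpsQ WtQ Far)
open Vale.Agent.P167.QB
open Vale.Agent.P167.H640.ND (Mq poly_mov enc_mov ard_mov)

variable {ω : Cfg} {D Z : Finset (ℤ × ℤ)} {A : Finset Ed} {θ K : ℝ} {n : ℕ}
  {q : ZMod n → ℤ × ℤ} {l m : ℕ} {r R Rm rc rd : ℤ} {fc fd : ℤ × ℤ → ℝ} {i : Fin 4}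

/-- The rotated half box. -/
noncomputable def Zo (i : Fin 4) (b : ℤ × ℤ) (r : ℤ) : Finset (ℤ × ℤ) :=
  (rk i).symm.S (hbox ((rk i).t b) r)

/-- The rotated core. -/
noncomputable def Ko (i : Fin 4) (K : ℝ) (b : ℤ × ℤ) (r : ℤ) : Finset (ℤ × ℤ) :=
  (rk i).symm.S (core K ((rk i).t b) r)

theorem S_Zo (i : Fin 4) (b : ℤ × ℤ) (r : ℤ) : (rk i).S (Zo i b r) = hbox ((rk i).t b) r :=
  (rk i).S_symm_S _

theorem S_Ko (i : Fin 4) (K : ℝ) (b : ℤ × ℤ) (r : ℤ) :
    (rk i).S (Ko i K b r) = core K ((rk i).t b) r := (rk i).S_symm_S _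

theorem mem_Zo {b v : ℤ × ℤ} : v ∈ Zo i b r ↔ (rk i).s v ∈ hbox ((rk i).t b) r := by
  rw [← S_Zo, (rk i).mem_S]

theorem mem_Ko {b v : ℤ × ℤ} : v ∈ Ko i K b r ↔ (rk i).s v ∈ core K ((rk i).t b) r := by
  rw [← S_Ko, (rk i).mem_S]

theorem Zo_sub {b : ℤ × ℤ} (hF : Flt ((rk i).S D) ((rk i).t b) R) : Zo i b R ⊆ D := by
  rw [← S_sub (rk i), S_Zo]
  exact hbox_sub hF

theorem Zo_mono (b : ℤ × ℤ) (h : r ≤ R) : Zo i b r ⊆ Zo i b R := by
  rw [← S_sub (rk i), S_Zo, S_Zo]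
  exact hbox_mono h

theorem econ_Zo (b : ℤ × ℤ) (hr : 1 ≤ r) : ECon (Zo i b r) := econ_mov _ (econ_hbox hr)

theorem Ko_sub (h : Sc K r) (b : ℤ × ℤ) : Ko i K b r ⊆ Zo i b r := by
  rw [← S_sub (rk i), S_Zo, S_Ko]
  exact h.core_sub

theorem b_mem_Zo (b : ℤ × ℤ) (hr : 1 ≤ r) : b ∈ sites (Zo i b r) := by
  rw [← (rk i).mem_sites_t, S_Zo, mem_sites_hbox hr]
  omega

theorem supp_Ko {b : ℤ × ℤ} {g : ℤ × ℤ → ℝ}
    (hg : ∀ z, (rk i).F g z ≠ 0 → z ∈ sites (core K ((rk i).t b) r)) (z : ℤ × ℤ) (hz : g z ≠ 0) :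
    z ∈ sites (Ko i K b r) := by
  rw [← (rk i).mem_sites_t, S_Ko]
  refine hg _ ?_
  unfold Mov.F
  rwa [Equiv.symm_apply_apply]

/-- The squares of the domain which touch `b` are in the rotated half box. -/
theorem touch {b v : ℤ × ℤ} (hF : Flt ((rk i).S D) ((rk i).t b) R) (hR : 1 ≤ R) (hv : v ∈ D)
    (hc : Cor v b) : v ∈ Zo i b R := by
  rw [mem_Zo]
  have h1 := (rk i).mem_S.2 hv
  have h2 := ((rk i).cor v b).2 hc
  unfold Cor at h2
  have h3 := (hF _ (by omega) (by omega) (by omega) (by omega)).1 h1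
  rw [mem_hbox]
  omega

section

variable (hq : IsPolygon q) (hD : Encloses q D)
include hq hD

theorem far_m (hFm : Flt ((rk i).S D) ((rk i).t (q m)) Rm) (hRm : 1 ≤ Rm) (hF : Flt D (q l) R)
    (hR : 1 ≤ R) (hd : Disjoint (Zo i (q m) Rm) (hbox (q l) R)) :
    (m : ℤ) ≤ l - R ∨ (l : ℤ) + R ≤ m := by
  by_contra hcon
  push Not at hcon
  obtain ⟨h1, h2⟩ := hcon
  obtain ⟨j, hj1, hj2, hj3⟩ : ∃ j : ℤ, -R < j ∧ j < R ∧ q m = q l + (j, 0) := by
    refine ⟨(m : ℤ) - l, by omega, by omega, ?_⟩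
    rcases le_total l m with h | h
    · have h3 := (walk hq hD hF (m - l) (by omega)).1
      rw [← Nat.cast_add, Nat.add_sub_cancel' h] at h3
      rw [h3]
      congr 2
      omega
    · have h3 := (walk hq hD hF (l - m) (by omega)).2
      rw [← Nat.cast_sub (by omega), Nat.sub_sub_self h] at h3
      rw [h3]
      ext
      · simp only [Prod.fst_sub, Prod.fst_add]
        omega
      · simp
  have h4 : q m ∈ hbox (q l) R := by
    rw [mem_hbox, hj3]
    simp only [Prod.fst_add, Prod.snd_add]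
    omega
  exact disjoint_left.1 hd (touch hFm hRm (hbox_sub hF h4) ⟨Or.inl rfl, Or.inl rfl⟩) h4

theorem far_l (hFm : Flt ((rk i).S D) ((rk i).t (q m)) Rm) (_hRm : 1 ≤ Rm) (hF : Flt D (q l) R)
    (hR : 1 ≤ R) (hd : Disjoint (Zo i (q m) Rm) (hbox (q l) R)) :
    (l : ℤ) ≤ m - Rm ∨ (m : ℤ) + Rm ≤ l := by
  by_contra hcon
  push Not at hcon
  obtain ⟨h1, h2⟩ := hcon
  have hq' := poly_mov (rk i) hq
  have hD' := enc_mov (rk i) hD
  obtain ⟨j, hj1, hj2, hj3⟩ : ∃ j : ℤ, -Rm < j ∧ j < Rm ∧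
      (rk i).t (q l) = (rk i).t (q m) + (j, 0) := by
    refine ⟨(l : ℤ) - m, by omega, by omega, ?_⟩
    rcases le_total m l with h | h
    · have h3 := (walk hq' hD' (i := (m : ZMod n)) hFm (l - m) (by omega)).1
      rw [← Nat.cast_add, Nat.add_sub_cancel' h] at h3
      refine h3.trans ?_
      unfold Mq
      congr 2
      omega
    · have h3 := (walk hq' hD' (i := (m : ZMod n)) hFm (m - l) (by omega)).2
      rw [← Nat.cast_sub (by omega), Nat.sub_sub_self h] at h3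
      refine h3.trans ?_
      unfold Mq
      ext
      · simp only [Prod.fst_sub, Prod.fst_add]
        omega
      · simp
  -- the square above `q l` in the moved picture
  obtain ⟨v, hv⟩ := (rk i).s.surjective ((rk i).t (q l))
  have h4 : (rk i).s v ∈ hbox ((rk i).t (q m)) Rm := by
    rw [hv, mem_hbox, hj3]
    simp only [Prod.fst_add, Prod.snd_add]
    omega
  have hc : Cor v (q l) := by
    rw [← (rk i).cor, hv]
    exact ⟨Or.inl rfl, Or.inl rfl⟩
  have h5 : v ∈ D := (rk i).mem_S.1 (hbox_sub hFm h4)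
  unfold Cor at hc
  have h6 := (hF v (by omega) (by omega) (by omega) (by omega)).1 h5
  have h7 : v ∈ hbox (q l) R := by rw [mem_hbox]; omega
  exact disjoint_left.1 hd (mem_Zo.2 h4) h7

open Classical in
/-- The mass of a far strand. -/
theorem mass_farM (h : Sc K r) (hF : Flt ((rk i).S D) ((rk i).t (q m)) (2 * r)) (hm : m < n)
    (h0 : (rk i).t (q 0) ∉ sites (hbox ((rk i).t (q m)) (2 * r))) {g : ℤ × ℤ → ℝ}
    (hg : ∀ z, (rk i).F g z ≠ 0 → z ∈ sites (core K ((rk i).t (q m)) r)) {t : ℝ}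
    (ht : ∑ᶠ z, g z = t) (hA : A ∈ pcs ω D) (hAl : ¬ IsLp D A)
    (hfar : ¬ (Vz (Zo i (q m) r) A ∧ ¬ Small (dq K r) A)) :
    mass D (q 0) g A = if Ard q m A ∧ ¬ Vz (Zo i (q m) r) A then t else 0 := by
  have eV : Vz (hbox ((rk i).t (q m)) r) ((rk i).E A) ↔ Vz (Zo i (q m) r) A := by
    rw [← S_Zo, vz_mov]
  have hA' : (rk i).E A ∈ pcs ((rk i).c ω) ((rk i).S D) := by
    rw [(rk i).pcs_c]
    exact mem_image_of_mem _ hA
  have h1 := QB.mass_far (poly_mov (rk i) hq) (enc_mov (rk i) hD) (l := m) h hF hm h0 hg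
    ((fs_mov (rk i) g).trans ht) hA' (fun h' => hAl ((rk i).isLp_E.1 h'))
    (fun h' => hfar ⟨eV.1 h'.1, fun h'' => h'.2 ((small_mov i).2 h'')⟩)
  have e1 : mass ((rk i).S D) (Mq (rk i) q 0) ((rk i).F g) ((rk i).E A) = mass D (q 0) g A :=
    (rk i).mass_E
  rw [e1] at h1
  rw [h1]
  refine if_congr ?_ rfl rfl
  have e2 : Vz (hbox (Mq (rk i) q m) r) ((rk i).E A) ↔ Vz (Zo i (q m) r) A := eV
  rw [ard_mov (rk i) hq, e2]

/-- A small strand which visits the rotated half box does not surround a far flat point. -/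
theorem small_notM (h : Sc K rd) (hFm : Flt ((rk i).S D) ((rk i).t (q m)) (2 * rd))
    (hFl : Flt D (q l) R) (hR : 1 ≤ R) (hm : m < n)
    (h0 : (rk i).t (q 0) ∉ sites (hbox ((rk i).t (q m)) (2 * rd)))
    (hd : Disjoint (Zo i (q m) (2 * rd)) (hbox (q l) R)) (hA : A ∈ pcs ω D)
    (hs : Small (dq K rd) A) (hV : Vz (Zo i (q m) rd) A) : ¬ Ard q l A := by
  have hr8 := h.r8
  intro ha
  have hAl : ¬ IsLp D A := fun h' => ard_lp hq hD hA h' ha
  have hq' := poly_mov (rk i) hq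
  have hD' := enc_mov (rk i) hD
  have hA' : (rk i).E A ∈ pcs ((rk i).c ω) ((rk i).S D) := by
    rw [(rk i).pcs_c]
    exact mem_image_of_mem _ hA
  have eV : Vz (hbox ((rk i).t (q m)) rd) ((rk i).E A) := by
    rw [← S_Zo, vz_mov]
    exact hV
  have hI := h.inner hFm hA' (small_mono (dq_le h) ((small_mov i).2 hs)) eV
  obtain ⟨x, y, h1, h2, h3, h4, h5, -⟩ := inn_xy hq' hD' (l := m) hFm (by omega) hm h0 hA'
    (fun e he => (hI e he).1) (fun e he => (hI e he).2) (fun h' => hAl ((rk i).isLp_E.1 h'))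
  have hfar := far_l hq hD hFm (by omega) hFl hR hd
  have ha' := (ard_mov (rk i) hq l A).2 ha
  unfold Ard at ha'
  rw [lo_xy hq' hD' hA' h1, hi_xy hq' hD' hA' h1] at ha'
  omega

/-- Inner pieces of the flat box at `q l` do not feel a charge near `q m`. -/
theorem mass_innM {rm : ℤ} (hl : l < n) (hm : m < n)
    (hFm : Flt ((rk i).S D) ((rk i).t (q m)) Rm) (hF : Flt D (q l) R) (h1 : 1 ≤ rm) (h2 : rm ≤ Rm)
    (hR : 1 ≤ R) (hd : Disjoint (Zo i (q m) Rm) (hbox (q l) R)) (h0 : q 0 ∉ sites (hbox (q l) R))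
    {F : ℤ × ℤ → ℝ} (hf : ∀ z, F z ≠ 0 → z ∈ sites (Zo i (q m) rm)) (hI : InnP (q l) R A) :
    mass D (q 0) F A = 0 := by
  classical
  have hZa : Zo i (q m) rm ⊆ D := (Zo_mono _ h2).trans (Zo_sub hFm)
  have hki : (m : ℤ) ≤ l - R ∨ (l : ℤ) + R ≤ m := far_m hq hD hFm (by omega) hF hR hd
  have h3 : ∀ e ∈ A, e ∈ eds (hbox (q l) R) := fun e he => (hI e he).1
  have h4 : ∀ e ∈ A, Inn (q l) R e := fun e he => (hI e he).2
  have h5 : ¬ Vz (Zo i (q m) rm) A := by
    rintro ⟨e, he, h6⟩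
    rcases mem_eds.1 h6 with h7 | h7
    · exact disjoint_left.1 hd (Zo_mono _ h2 h7) ((h4 e he).mem_hd hF (h3 e he) (hZa h7))
    · exact disjoint_left.1 hd (Zo_mono _ h2 h7) ((h4 e he).mem_tl hF (h3 e he) (hZa h7))
  rw [mass_zone hZa hf (P := False), if_neg not_false]
  intro z hz
  exact iff_of_false (sep_out hq hD hF hR hl h0 h3 h4 hm.le hki hZa (econ_Zo _ h1) h5
    (b_mem_Zo _ h1) hz) not_false

/-! ### bumps -/

/-- One zone. -/
structure OneB (D : Finset (ℤ × ℤ)) (p : ℤ × ℤ) (Z Zb : Finset (ℤ × ℤ)) (f : ℤ × ℤ → ℝ) (d : ℝ) :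
    Prop where
  sub : Z ⊆ D
  zb : Z ⊆ Zb
  econ : ECon Z
  supp : ∀ z, f z ≠ 0 → z ∈ sites Z
  nbhd : ∀ v ∈ Z, ∀ w, (nm (w - v) : ℝ) ≤ d + 1 → w ∈ D
  small : ∀ (ω : Cfg) (ℓ : Finset Ed), IsLoop ω ℓ → Small d ℓ → |G f ℓ| ≤ 1 / 2
  conn : ∀ z ∈ sites Z, ReflTransGen (Ec D) z p
  loop : ∀ (ω : Cfg), ∀ A ∈ pcs ω D, IsLp D A → G f A ≠ 0 → Vz Zb A

theorem oneM (h : Sc K rd) (hF : Flt ((rk i).S D) ((rk i).t (q m)) (2 * rd))
    (hg : ∀ z, |fd z| ≤ K / (rd : ℝ) ^ 2)
    (hs : ∀ z, (rk i).F fd z ≠ 0 → z ∈ sites (core K ((rk i).t (q m)) rd)) :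
    OneB D (q 0) (Ko i K (q m) rd) (Zo i (q m) rd) fd (dq K rd) := by
  have h8 := h.r8
  have hsub : Ko i K (q m) rd ⊆ D :=
    (Ko_sub h _).trans ((Zo_mono _ (by omega)).trans (Zo_sub hF))
  refine ⟨hsub, Ko_sub h _, econ_mov _ (h.econ _), supp_Ko hs, fun v hv w hw => ?_,
    fun ω ℓ hℓ hsm => ?_, fun z hz => conn_poly hq hD (sites_mono hsub hz),
    fun ω A hA hl hG => ?_⟩
  · rw [← rk_ss i] at hw
    have h1 := h.near (mem_Ko.1 hv) (by have := dq_le h; linarith : (nm _ : ℝ) ≤ _)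
    exact (rk i).mem_S.1 (hbox_sub hF h1)
  · have h1 := h.one_le
    have h8' : (8 : ℝ) ≤ rd := by exact_mod_cast h8
    refine G_small (κ := 1 / (66 * K)) (ρ := rd) (Cm := K) (by linarith) (by linarith) ?_
      hg hℓ hsm
    rw [div_pow, one_pow, mul_one_div, div_le_iff₀ (by positivity)]
    nlinarith
  · by_contra hV
    obtain ⟨z, hz, hfz⟩ := exists_ins_of_G hG
    have hz' : z ∈ sites (Zo i (q m) rd) := sites_mono (Ko_sub h _) (supp_Ko hs z hfz)
    have h3 := W_zone (BR.IsLp.isLoop hA hl) hV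
      (econ_Zo (i := i) (q m) (by omega) z hz' _ (b_mem_Zo (q m) (by omega)))
    rw [h3] at hz
    exact hz (W_bd hq hD hA hl _)

theorem oneU (h : Sc K rc) (hF : Flt D (q l) (2 * rc))
    (hg : ∀ z, |fc z| ≤ K / (rc : ℝ) ^ 2) (hs : ∀ z, fc z ≠ 0 → z ∈ sites (core K (q l) rc)) :
    OneB D (q 0) (core K (q l) rc) (hbox (q l) rc) fc (dq K rc) := by
  have hB := bumps_flat hq hD (J := ({()} : Finset Unit)) (i := fun _ => l) (r := fun _ => rc)
    (g := fun _ => fc) (fun _ _ => h) (fun _ _ => hF) (fun _ _ => hg) (fun _ _ => hs)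
    (fun _ _ _ _ h => absurd rfl h)
  have hj : () ∈ ({()} : Finset Unit) := mem_singleton_self _
  exact ⟨hB.sub () hj, hB.zb () hj, hB.econ () hj, hB.supp () hj, hB.nbhd () hj, hB.small () hj,
    hB.conn () hj, fun ω A hA hl hG => hB.loop () hj ω A hA trivial hl hG⟩

theorem bq_one {Z Zb : Finset (ℤ × ℤ)} {f : ℤ × ℤ → ℝ} {d : ℝ} (h : OneB D (q 0) Z Zb f d) :
    BumpsQ ({()} : Finset Unit) D (q 0) (fun _ => Z) (fun _ => Zb) (fun _ => f) (fun _ => d)
      (fun _ => True) where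
  sub _ _ := h.sub
  zb _ _ := h.zb
  econ _ _ := h.econ
  supp _ _ := h.supp
  nbhd _ _ := h.nbhd
  small _ _ := h.small
  sep _ _ _ _ hne := absurd rfl hne
  base ω A hA _ hl := W_poly hq hD hA hl
  conn _ _ := h.conn
  loop _ _ ω A hA _ hl hG := h.loop ω A hA hl hG

theorem bq_two {Z Zb Z' Zb' : Finset (ℤ × ℤ)} {f f' : ℤ × ℤ → ℝ} {d d' : ℝ}
    (h : OneB D (q 0) Z Zb f d) (h' : OneB D (q 0) Z' Zb' f' d')
    (h1 : ∀ u ∈ Z, ∀ v ∈ Z', d + 2 ≤ (nm (u - v) : ℝ))
    (h2 : ∀ u ∈ Z, ∀ v ∈ Z', d' + 2 ≤ (nm (u - v) : ℝ)) :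
    BumpsQ (univ : Finset Bool) D (q 0) (b2 Z Z') (b2 Zb Zb') (b2 f f') (b2 d d')
      (fun _ => True) where
  sub j _ := by rcases j with _ | _; exacts [h'.sub, h.sub]
  zb j _ := by rcases j with _ | _; exacts [h'.zb, h.zb]
  econ j _ := by rcases j with _ | _; exacts [h'.econ, h.econ]
  supp j _ := by rcases j with _ | _; exacts [h'.supp, h.supp]
  nbhd j _ := by rcases j with _ | _; exacts [h'.nbhd, h.nbhd]
  small j _ := by rcases j with _ | _; exacts [h'.small, h.small]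
  sep j _ j' _ hne := by
    rcases j with _ | _ <;> rcases j' with _ | _
    · exact absurd rfl hne
    · intro u hu v hv
      rw [nm_comm']
      exact h2 v hv u hu
    · exact h1
    · exact absurd rfl hne
  base ω A hA _ hl := W_poly hq hD hA hl
  conn j _ := by rcases j with _ | _; exacts [h'.conn, h.conn]
  loop j _ ω A hA _ hl hG := by
    rcases j with _ | _
    · exact h'.loop ω A hA hl hG
    · exact h.loop ω A hA hl hG

omit hq hD in
/-- The cores are far from each other. -/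
theorem sep_cores {b c : ℤ × ℤ} (hSd : Sc K rd) (hSc : Sc K rc)
    (hsep : Disjoint (Zo i b (2 * rd)) (hbox c (2 * rc))) :
    (∀ u ∈ Ko i K b rd, ∀ v ∈ core K c rc, dq K rd + 2 ≤ (nm (u - v) : ℝ)) ∧
      ∀ u ∈ Ko i K b rd, ∀ v ∈ core K c rc, dq K rc + 2 ≤ (nm (u - v) : ℝ) := by
  have h8 := hSd.r8
  have h8' := hSc.r8
  constructor
  · intro u hu v hv
    by_contra hcon
    push Not at hcon
    have h1 : (rk i).s v ∈ hbox ((rk i).t b) (2 * rd) := by
      refine hSd.near (mem_Ko.1 hu) ?_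
      rw [nm_comm', rk_ss]
      have := dq_le hSd
      linarith
    exact disjoint_left.1 hsep (mem_Zo.2 h1) (hbox_mono (by omega) (hSc.core_sub hv))
  · intro u hu v hv
    by_contra hcon
    push Not at hcon
    have h1 : u ∈ hbox c (2 * rc) := by
      refine hSc.near hv ?_
      have := dq_le hSc
      linarith
    exact disjoint_left.1 hsep (Zo_mono _ (by omega) (Ko_sub hSd _ hu)) h1

omit hq hD in
open Classical in
/-- **The majorant of the product over the pieces**, any zones. -/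
theorem maj_any {ι : Type*} {J : Finset ι} {Z Zb : ι → Finset (ℤ × ℤ)} {d : ι → ℝ}
    {g : ι → ℤ × ℤ → ℝ} {M : ℝ} {w : Finset Ed → ℝ → ℝ} {mf : ι → Finset Ed → ℝ}
    (hw : WtQ θ M D w) (hB : BumpsQ J D (q 0) Z Zb g d (fun _ => True)) (ω : Cfg)
    (hm : ∀ j ∈ J, ∀ A ∈ pcs ω D, ¬ IsLp D A → ¬ (Vz (Zb j) A ∧ ¬ Small (d j) A) →
      mass D (q 0) (g j) A = mf j A) :
    ∏ A ∈ pcs ω D, |w A (mass D (q 0) (fun z => ∑ j ∈ J, g j z) A)| ≤
      (∏ j ∈ J, M ^ (bigs D (Zb j) (d j) ω).card *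
        Real.exp (-(Real.tan θ * Sm (g j) (d j) ω))) *
      ∏ A ∈ (pcs ω D).filter (Far J D Zb d), |w A (∑ j ∈ J, mf j A)| := by
  have h1 := hB.maj_det hw (T := pcs ω D) (T' := pcs ω D) (ω := ω) subset_rfl subset_rfl
    (fun _ _ => trivial) (fun A hA _ _ _ _ _ => hA)
  refine h1.trans (le_of_eq ?_)
  rw [Finset.sdiff_self, card_empty, pow_zero, one_mul]
  congr 1
  · refine prod_congr rfl fun j hj => ?_
    have h3 := sum_nb1 (Z := Z) (d := d) (F := g) (j := j) (hB.supp j hj) ω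
    rw [h3]
  · refine prod_congr rfl fun A hA => ?_
    rw [mem_filter] at hA
    rw [mass_sum]
    congr 2
    exact sum_congr rfl fun j hj => hm j hj A hA.1 hA.2.1 (hA.2.2 j hj)

open Classical in
/-- **The majorant: bump and point charge at `q m`, bump at `q l`.** -/
theorem maj4M (hθ0 : 0 < θ) (hθ1 : θ ≤ Real.pi / 3) (hln : l < n) (hmn : m < n)
    (hSd : Sc K rd) (hSc : Sc K rc) (hFd : Flt ((rk i).S D) ((rk i).t (q m)) (2 * rd))
    (hFc : Flt D (q l) (2 * rc)) (h0d : (rk i).t (q 0) ∉ sites (hbox ((rk i).t (q m)) (2 * rd)))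
    (h0c : q 0 ∉ sites (hbox (q l) (2 * rc)))
    (hsep : Disjoint (Zo i (q m) (2 * rd)) (hbox (q l) (2 * rc)))
    (hgd : ∀ z, |fd z| ≤ K / (rd : ℝ) ^ 2) (hgc : ∀ z, |fc z| ≤ K / (rc : ℝ) ^ 2)
    (hsd : ∀ z, (rk i).F fd z ≠ 0 → z ∈ sites (core K ((rk i).t (q m)) rd))
    (hsc : ∀ z, fc z ≠ 0 → z ∈ sites (core K (q l) rc))
    (htd : ∑ᶠ z, fd z = θ) (htc : ∑ᶠ z, fc z = θ) (ω : Cfg) {Nd Nc : ℕ}
    (hNd : (bigs D (Zo i (q m) rd) (dq K rd) ω).card ≤ Nd)
    (hNc : (bigs D (hbox (q l) rc) (dq K rc) ω).card ≤ Nc) :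
    |XG θ q D n (fun z => (fd z - dlt (q m) θ z) - fc z) ω| ≤ MW θ ^ 2 *
      (((MW θ ^ 3) ^ Nd * Real.exp (-(Real.tan θ * Sm fd (dq K rd) ω))) *
      ((MW θ ^ 3) ^ Nc * Real.exp (-(Real.tan θ * Sm (-fc) (dq K rc) ω)))) := by
  have hM2 := two_le_MW hθ0 hθ1
  have hM1 : 1 ≤ MW θ := by linarith
  have hrc := hSc.r8
  have hrd := hSd.r8
  have hZd : Zo i (q m) rd ⊆ D := (Zo_mono _ (by omega)).trans (Zo_sub hFd)
  have hqd : q m ∈ sites (Zo i (q m) rd) := b_mem_Zo _ (by omega)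
  have hqc : q l ∈ sites (hbox (q l) rc) := by rw [mem_sites_hbox (by omega)]; omega
  have hms : q m ∈ sites D := sites_mono hZd hqd
  have hnegs : ∑ᶠ z, (-fc) z = -θ := by
    rw [← htc, ← finsum_neg_distrib]
    rfl
  have hgc' : ∀ z, |(-fc) z| ≤ K / (rc : ℝ) ^ 2 := fun z => by
    rw [Pi.neg_apply, abs_neg]
    exact hgc z
  have hsc' : ∀ z, (-fc) z ≠ 0 → z ∈ sites (core K (q l) rc) := fun z hz =>
    hsc z (by intro h'; apply hz; show -(fc z) = 0; rw [h', neg_zero])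
  set w' : Finset Ed → ℝ → ℝ := fun A t => wB θ (gB θ) q D n A (t - if Ard q m A then θ else 0)
    with hw'
  set w : Finset Ed → ℝ → ℝ := fun A t => if IsLp D A then H562.wt θ t else w' A t with hw
  have hwt : WtQ θ (MW θ) D w :=
    { a0 := hθ0
      a1 := hθ1
      M1 := hM1
      loop := fun A t hA => by rw [hw]; simp only; rw [if_pos hA]
      bd := fun A t => by
        rw [hw]
        simp only
        split_ifs with h
        · have := (wtq hθ0 hθ1 q D n).loop A t h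
          rw [← this]
          exact wB_bd hθ0 hθ1 q D n A t
        · exact wB_bd hθ0 hθ1 q D n A _ }
  obtain ⟨s1, s2⟩ := sep_cores hSd hSc hsep
  have hB := bq_two hq hD (oneM hq hD hSd hFd hgd hsd) (oneU hq hD hSc hFc hgc' hsc') s1 s2
  set Zb : Bool → Finset (ℤ × ℤ) := b2 (Zo i (q m) rd) (hbox (q l) rc) with hZb
  set dd : Bool → ℝ := b2 (dq K rd) (dq K rc) with hdd
  set ix : Bool → ℕ := b2 m l with hi'
  set g : Bool → ℤ × ℤ → ℝ := b2 fd (-fc) with hg'
  set t : Bool → ℝ := b2 θ (-θ) with ht'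
  have hmaj := maj_any (mf := fun j A => if Ard q (ix j) A ∧ ¬ Vz (Zb j) A then t j else 0)
    hwt hB ω (by
      rintro (_ | _) _ A hA hAl hfar
      · exact QB.mass_far hq hD hSc hFc hln h0c hsc' hnegs hA hAl hfar
      · exact mass_farM hq hD hSd hFd hmn h0d hsd htd hA hAl hfar)
  have hf : (fun z => fd z - fc z) = fun z => ∑ j, g j z := by
    funext z
    rw [Fintype.sum_bool]
    show fd z - fc z = fd z + -(fc z)
    ring
  have e0 : |XG θ q D n (fun z => (fd z - dlt (q m) θ z) - fc z) ω| =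
      ∏ A ∈ pcs ω D, |w A (mass D (q 0) (fun z => ∑ j, g j z) A)| := by
    unfold XG QX.XB
    rw [abs_prod, ← hf]
    refine prod_congr rfl fun A hA => ?_
    have e1 : mass D (q 0) (fun z => (fd z - dlt (q m) θ z) - fc z) A =
        mass D (q 0) (fun z => fd z - fc z) A - if Ard q m A then θ else 0 := by
      rw [mass_sub' (fun z => fd z - dlt (q m) θ z) fc, mass_sub' fd, mass_sub' fd,
        mass_dlt hq hD hmn.le hA hms]
      ring
    rw [e1]
    congr 1
    simp only [hw, hw']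
    by_cases h : IsLp D A
    · rw [if_pos h, if_neg (ard_lp hq hD hA h), sub_zero]
      exact (wtq hθ0 hθ1 q D n).loop A _ h
    · rw [if_neg h]
  rw [e0]
  refine hmaj.trans ?_
  rw [Fintype.prod_bool]
  -- the far strands
  set F : Finset (Finset Ed) := (pcs ω D).filter (Far univ D Zb dd) with hFdef
  obtain ⟨a, ham, ha⟩ := off_pos hq hD ω hZd (econ_Zo _ (by omega)) hmn.le hqd
  obtain ⟨b, hbl, hb⟩ := off_pos hq hD ω ((hbox_mono (by omega)).trans (hbox_sub hFc))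
    (econ_hbox (by omega)) hln.le hqc
  have hFF : ∀ A ∈ F, A ∈ pcs ω D ∧ ¬ IsLp D A := fun A hA => by
    rw [hFdef, mem_filter] at hA
    exact ⟨hA.1, hA.2.1⟩
  have hfar := far_neg hq hD (ω := ω) (F := F) (a := a) (b := b) (m := m) (N := Nd + Nc)
    (sin_pos' hθ0 hθ1) (by have := cos_half hθ0 hθ1; linarith) hM2
    (ham.trans hmn.le) (hbl.trans hln.le) hmn.le hFF ?_ ?_
  · have e1 : ∏ A ∈ F, |w A (∑ j, if Ard q (ix j) A ∧ ¬ Vz (Zb j) A then t j else 0)| =
        ∏ A ∈ F, |wB θ (gB θ) q D n A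
          (-((if Ard q m A ∧ ¬ Ard q a A then θ else 0) + if Ard q b A then θ else 0))| := by
      refine prod_congr rfl fun A hA => ?_
      obtain ⟨hA', hAl⟩ := hFF A hA
      simp only [hw, hw']
      rw [if_neg hAl]
      congr 2
      rw [Fintype.sum_bool]
      have k1 : (if Ard q (ix true) A ∧ ¬ Vz (Zb true) A then t true else 0) =
          if Ard q a A then θ else 0 := by
        have hh : Ard q (ix true) A ∧ ¬ Vz (Zb true) A ↔ Ard q a A := ha A hA'
        by_cases h' : Ard q a A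
        · rw [if_pos h', if_pos (hh.2 h')]
          rfl
        · rw [if_neg h', if_neg (fun h'' => h' (hh.1 h''))]
      have k2 : (if Ard q (ix false) A ∧ ¬ Vz (Zb false) A then t false else 0) =
          -if Ard q b A then θ else 0 := by
        have hh : Ard q (ix false) A ∧ ¬ Vz (Zb false) A ↔ Ard q b A := hb A hA'
        by_cases h' : Ard q b A
        · rw [if_pos h', if_pos (hh.2 h')]
          rfl
        · rw [if_neg h', if_neg (fun h'' => h' (hh.1 h'')), neg_zero]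
      rw [k1, k2]
      by_cases h3 : Ard q a A
      · have h4 : Ard q m A := ((ha A hA').2 h3).1
        have h5 : ¬ (Ard q m A ∧ ¬ Ard q a A) := fun h' => h'.2 h3
        rw [if_pos h3, if_pos h4, if_neg h5]
        ring
      · by_cases h4 : Ard q m A
        · have h5 : Ard q m A ∧ ¬ Ard q a A := ⟨h4, h3⟩
          rw [if_neg h3, if_pos h4, if_pos h5]
          ring
        · have h5 : ¬ (Ard q m A ∧ ¬ Ard q a A) := fun h' => h4 h'.1
          rw [if_neg h3, if_neg h4, if_neg h5]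
          ring
    rw [e1]
    have k1 : MW θ ^ (bigs D (Zb true) (dd true) ω).card ≤ MW θ ^ Nd :=
      pow_le_pow_right₀ hM1 hNd
    have k2 : MW θ ^ (bigs D (Zb false) (dd false) ω).card ≤ MW θ ^ Nc :=
      pow_le_pow_right₀ hM1 hNc
    have p1 := Real.exp_pos (-(Real.tan θ * Sm fd (dq K rd) ω))
    have p2 := Real.exp_pos (-(Real.tan θ * Sm (-fc) (dq K rc) ω))
    calc _ ≤ (MW θ ^ Nd * Real.exp (-(Real.tan θ * Sm fd (dq K rd) ω)) *
          (MW θ ^ Nc * Real.exp (-(Real.tan θ * Sm (-fc) (dq K rc) ω)))) *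
          MW θ ^ (2 + 2 * (Nd + Nc)) := by
          refine mul_le_mul (mul_le_mul (mul_le_mul_of_nonneg_right k1 p1.le)
            (mul_le_mul_of_nonneg_right k2 p2.le) (by positivity) (by positivity)) hfar
            (prod_nonneg fun _ _ => abs_nonneg _) (by positivity)
      _ = _ := by ring
  · -- the number of the other strands
    have hsub : (pcs ω D).filter (fun A => ¬ IsLp D A ∧ A ∉ F) ⊆
        bigs D (Zo i (q m) rd) (dq K rd) ω ∪ bigs D (hbox (q l) rc) (dq K rc) ω := by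
      intro A hA
      rw [mem_filter] at hA
      obtain ⟨hA, hAl, hAF⟩ := hA
      rw [hFdef, mem_filter] at hAF
      have h1 : ¬ Far univ D Zb dd A := fun h' => hAF ⟨hA, h'⟩
      unfold Far at h1
      push Not at h1
      obtain ⟨j, -, h2, h3⟩ := h1 hAl
      rw [mem_union]
      rcases j with _ | _
      · right
        exact mem_filter.2 ⟨hA, h2, h3⟩
      · left
        exact mem_filter.2 ⟨hA, h2, h3⟩
    refine (card_le_card hsub).trans ((card_union_le _ _).trans ?_)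
    omega
  · intro A hA h1 h2 h3
    obtain ⟨hA', hAl⟩ := hFF A hA
    have h4 : Ard q l A := ((hb A hA').2 h3).1
    have h5 : Vz (Zo i (q m) rd) A := by
      by_contra h'
      exact h2 ((ha A hA').1 ⟨h1, h'⟩)
    rw [hFdef, mem_filter] at hA
    have h6 := hA.2.2 true (mem_univ _)
    have h7 : Small (dq K rd) A := by
      by_contra h'
      exact h6 ⟨h5, h'⟩
    exact small_notM hq hD hSd hFd hFc (by omega) hmn h0d hsep hA' h7 h5 h4

open Classical in
/-- **The majorant: bump and point charge at `q m`, point charge at `q l`.** -/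
theorem maj5M (hθ0 : 0 < θ) (hθ1 : θ ≤ Real.pi / 3) (hln : l < n) (hmn : m < n)
    (hSd : Sc K rd) (hFd : Flt ((rk i).S D) ((rk i).t (q m)) (2 * rd)) (hFc : Flt D (q l) R)
    (hR : 1 ≤ R) (h0d : (rk i).t (q 0) ∉ sites (hbox ((rk i).t (q m)) (2 * rd)))
    (hsep : Disjoint (Zo i (q m) (2 * rd)) (hbox (q l) R))
    (hgd : ∀ z, |fd z| ≤ K / (rd : ℝ) ^ 2)
    (hsd : ∀ z, (rk i).F fd z ≠ 0 → z ∈ sites (core K ((rk i).t (q m)) rd))
    (htd : ∑ᶠ z, fd z = θ) (ω : Cfg) {Nd : ℕ}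
    (hNd : (bigs D (Zo i (q m) rd) (dq K rd) ω).card ≤ Nd) :
    |XG θ q D n (fun z => (fd z - dlt (q m) θ z) - dlt (q l) θ z) ω| ≤ MW θ ^ 2 *
      ((MW θ ^ 3) ^ Nd * Real.exp (-(Real.tan θ * Sm fd (dq K rd) ω))) := by
  have hM2 := two_le_MW hθ0 hθ1
  have hM1 : 1 ≤ MW θ := by linarith
  have hrd := hSd.r8
  have hZd : Zo i (q m) rd ⊆ D := (Zo_mono _ (by omega)).trans (Zo_sub hFd)
  have hqd : q m ∈ sites (Zo i (q m) rd) := b_mem_Zo _ (by omega)
  have hqc : q l ∈ sites (hbox (q l) R) := by rw [mem_sites_hbox hR]; omega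
  have hms : q m ∈ sites D := sites_mono hZd hqd
  have hls : q l ∈ sites D := sites_mono (hbox_sub hFc) hqc
  set w' : Finset Ed → ℝ → ℝ := fun A t => wB θ (gB θ) q D n A (t - (if Ard q m A then θ else 0) -
    if Ard q l A then θ else 0) with hw'
  set w : Finset Ed → ℝ → ℝ := fun A t => if IsLp D A then H562.wt θ t else w' A t with hw
  have hwt : WtQ θ (MW θ) D w :=
    { a0 := hθ0
      a1 := hθ1
      M1 := hM1
      loop := fun A t hA => by rw [hw]; simp only; rw [if_pos hA]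
      bd := fun A t => by
        rw [hw]
        simp only
        split_ifs with h
        · have := (wtq hθ0 hθ1 q D n).loop A t h
          rw [← this]
          exact wB_bd hθ0 hθ1 q D n A t
        · exact wB_bd hθ0 hθ1 q D n A _ }
  have hB := bq_one hq hD (oneM hq hD hSd hFd hgd hsd)
  have hmaj := maj_any (mf := fun _ A => if Ard q m A ∧ ¬ Vz (Zo i (q m) rd) A then θ else 0)
    hwt hB ω (fun _ _ A hA hAl hfar => mass_farM hq hD hSd hFd hmn h0d hsd htd hA hAl hfar)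
  simp only [sum_singleton, prod_singleton] at hmaj
  have e0 : |XG θ q D n (fun z => (fd z - dlt (q m) θ z) - dlt (q l) θ z) ω| =
      ∏ A ∈ pcs ω D, |w A (mass D (q 0) fd A)| := by
    unfold XG QX.XB
    rw [abs_prod]
    refine prod_congr rfl fun A hA => ?_
    rw [mass_sub' (fun z => fd z - dlt (q m) θ z), mass_sub' fd, mass_dlt hq hD hmn.le hA hms,
      mass_dlt hq hD hln.le hA hls]
    congr 1
    simp only [hw, hw']
    by_cases h : IsLp D A
    · rw [if_pos h, if_neg (ard_lp hq hD hA h), if_neg (ard_lp hq hD hA h), sub_zero, sub_zero]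
      exact (wtq hθ0 hθ1 q D n).loop A _ h
    · rw [if_neg h]
  rw [e0]
  refine hmaj.trans ?_
  set F : Finset (Finset Ed) := (pcs ω D).filter
    (Far {()} D (fun _ => Zo i (q m) rd) (fun _ => dq K rd)) with hFdef
  obtain ⟨a, ham, ha⟩ := off_pos hq hD ω hZd (econ_Zo _ (by omega)) hmn.le hqd
  have hFF : ∀ A ∈ F, A ∈ pcs ω D ∧ ¬ IsLp D A := fun A hA => by
    rw [hFdef, mem_filter] at hA
    exact ⟨hA.1, hA.2.1⟩
  have hfar := far_neg hq hD (ω := ω) (F := F) (a := a) (b := l) (m := m) (N := Nd)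
    (sin_pos' hθ0 hθ1) (by have := cos_half hθ0 hθ1; linarith) hM2
    (ham.trans hmn.le) hln.le hmn.le hFF ?_ ?_
  · have e1 : ∏ A ∈ F, |w A (if Ard q m A ∧ ¬ Vz (Zo i (q m) rd) A then θ else 0)| =
        ∏ A ∈ F, |wB θ (gB θ) q D n A
          (-((if Ard q m A ∧ ¬ Ard q a A then θ else 0) + if Ard q l A then θ else 0))| := by
      refine prod_congr rfl fun A hA => ?_
      obtain ⟨hA', hAl⟩ := hFF A hA
      simp only [hw, hw']
      rw [if_neg hAl]
      congr 2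
      by_cases h3 : Ard q a A
      · have h4 := (ha A hA').2 h3
        have h5 : ¬ (Ard q m A ∧ ¬ Ard q a A) := fun h' => h'.2 h3
        rw [if_pos h4, if_pos h4.1, if_neg h5]
        ring
      · have h6 : ¬ (Ard q m A ∧ ¬ Vz (Zo i (q m) rd) A) := fun h' => h3 ((ha A hA').1 h')
        by_cases h4 : Ard q m A
        · have h5 : Ard q m A ∧ ¬ Ard q a A := ⟨h4, h3⟩
          rw [if_neg h6, if_pos h4, if_pos h5]
          ring
        · have h5 : ¬ (Ard q m A ∧ ¬ Ard q a A) := fun h' => h4 h'.1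
          rw [if_neg h6, if_neg h4, if_neg h5]
          ring
    rw [e1]
    have k1 : MW θ ^ (bigs D (Zo i (q m) rd) (dq K rd) ω).card ≤ MW θ ^ Nd :=
      pow_le_pow_right₀ hM1 hNd
    have p1 := Real.exp_pos (-(Real.tan θ * Sm fd (dq K rd) ω))
    calc _ ≤ (MW θ ^ Nd * Real.exp (-(Real.tan θ * Sm fd (dq K rd) ω))) *
          MW θ ^ (2 + 2 * Nd) := by
          refine mul_le_mul (mul_le_mul_of_nonneg_right k1 p1.le) hfar
            (prod_nonneg fun _ _ => abs_nonneg _) (by positivity)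
      _ = _ := by ring
  · have hsub : (pcs ω D).filter (fun A => ¬ IsLp D A ∧ A ∉ F) ⊆
        bigs D (Zo i (q m) rd) (dq K rd) ω := by
      intro A hA
      rw [mem_filter] at hA
      obtain ⟨hA, hAl, hAF⟩ := hA
      rw [hFdef, mem_filter] at hAF
      have h1 : ¬ Far {()} D (fun _ => Zo i (q m) rd) (fun _ => dq K rd) A :=
        fun h' => hAF ⟨hA, h'⟩
      unfold Far at h1
      push Not at h1
      obtain ⟨j, -, h2, h3⟩ := h1 hAl
      exact mem_filter.2 ⟨hA, h2, h3⟩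
    exact (card_le_card hsub).trans hNd
  · intro A hA h1 h2 h3
    obtain ⟨hA', hAl⟩ := hFF A hA
    have h5 : Vz (Zo i (q m) rd) A := by
      by_contra h'
      exact h2 ((ha A hA').1 ⟨h1, h'⟩)
    rw [hFdef, mem_filter] at hA
    have h6 := hA.2.2 () (mem_singleton_self _)
    have h7 : Small (dq K rd) A := by
      by_contra h'
      exact h6 ⟨h5, h'⟩
    exact small_notM hq hD hSd hFd hFc hR hmn h0d hsep hA' h7 h5 h3

end

end Vale.Agent.P167.H542.Q.Um
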